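import Mathlib

/-!
# P269, monodromy: small subsets of finite dimensional spaces (helper19)

`Small k S` says that `S` has Hausdorff dimension at most `k`, stably under products with vector
spaces.
-/

namespace Vale.Agent.P269.Mono

open Set Topology Filter Module
open scoped ENNReal ContDiff

variable {M N : Type} [NormedAddCommGroup M] [NormedSpace ℝ M] [NormedAddCommGroup N]
  [NormedSpace ℝ N]

/-- `S` has dimension at most `k`, stably. -/
def Small (k : ℕ) (S : Set M) : Prop :=
  ∀ (F : Type) [NormedAddCommGroup F] [NormedSpace ℝ F] [FiniteDimensional ℝ F],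
    dimH (S ×ˢ (univ : Set F)) ≤ ((k + finrank ℝ F : ℕ) : ℝ≥0∞)

omit [NormedSpace ℝ M] in
theorem Small.mono {k : ℕ} {S T : Set M} (h : Small k T) (e : S ⊆ T) : Small k S :=
  fun F _ _ _ => (dimH_mono (prod_mono e Subset.rfl)).trans (h F)

omit [NormedSpace ℝ M] in
theorem Small.le {k l : ℕ} {S : Set M} (h : Small k S) (e : k ≤ l) : Small l S :=
  fun F _ _ _ => (h F).trans (by exact_mod_cast Nat.add_le_add_right e _)

omit [NormedSpace ℝ M] in
theorem small_empty (k : ℕ) : Small k (∅ : Set M) := fun F _ _ _ => by simp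

theorem small_univ [FiniteDimensional ℝ M] : Small (finrank ℝ M) (univ : Set M) :=
  fun F _ _ _ => by rw [univ_prod_univ, Real.dimH_univ_eq_finrank, finrank_prod]

theorem small_finrank [FiniteDimensional ℝ M] (S : Set M) : Small (finrank ℝ M) S :=
  small_univ.mono (subset_univ S)

omit [NormedSpace ℝ M] in
theorem Small.iUnion {ι : Sort*} [Countable ι] {k : ℕ} {S : ι → Set M} (h : ∀ i, Small k (S i)) :
    Small k (⋃ i, S i) := fun F _ _ _ => by
  rw [iUnion_prod_const, dimH_iUnion]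
  exact iSup_le fun i => h i F

omit [NormedSpace ℝ M] in
theorem Small.union {k : ℕ} {S T : Set M} (h : Small k S) (h' : Small k T) : Small k (S ∪ T) :=
  fun F _ _ _ => by
    rw [union_prod, dimH_union]
    exact max_le (h F) (h' F)

omit [NormedSpace ℝ M] in
theorem Small.biUnion {ι : Type*} {s : Set ι} (hs : s.Countable) {k : ℕ} {S : ι → Set M}
    (h : ∀ i ∈ s, Small k (S i)) : Small k (⋃ i ∈ s, S i) := by
  have := hs.to_subtype
  rw [biUnion_eq_iUnion]
  exact Small.iUnion fun i : s => h i.1 i.2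

theorem Small.image [FiniteDimensional ℝ M] {k : ℕ} {S : Set M} (h : Small k S) {f : M → N}
    (hf : ∀ x ∈ S, ContDiffAt ℝ 1 f x) : Small k (f '' S) := fun F _ _ _ => by
  have e : (f '' S) ×ˢ (univ : Set F) = Prod.map f id '' (S ×ˢ (univ : Set F)) := by
    rw [prodMap_image_prod, image_id]
  rw [e]
  refine le_trans (dimH_image_le_of_locally_lipschitzOn fun x hx => ?_) (h F)
  have h1 : ContDiffAt ℝ 1 (Prod.map f (id : F → F)) x :=
    (hf x.1 hx.1).prodMap' contDiffAt_id
  obtain ⟨K, t, ht, hK⟩ := h1.exists_lipschitzOnWith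
  exact ⟨K, t, mem_nhdsWithin_of_mem_nhds ht, hK⟩

theorem Small.prod [FiniteDimensional ℝ N] {k : ℕ} {S : Set M} (h : Small k S) :
    Small (k + finrank ℝ N) (S ×ˢ (univ : Set N)) := fun F _ _ _ => by
  have e : (S ×ˢ (univ : Set N)) ×ˢ (univ : Set F) =
      (ContinuousLinearEquiv.prodAssoc ℝ M N F) ⁻¹' (S ×ˢ (univ : Set (N × F))) := by
    ext x
    simp
  rw [e, ContinuousLinearEquiv.dimH_preimage]
  refine (h (N × F)).trans (le_of_eq ?_)
  rw [finrank_prod, add_assoc]

theorem Small.dense [FiniteDimensional ℝ M] {k : ℕ} {S : Set M} (h : Small k S)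
    (hk : k < finrank ℝ M) : Dense Sᶜ := by
  apply dense_compl_of_dimH_lt_finrank
  have h1 := h (Fin 0 → ℝ)
  have e : S = Prod.fst '' (S ×ˢ (univ : Set (Fin 0 → ℝ))) := by
    rw [fst_image_prod _ univ_nonempty]
  have h2 : dimH S ≤ dimH (S ×ˢ (univ : Set (Fin 0 → ℝ))) := by
    conv_lhs => rw [e]
    exact LipschitzWith.prod_fst.dimH_image_le _
  refine lt_of_le_of_lt (h2.trans h1) ?_
  simp only [finrank_fin_fun, add_zero]
  exact_mod_cast hk

theorem Small.exists_notMem [FiniteDimensional ℝ M] {k : ℕ} {S : Set M} (h : Small k S)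
    (hk : k < finrank ℝ M) {O : Set M} {x : M} (hO : O ∈ 𝓝 x) : ∃ y ∈ O, y ∉ S := by
  obtain ⟨y, h1, h2⟩ := (h.dense hk).inter_nhds_nonempty hO
  exact ⟨y, h2, h1⟩

omit [NormedSpace ℝ M] in
/-- smallness of an image is local on the source -/
theorem Small.of_locally {Y : Type} [TopologicalSpace Y] [SecondCountableTopology Y] {k : ℕ}
    {T : Set Y} {f : Y → M} (h : ∀ y ∈ T, ∃ O ∈ 𝓝 y, Small k (f '' (T ∩ O))) :
    Small k (f '' T) := by
  choose! O hO hs using h
  obtain ⟨s, hsT, hc, hcov⟩ := TopologicalSpace.countable_cover_nhdsWithin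
    (f := fun y => T ∩ O y) (s := T) fun y hy => inter_mem_nhdsWithin T (hO y hy)
  refine (Small.biUnion hc fun y hy => hs y (hsT hy)).mono ?_
  rintro _ ⟨y, hy, rfl⟩
  obtain ⟨z, hz, hyz⟩ := mem_iUnion₂.1 (hcov hy)
  exact mem_iUnion₂.2 ⟨z, hz, y, hyz, rfl⟩

theorem Small.of_locally' [FiniteDimensional ℝ M] {k : ℕ} {T : Set M}
    (h : ∀ y ∈ T, ∃ O ∈ 𝓝 y, Small k (T ∩ O)) : Small k T := by
  have := Small.of_locally (k := k) (T := T) (f := id) (by simpa using h)
  simpa using this

/-- images of a small set under a family of maps -/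
theorem Small.sweep [FiniteDimensional ℝ M] {F : Type} [NormedAddCommGroup F] [NormedSpace ℝ F]
    [FiniteDimensional ℝ F] {k : ℕ} {S : Set M} (h : Small k S) {f : M × F → N}
    (hf : ContDiff ℝ 1 f) : Small (k + finrank ℝ F) {y | ∃ s ∈ S, ∃ t, y = f (s, t)} := by
  refine ((h.prod (N := F)).image fun x _ => hf.contDiffAt).mono ?_
  rintro _ ⟨s, hs, t, rfl⟩
  exact ⟨(s, t), ⟨hs, trivial⟩, rfl⟩

/-- zero sets of submersions -/
theorem small_zero [FiniteDimensional ℝ M] [FiniteDimensional ℝ N] {g : M → N} {p : M}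
    (hg : ContDiffAt ℝ 1 g p) (hs : Function.Surjective (fderiv ℝ g p)) {k : ℕ}
    (hk : finrank ℝ M ≤ k + finrank ℝ N) : ∃ O ∈ 𝓝 p, Small k (g ⁻¹' {0} ∩ O) := by
  set A := fderiv ℝ g p with hA
  obtain ⟨π, hπ⟩ := (LinearMap.ker (A : M →ₗ[ℝ] N)).exists_isCompl
  let pr : M →L[ℝ] LinearMap.ker (A : M →ₗ[ℝ] N) :=
    LinearMap.toContinuousLinearMap (Submodule.projectionOnto _ _ hπ)
  have hr : finrank ℝ N + finrank ℝ (LinearMap.ker (A : M →ₗ[ℝ] N)) = finrank ℝ M := by
    have := LinearMap.finrank_range_add_finrank_ker (A : M →ₗ[ℝ] N)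
    rwa [LinearMap.range_eq_top.2 hs, finrank_top] at this
  have hinj : Function.Injective (A.prod pr).toLinearMap := by
    rw [injective_iff_map_eq_zero]
    intro v hv
    have h1 : v ∈ LinearMap.ker (A : M →ₗ[ℝ] N) := congrArg Prod.fst hv
    have h2 : pr v = 0 := congrArg Prod.snd hv
    have h3 : pr v = ⟨v, h1⟩ := Submodule.projectionOnto_apply_left hπ ⟨v, h1⟩
    rw [h3] at h2
    exact congrArg Subtype.val h2
  let L : M ≃L[ℝ] N × LinearMap.ker (A : M →ₗ[ℝ] N) :=
    (LinearEquiv.ofInjectiveOfFinrankEq _ hinj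
      (by rw [finrank_prod, hr])).toContinuousLinearEquiv
  have hL : (L : M →L[ℝ] _) = A.prod pr := ContinuousLinearMap.ext fun _ => rfl
  have hG : ContDiffAt ℝ 1 (fun x => (g x, pr x)) p := hg.prodMk pr.contDiff.contDiffAt
  have hG' : HasFDerivAt (fun x => (g x, pr x)) (L : M →L[ℝ] _) p := by
    rw [hL]
    exact (hg.differentiableAt one_ne_zero).hasFDerivAt.prodMk pr.hasFDerivAt
  set e := hG.toOpenPartialHomeomorph _ hG' one_ne_zero with he
  have hp : p ∈ e.source := hG.mem_toOpenPartialHomeomorph_source hG' one_ne_zero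
  have h1 : ContDiffAt ℝ 1 e.symm (g p, pr p) := hG.to_localInverse hG' one_ne_zero
  have h2 : ∀ᶠ y in 𝓝 (g p, pr p), ContDiffAt ℝ 1 e.symm y := h1.eventually (by simp)
  have h3 : ∀ᶠ x in 𝓝 p, ContDiffAt ℝ 1 e.symm (g x, pr x) := hG.continuousAt.eventually h2
  refine ⟨_, inter_mem h3 (e.open_source.mem_nhds hp), ?_⟩
  have h4 : Small k ((fun v => e.symm (0, v)) ''
      {v : LinearMap.ker (A : M →ₗ[ℝ] N) | ContDiffAt ℝ 1 e.symm (0, v)}) :=
    ((small_finrank _).image fun v hv =>
      ContDiffAt.comp v hv (contDiffAt_const.prodMk contDiffAt_id)).le (by omega)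
  refine h4.mono ?_
  rintro x ⟨hx, hx1, hx2⟩
  have hx0 : g x = 0 := hx
  refine ⟨pr x, by simpa [hx0] using hx1, ?_⟩
  have := e.left_inv hx2
  rw [← hx0]
  exact this

/-- points hidden behind a small set -/
theorem Small.shadow [FiniteDimensional ℝ M] {k : ℕ} {S : Set M} (h : Small k S) {a : M}
    (ha : a ∉ S) : Small (k + 1) {c | ¬Disjoint (segment ℝ a c) S} := by
  have := h.sweep (F := ℝ) (f := fun q => a + q.2 • (q.1 - a)) (by fun_prop)
  rw [finrank_self] at this
  refine this.mono fun c hc => ?_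
  obtain ⟨y, hy, hS⟩ := not_disjoint_iff.1 hc
  rw [segment_eq_image'] at hy
  obtain ⟨t, -, rfl⟩ := hy
  have ht : t ≠ 0 := by
    rintro rfl
    exact ha (by simpa using hS)
  exact ⟨_, hS, t⁻¹, by simp [smul_smul, inv_mul_cancel₀ ht]⟩

/-- points from which a segment is partially hidden by a small set -/
theorem Small.shadow₂ [FiniteDimensional ℝ M] {k : ℕ} {S : Set M} (h : Small k S) {a b : M}
    (ha : Disjoint (segment ℝ a b) S) :
    Small (k + 2) {c | ∃ x ∈ segment ℝ a b, ¬Disjoint (segment ℝ x c) S} := by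
  have := h.sweep (F := ℝ × ℝ)
    (f := fun q => (a + q.2.1 • (b - a)) + q.2.2 • (q.1 - (a + q.2.1 • (b - a)))) (by fun_prop)
  rw [finrank_prod, finrank_self] at this
  refine this.mono ?_
  rintro c ⟨x, hx, hc⟩
  obtain ⟨y, hy, hS⟩ := not_disjoint_iff.1 hc
  rw [segment_eq_image'] at hy
  obtain ⟨t, -, rfl⟩ := hy
  have ht : t ≠ 0 := by
    rintro rfl
    exact disjoint_left.1 ha hx (by simpa using hS)
  rw [segment_eq_image'] at hx
  obtain ⟨s, -, rfl⟩ := hx
  exact ⟨_, hS, (s, t⁻¹), by simp [smul_smul, inv_mul_cancel₀ ht]⟩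

/-- two points of a convex open set can be joined in two steps in the complement of a set of
codimension two -/
theorem Small.exists_mid [FiniteDimensional ℝ M] {k : ℕ} {D : Set M} (h : Small k D)
    (hk : k + 2 ≤ finrank ℝ M) {O : Set M} (hO : IsOpen O) (hc : Convex ℝ O) {a b : M}
    (ha : a ∈ O \ D) (hb : b ∈ O \ D) :
    ∃ c, segment ℝ a c ⊆ O \ D ∧ segment ℝ c b ⊆ O \ D := by
  obtain ⟨c, hcO, hc'⟩ := ((h.shadow ha.2).union (h.shadow hb.2)).exists_notMem (by omega)
    (hO.mem_nhds ha.1)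
  simp only [mem_union, mem_ofPred_eq, not_or, not_not] at hc'
  refine ⟨c, subset_sdiff.2 ⟨hc.segment_subset ha.1 hcO, hc'.1⟩,
    subset_sdiff.2 ⟨hc.segment_subset hcO hb.1, ?_⟩⟩
  rw [segment_symm]
  exact hc'.2

theorem Small.isPreconnected_diff [FiniteDimensional ℝ M] {k : ℕ} {D : Set M} (h : Small k D)
    (hk : k + 2 ≤ finrank ℝ M) {O : Set M} (hO : IsOpen O) (hc : Convex ℝ O) :
    IsPreconnected (O \ D) := by
  refine isPreconnected_of_forall_pair fun a ha b hb => ?_
  obtain ⟨c, h1, h2⟩ := h.exists_mid hk hO hc ha hb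
  exact ⟨segment ℝ a c ∪ segment ℝ c b, union_subset h1 h2, Or.inl (left_mem_segment ℝ a c),
    Or.inr (right_mem_segment ℝ c b), IsPreconnected.union c (right_mem_segment ℝ a c)
      (left_mem_segment ℝ c b) (convex_segment a c).isPreconnected
      (convex_segment c b).isPreconnected⟩

section Hol

variable {P Q : Type} [NormedAddCommGroup P] [NormedSpace ℂ P] [FiniteDimensional ℂ P]
  [NormedAddCommGroup Q] [NormedSpace ℂ Q] [FiniteDimensional ℂ Q]

theorem finrank_real (P : Type) [NormedAddCommGroup P] [NormedSpace ℂ P] [FiniteDimensional ℂ P] :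
    finrank ℝ P = 2 * finrank ℂ P := finrank_real_of_complex P

/-- zero sets of holomorphic submersions -/
theorem small_zero_hol {g : P → Q} {p : P} (hg : ContDiffAt ℂ 1 g p)
    (hs : Function.Surjective (fderiv ℂ g p)) {k : ℕ}
    (hk : 2 * finrank ℂ P ≤ k + 2 * finrank ℂ Q) : ∃ O ∈ 𝓝 p, Small k (g ⁻¹' {0} ∩ O) := by
  refine small_zero (hg.restrict_scalars ℝ) ?_ (by rwa [finrank_real, finrank_real])
  rw [(hg.differentiableAt one_ne_zero).fderiv_restrictScalars ℝ]
  exact hs

/-- the directional derivative -/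
noncomputable def dv (v : P) (h : P → ℂ) : P → ℂ := fun z => fderiv ℂ h z v

omit [FiniteDimensional ℂ P] in
theorem contDiff_dv (v : P) {h : P → ℂ} (hh : ContDiff ℂ ∞ h) (j : ℕ) :
    ContDiff ℂ ∞ ((dv v)^[j] h) := by
  induction j with
  | zero => exact hh
  | succ j ih =>
    rw [Function.iterate_succ_apply']
    exact (ih.fderiv_right (m := ∞) (by simp)).clm_apply contDiff_const

omit [FiniteDimensional ℂ P] in
theorem iteratedDeriv_line (z v : P) (j : ℕ) : ∀ {h : P → ℂ}, ContDiff ℂ ∞ h →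
    iteratedDeriv j (fun t : ℂ => h (z + t • v)) = fun t => (dv v)^[j] h (z + t • v) := by
  induction j with
  | zero => intro h _; simp
  | succ j ih =>
    intro h hh
    rw [iteratedDeriv_succ', Function.iterate_succ_apply, ← ih (h := dv v h) (contDiff_dv v hh 1)]
    congr 1
    funext t
    have h1 : HasDerivAt (fun t : ℂ => z + t • v) v t := by
      simpa using ((hasDerivAt_id t).smul_const v).const_add z
    exact ((hh.differentiable (by simp) _).hasFDerivAt.comp_hasDerivAt t h1).deriv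

/-- the zero set of a non zero entire function has codimension two -/
theorem small_zero_fun {h : P → ℂ} (hh : ContDiff ℂ ∞ h) {a : P} (ha : h a ≠ 0) {k : ℕ}
    (hk : 2 * finrank ℂ P ≤ k + 2) : Small k (h ⁻¹' {0}) := by
  have key : ∀ v j, Small k {z | (dv v)^[j] h z = 0 ∧ (dv v)^[j + 1] h z ≠ 0} := by
    intro v j
    refine Small.of_locally' fun z hz => ?_
    obtain ⟨O, hO, hs⟩ := small_zero_hol (g := (dv v)^[j] h) (p := z)
      ((contDiff_dv v hh j).contDiffAt.of_le (by simp)) (fun y => by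
        have h2 := hz.2
        rw [Function.iterate_succ_apply'] at h2
        refine ⟨(y / fderiv ℂ ((dv v)^[j] h) z v) • v, ?_⟩
        rw [map_smul, smul_eq_mul]
        exact div_mul_cancel₀ _ h2) (k := k) (by simpa using hk)
    exact ⟨O, hO, hs.mono fun y hy => ⟨hy.1.1, hy.2⟩⟩
  refine Small.of_locally' fun z _ => ?_
  have h1 : ∃ m, (dv (a - z))^[m] h z ≠ 0 := by
    by_contra hc
    push Not at hc
    have hd : Differentiable ℂ fun t : ℂ => h (z + t • (a - z)) :=
      (hh.differentiable (by simp)).comp (by fun_prop)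
    have := Complex.taylorSeries_eq_of_entire' (c := 0) (z := 1) hd
    simp only [iteratedDeriv_line z (a - z) _ hh, zero_smul, add_zero, hc, mul_zero, zero_mul,
      tsum_zero, one_smul, add_sub_cancel] at this
    exact ha this.symm
  obtain ⟨m, hm⟩ := h1
  refine ⟨_, (contDiff_dv (a - z) hh m).continuous.continuousAt.eventually_ne hm,
    (Small.iUnion fun j => key (a - z) j).mono ?_⟩
  rintro y ⟨hy0, hy⟩
  by_contra hc
  simp only [mem_iUnion, mem_ofPred_eq, not_exists, not_and, not_not] at hc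
  have : ∀ j, (dv (a - z))^[j] h y = 0 := fun j => by
    induction j with
    | zero => exact hy0
    | succ j ih => exact hc j ih
  exact hy (this m)

end Hol

end Vale.Agent.P269.Mono
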