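import Vale.Agent.P269.Mono.Small

/-!
# P269, monodromy: discriminants of linear families (helper87)
-/

namespace Vale.Agent.P269.Mono

open Set Topology Filter Module Function
open scoped ContDiff

set_option linter.unusedSectionVars false

section General

variable {P Q : Type} [NormedAddCommGroup P] [NormedSpace ℂ P] [FiniteDimensional ℂ P]
  [NormedAddCommGroup Q] [NormedSpace ℂ Q] [FiniteDimensional ℂ Q]

theorem Small.image_hol {k : ℕ} {S : Set P} (h : Small k S) {f : P → Q} (hf : ContDiff ℂ ∞ f) :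
    Small k (f '' S) :=
  h.image fun _ _ => ((hf.of_le (by simp)).restrict_scalars ℝ).contDiffAt

/-- preimages of small sets under immersions -/
theorem small_preimage {f : P → Q} {p : P} (hf : ContDiffAt ℂ 1 f p)
    (hi : Injective (fderiv ℂ f p)) {k : ℕ} {Z : Set Q} (hZ : Small k Z) :
    ∃ O ∈ 𝓝 p, Small k (f ⁻¹' Z ∩ O) := by
  obtain ⟨L₀, hL⟩ := (fderiv ℂ f p).toLinearMap.exists_leftInverse_of_injective
    (LinearMap.ker_eq_bot.2 hi)
  let L : Q →L[ℂ] P := LinearMap.toContinuousLinearMap L₀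
  have hG : ContDiffAt ℂ 1 (fun x => L (f x)) p := L.contDiff.contDiffAt.comp p hf
  have hG' : HasFDerivAt (fun x => L (f x)) (ContinuousLinearEquiv.refl ℂ P : P →L[ℂ] P) p :=
    (L.hasFDerivAt.comp p (hf.differentiableAt one_ne_zero).hasFDerivAt).congr_fderiv
      (ContinuousLinearMap.ext fun v => LinearMap.congr_fun hL v)
  set e := hG.toOpenPartialHomeomorph _ hG' one_ne_zero with he
  have hp : p ∈ e.source := hG.mem_toOpenPartialHomeomorph_source hG' one_ne_zero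
  have h1 : ContDiffAt ℂ 1 e.symm (L (f p)) := hG.to_localInverse hG' one_ne_zero
  have h2 : ∀ᶠ y in 𝓝 (L (f p)), ContDiffAt ℂ 1 e.symm y := h1.eventually (by simp)
  have h3 : ∀ᶠ x in 𝓝 p, ContDiffAt ℂ 1 e.symm (L (f x)) := hG.continuousAt.eventually h2
  refine ⟨_, inter_mem h3 (e.open_source.mem_nhds hp), ?_⟩
  have h4 : Small k ((fun z => e.symm (L z)) '' (Z ∩ {z | ContDiffAt ℂ 1 e.symm (L z)})) :=
    (hZ.mono inter_subset_left).image fun z hz => by
      have h5 : ContDiffAt ℂ 1 e.symm (L z) := hz.2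
      exact (h5.comp z L.contDiff.contDiffAt).restrict_scalars ℝ
  refine h4.mono ?_
  rintro x ⟨hx, hx1, hx2⟩
  exact ⟨f x, ⟨hx, hx1⟩, e.left_inv hx2⟩

theorem contDiff_det {A : Q → P →L[ℂ] P} (hA : ContDiff ℂ ∞ A) :
    ContDiff ℂ ∞ fun q => LinearMap.det (A q).toLinearMap := by
  let b := finBasis ℂ P
  simp only [← LinearMap.det_toMatrix b, Matrix.det_apply', LinearMap.toMatrix_apply]
  refine ContDiff.sum fun σ _ => contDiff_const.mul (contDiff_prod fun i _ => ?_)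
  exact (LinearMap.toContinuousLinearMap (b.coord (σ i))).contDiff.comp
    (hA.clm_apply contDiff_const)

end General

variable {M W T : Type} [NormedAddCommGroup M] [NormedSpace ℂ M] [FiniteDimensional ℂ M]
  [NormedAddCommGroup W] [NormedSpace ℂ W] [FiniteDimensional ℂ W]
  [NormedAddCommGroup T] [NormedSpace ℂ T] [FiniteDimensional ℂ T]

/-- the Jacobian of the equations of the critical points -/
noncomputable def Jc (G : M × W → T × ℂ) (u : M) (w : W) : W →L[ℂ] T :=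
  fderiv ℂ (fun w => (G (u, w)).1) w

/-- a family of linear conditions on `u` with a common section -/
structure Fam (G : M × W → T × ℂ) (ρ : T × ℂ →L[ℂ] M) (ψ : W → T →L[ℂ] ℂ) : Prop where
  smooth : ContDiff ℂ ∞ G
  add : ∀ u v w, G (u + v, w) = G (u, w) + G (v, w)
  smul : ∀ (c : ℂ) u w, G (c • u, w) = c • G (u, w)
  sec : ∀ τ w, G (ρ τ, w) = τ
  dim : finrank ℂ W = finrank ℂ T
  lag : ∀ u w, G (u, w) = 0 → ∀ δ, fderiv ℂ (fun w => (G (u, w)).2) w δ = -ψ w (Jc G u w δ)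

namespace Fam

variable {G : M × W → T × ℂ} {ρ : T × ℂ →L[ℂ] M} {ψ : W → T →L[ℂ] ℂ} (h : Fam G ρ ψ)

/-- the linear conditions -/
noncomputable def lin (w : W) : M →L[ℂ] T × ℂ := LinearMap.toContinuousLinearMap
  { toFun := fun u => G (u, w)
    map_add' := fun u v => h.add u v w
    map_smul' := fun c u => h.smul c u w }

theorem lin_apply (w : W) (u : M) : h.lin w u = G (u, w) := rfl

/-- the parameter space of the discriminant -/
abbrev Par := W × LinearMap.ker (h.lin 0).toLinearMap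

/-- the parametrisation of the discriminant -/
noncomputable def th (p : h.Par) : M := p.2 - ρ (G (p.2, p.1))

theorem contDiff_th : ContDiff ℂ ∞ h.th := by
  have h1 : ContDiff ℂ ∞ fun p : h.Par => (p.2 : M) :=
    (LinearMap.ker (h.lin 0).toLinearMap).subtypeL.contDiff.comp contDiff_snd
  exact h1.sub (ρ.contDiff.comp (h.smooth.comp (h1.prodMk contDiff_fst)))

theorem G_th (p : h.Par) : G (h.th p, p.1) = 0 := by
  rw [← h.lin_apply, th, map_sub, lin_apply, lin_apply, h.sec, sub_self]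

theorem proj_th (p : h.Par) : h.th p - ρ (h.lin 0 (h.th p)) = p.2 := by
  have h1 : h.lin 0 p.2 = 0 := p.2.2
  rw [th, map_sub, h1, lin_apply, h.sec, zero_sub, map_neg]
  abel

theorem exists_th {u : M} {w : W} (hu : G (u, w) = 0) : ∃ v, h.th (w, v) = u := by
  refine ⟨⟨u - ρ (G (u, 0)), ?_⟩, ?_⟩
  · show h.lin 0 _ = 0
    rw [map_sub, lin_apply, lin_apply, h.sec, sub_self]
  · show u - ρ (G (u, 0)) - ρ (h.lin w (u - ρ (G (u, 0)))) = u
    rw [map_sub, lin_apply, lin_apply, h.sec, hu, zero_sub, map_neg]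
    abel

theorem finrank_par : finrank ℂ h.Par + 1 = finrank ℂ M := by
  have h1 := LinearMap.finrank_range_add_finrank_ker (h.lin 0).toLinearMap
  rw [LinearMap.range_eq_top.2 fun τ => ⟨ρ τ, h.sec τ 0⟩, finrank_top, finrank_prod,
    finrank_self] at h1
  rw [finrank_prod, h.dim]
  omega

include h

theorem small_all {k : ℕ} (hk : finrank ℝ M ≤ k + 2) : Small k {u | ∃ w, G (u, w) = 0} := by
  have h1 := h.finrank_par
  rw [finrank_real] at hk
  refine ((small_univ.image_hol h.contDiff_th).le (by rw [finrank_real]; omega)).mono ?_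
  rintro u ⟨w, hw⟩
  obtain ⟨v, hv⟩ := h.exists_th hw
  exact ⟨_, trivial, hv⟩

theorem small_fun {φ : h.Par → ℂ} (hφ : ContDiff ℂ ∞ φ) {a : h.Par} (ha : φ a ≠ 0) {k : ℕ}
    (hk : finrank ℝ M ≤ k + 4) : Small k (φ ⁻¹' {0}) := by
  have h1 := h.finrank_par
  rw [finrank_real] at hk
  exact small_zero_fun hφ ha (by omega)

theorem small_hyp {φ : W → ℂ} (hφ : ContDiff ℂ ∞ φ) {a : W} (ha : φ a ≠ 0) {k : ℕ}
    (hk : finrank ℝ M ≤ k + 4) : Small k {u | ∃ w, φ w = 0 ∧ G (u, w) = 0} := by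
  refine ((h.small_fun (φ := fun p => φ p.1) (hφ.comp contDiff_fst) (a := (a, 0)) ha
    hk).image_hol h.contDiff_th).mono ?_
  rintro u ⟨w, h1, hw⟩
  obtain ⟨v, hv⟩ := h.exists_th hw
  exact ⟨(w, v), h1, hv⟩

theorem contDiff_Jc : ContDiff ℂ ∞ fun q : M × W => Jc G q.1 q.2 :=
  ContDiff.fderiv (f := fun (q : M × W) w => (G (q.1, w)).1) (m := ∞)
    (h.smooth.comp (contDiff_fst.fst.prodMk contDiff_snd)).fst contDiff_snd (by simp)

theorem smul_zero' {u : M} {w : W} (h0 : G (u, w) = 0) (c : ℂ) : G (c • u, w) = 0 := by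
  rw [h.smul, h0, smul_zero]

theorem Jc_smul (c : ℂ) (u : M) (w : W) : Jc G (c • u) w = c • Jc G u w := by
  have e : (fun w => (G (c • u, w)).1) = c • fun w => (G (u, w)).1 :=
    funext fun w => by rw [h.smul]; rfl
  rw [Jc, e, fderiv_const_smul_field]
  rfl

theorem inj_smul {c : ℂ} (hc : c ≠ 0) {u : M} {w : W} (h1 : Injective (Jc G u w)) :
    Injective (Jc G (c • u) w) := by
  rw [h.Jc_smul]
  exact (smul_right_injective _ hc).comp h1

theorem not_inj_zero (hW : 1 ≤ finrank ℂ W) (u : M) (w : W) :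
    ¬Injective (Jc G ((0 : ℂ) • u) w) := fun h2 => by
  rw [h.Jc_smul, zero_smul] at h2
  have : Subsingleton W := ⟨fun a b => h2 (a₁ := a) (a₂ := b) rfl⟩
  rw [finrank_zero_of_subsingleton] at hW
  omega

theorem exists_det : ∃ φ : h.Par → ℂ, ContDiff ℂ ∞ φ ∧
    ∀ p, φ p = 0 ↔ ¬Injective (Jc G (h.th p) p.1) := by
  let e : T ≃L[ℂ] W := ContinuousLinearEquiv.ofFinrankEq h.dim.symm
  refine ⟨_, contDiff_det (A := fun p : h.Par => (e : T →L[ℂ] W).comp (Jc G (h.th p) p.1))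
    (contDiff_const.clm_comp (h.contDiff_Jc.comp (h.contDiff_th.prodMk contDiff_fst))),
    fun p => ?_⟩
  rw [LinearMap.det_eq_zero_iff_ker_ne_bot, Ne, LinearMap.ker_eq_bot]
  exact not_congr (e.injective.of_comp_iff _)

theorem small_deg' {u₀ : M} {w₀ : W} (h0 : G (u₀, w₀) = 0) (h1 : Injective (Jc G u₀ w₀)) {k : ℕ}
    (hk : finrank ℝ M ≤ k + 4) : Small k {p : h.Par | ¬Injective (Jc G (h.th p) p.1)} := by
  obtain ⟨φ, hφ, e⟩ := h.exists_det
  obtain ⟨v, hv⟩ := h.exists_th h0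
  refine (h.small_fun hφ (a := (w₀, v)) (fun k => (e _).1 k ?_) hk).mono fun p hp => (e p).2 hp
  rwa [hv]

theorem small_deg {u₀ : M} {w₀ : W} (h0 : G (u₀, w₀) = 0) (h1 : Injective (Jc G u₀ w₀)) {k : ℕ}
    (hk : finrank ℝ M ≤ k + 4) : Small k {u | ∃ w, G (u, w) = 0 ∧ ¬Injective (Jc G u w)} := by
  refine ((h.small_deg' h0 h1 hk).image_hol h.contDiff_th).mono ?_
  rintro u ⟨w, hw, h2⟩
  obtain ⟨v, hv⟩ := h.exists_th hw
  exact ⟨(w, v), by rwa [mem_ofPred_eq, hv], hv⟩

theorem fderiv_apply (u : M) (w : W) (δu : M) (δ : W) : fderiv ℂ G (u, w) (δu, δ) =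
    G (δu, w) + (Jc G u w δ, fderiv ℂ (fun w => (G (u, w)).2) w δ) := by
  have d := (h.smooth.differentiable (by simp) (u, w)).hasFDerivAt
  have d0 := HasFDerivAt.comp (f := fun e => (e, w)) u d (hasFDerivAt_prodMk_left u w)
  have d1 := d0.unique (h.lin w).hasFDerivAt
  have d2 : HasFDerivAt (fun w => G (u, w)) _ w :=
    HasFDerivAt.comp (f := fun e => (u, e)) w d (hasFDerivAt_prodMk_right u w)
  rw [Jc, (HasFDerivAt.fst d2).fderiv, (HasFDerivAt.snd d2).fderiv, ← h.lin_apply, ← d1,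
    show (δu, δ) = (δu, 0) + (0, δ) by simp, map_add]
  rfl

theorem inj_th {p : h.Par} (hp : Injective (Jc G (h.th p) p.1)) : Injective (fderiv ℂ h.th p) := by
  rw [injective_iff_map_eq_zero]
  intro v hv
  have d := (h.contDiff_th.differentiable (by simp) p).hasFDerivAt
  have d1 := d.sub ((ρ.comp (h.lin 0)).hasFDerivAt.comp p d)
  have e1 := (d1.congr_of_eventuallyEq (Eventually.of_forall fun q => (h.proj_th q).symm)).unique
    ((LinearMap.ker (h.lin 0).toLinearMap).subtypeL.comp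
      (ContinuousLinearMap.snd ℂ W _)).hasFDerivAt
  have e2 : (v.2 : M) = 0 := by
    simpa [hv] using (congrArg (fun L => L v) e1).symm
  have d2 := (h.smooth.differentiable (by simp) (h.th p, p.1)).hasFDerivAt.comp p
    (d.prodMk hasFDerivAt_fst)
  have e3 := (d2.congr_of_eventuallyEq (Eventually.of_forall fun q => (h.G_th q).symm)).unique
    (hasFDerivAt_const 0 p)
  have e4 : fderiv ℂ G (h.th p, p.1) (0, v.1) = 0 := by
    simpa [hv] using congrArg (fun L => L v) e3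
  rw [h.fderiv_apply, ← h.lin_apply, map_zero, zero_add] at e4
  exact Prod.ext (hp ((congrArg Prod.fst e4).trans (map_zero _).symm)) (Subtype.ext e2)

/-- the discriminant without a small set is connected -/
theorem preconn {u₀ : M} {w₀ : W} (h0 : G (u₀, w₀) = 0) (h1 : Injective (Jc G u₀ w₀))
    (hW : 1 ≤ finrank ℂ W) {Z : Set M} (hZ : ∀ k, finrank ℝ M ≤ k + 4 → Small k Z) :
    IsPreconnected ({u | ∃ w, G (u, w) = 0} \ Z) := by
  have d1 := h.finrank_par
  have d2 : finrank ℂ W ≤ finrank ℂ h.Par := by rw [finrank_prod]; omega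
  have hk : finrank ℝ M ≤ (finrank ℝ M - 4) + 4 := by omega
  have s1 : Small (finrank ℝ M - 4) (h.th ⁻¹' Z ∩ {p | Injective (Jc G (h.th p) p.1)}) := by
    refine Small.of_locally' fun p hp => ?_
    obtain ⟨O, hO, hs⟩ := small_preimage (h.contDiff_th.contDiffAt.of_le (by simp))
      (h.inj_th hp.2) (hZ _ hk)
    exact ⟨O, hO, hs.mono fun q hq => ⟨hq.1.1, hq.2⟩⟩
  have s2 : Small (finrank ℝ M - 4) (h.th ⁻¹' Z) :=
    (s1.union (h.small_deg' h0 h1 hk)).mono fun p hp => by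
      by_cases k : Injective (Jc G (h.th p) p.1)
      exacts [.inl ⟨hp, k⟩, .inr k]
  have s3 := (s2.isPreconnected_diff (by rw [finrank_real, finrank_real]; omega) isOpen_univ
    convex_univ).image h.th h.contDiff_th.continuous.continuousOn
  convert s3 using 1
  ext u
  constructor
  · rintro ⟨⟨w, hw⟩, hu⟩
    obtain ⟨v, hv⟩ := h.exists_th hw
    exact ⟨(w, v), ⟨trivial, by rwa [mem_preimage, hv]⟩, hv⟩
  · rintro ⟨p, hp, rfl⟩
    exact ⟨⟨p.1, h.G_th p⟩, hp.2⟩

/-- two nodes -/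
theorem small_two {k : ℕ} (hk : finrank ℝ M ≤ k + 4) :
    Small k {u | ∃ w w', ψ w ≠ ψ w' ∧ G (u, w) = 0 ∧ G (u, w') = 0 ∧ Injective (Jc G u w) ∧
      Injective (Jc G u w')} := by
  let g : M × W × W → (T × ℂ) × T × ℂ := fun q => (G (q.1, q.2.1), G (q.1, q.2.2))
  have dG := fun q => (h.smooth.differentiable (by simp) q).hasFDerivAt
  have sm : ContDiff ℂ ∞ g := (h.smooth.comp (contDiff_fst.prodMk contDiff_snd.fst)).prodMk
    (h.smooth.comp (contDiff_fst.prodMk contDiff_snd.snd))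
  have s1 : Small k {q : M × W × W | ψ q.2.1 ≠ ψ q.2.2 ∧ G (q.1, q.2.1) = 0 ∧ G (q.1, q.2.2) = 0 ∧
      Injective (Jc G q.1 q.2.1) ∧ Injective (Jc G q.1 q.2.2)} := by
    refine Small.of_locally' ?_
    rintro ⟨u, w, w'⟩ ⟨a1, a2, a3, a4, a5⟩
    dsimp only at a1 a2 a3 a4 a5
    suffices H : Surjective (fderiv ℂ g (u, w, w')) by
      obtain ⟨O, hO, hs⟩ := small_zero_hol (g := g) (p := (u, w, w')) (k := k)
        (sm.contDiffAt.of_le (by simp)) H (by
          rw [finrank_real] at hk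
          simp only [finrank_prod, finrank_self, h.dim]
          omega)
      exact ⟨O, hO, hs.mono fun q hq => ⟨Prod.ext hq.1.2.1 hq.1.2.2.1, hq.2⟩⟩
    rintro ⟨⟨t, s⟩, t', s'⟩
    have d : HasFDerivAt g _ (u, w, w') :=
      ((dG (u, w)).comp (u, w, w') (hasFDerivAt_fst.prodMk hasFDerivAt_snd.fst)).prodMk
        ((dG (u, w')).comp (u, w, w') (hasFDerivAt_fst.prodMk hasFDerivAt_snd.snd))
    obtain ⟨t₁, ht₁⟩ : ∃ t₁, ψ w t₁ - ψ w' t₁ ≠ 0 := by
      by_contra hn
      push Not at hn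
      exact a1 (ContinuousLinearMap.ext fun t => sub_eq_zero.1 (hn t))
    obtain ⟨c, hc⟩ : ∃ c, c * (ψ w t₁ - ψ w' t₁) = s + ψ w t - (s' + ψ w' t') :=
      ⟨_, div_mul_cancel₀ _ ht₁⟩
    have sj : ∀ {w}, Injective (Jc G u w) → Surjective (Jc G u w) := fun {w} hw =>
      (LinearMap.injective_iff_surjective_of_finrank_eq_finrank h.dim
        (f := (Jc G u w).toLinearMap)).1 hw
    obtain ⟨δ, hδ⟩ := sj a4 (t - c • t₁)
    obtain ⟨δ', hδ'⟩ := sj a5 (t' - c • t₁)
    refine ⟨(ρ (c • t₁, s + ψ w (t - c • t₁)), δ, δ'), ?_⟩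
    rw [d.fderiv]
    show (fderiv ℂ G (u, w) (ρ _, δ), fderiv ℂ G (u, w') (ρ _, δ')) = _
    rw [h.fderiv_apply, h.fderiv_apply, h.sec, h.sec, h.lag u w a2, h.lag u w' a3, hδ, hδ']
    simp only [Prod.mk_add_mk, add_sub_cancel, add_neg_cancel_right, Prod.mk.injEq, true_and,
      map_sub, map_smul, smul_eq_mul]
    linear_combination -hc
  refine (s1.image_hol contDiff_fst).mono ?_
  rintro u ⟨w, w', hu⟩
  exact ⟨(u, w, w'), hu, rfl⟩

end Fam

end Vale.Agent.P269.Mono
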