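import Vale.Agent.P265.H185.Flow

/-!
# P269, monodromy: an equivariant Ehresmann theorem (helper19)

The zero set of a family of submersions which is proper over the base is transported along
segments by the flow of the lift of minimal norm.
-/

namespace Vale.Agent.P269.Mono

open Set Topology Filter Module Function
open scoped ContDiff Manifold

theorem isOpen_surj {𝕜 E F : Type*} [RCLike 𝕜] [NormedAddCommGroup E] [NormedSpace 𝕜 E]
    [NormedAddCommGroup F] [NormedSpace 𝕜 F] [FiniteDimensional 𝕜 F] :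
    IsOpen {A : E →L[𝕜] F | Surjective A} := by
  convert isOpen_setOfPred_nat_le_rank (𝕜 := 𝕜) (E := E) (F := F) (finrank 𝕜 F) using 1
  ext A
  change Surjective A ↔ ((finrank 𝕜 F : ℕ) : Cardinal) ≤ Module.rank 𝕜 (LinearMap.range (A : E →ₗ[𝕜] F))
  rw [← finrank_eq_rank, Nat.cast_le]
  refine ⟨fun h => by rw [LinearMap.range_eq_top.2 h, finrank_top], fun h => ?_⟩
  exact LinearMap.range_eq_top.1 (Submodule.eq_top_of_finrank_eq
    (le_antisymm (Submodule.finrank_le _) h))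

variable {M E F : Type} [NormedAddCommGroup M] [NormedSpace ℝ M] [FiniteDimensional ℝ M]
  [NormedAddCommGroup E] [NormedSpace ℝ E] [FiniteDimensional ℝ E]
  [NormedAddCommGroup F] [NormedSpace ℝ F] [FiniteDimensional ℝ F]

section Sol

/-- the Lagrange system of the minimal solution -/
noncomputable def big (b : E →L[ℝ] E →L[ℝ] ℝ) (A : E →L[ℝ] F) :
    (E × (F →L[ℝ] ℝ)) →L[ℝ] ((E →L[ℝ] ℝ) × F) :=
  (b.comp (ContinuousLinearMap.fst ℝ _ _) -
    ((ContinuousLinearMap.compL ℝ E F ℝ).flip A).comp (ContinuousLinearMap.snd ℝ _ _)).prod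
    (A.comp (ContinuousLinearMap.fst ℝ _ _))

/-- the solution of `A v = y` which is orthogonal to the kernel -/
noncomputable def sol (b : E →L[ℝ] E →L[ℝ] ℝ) (A : E →L[ℝ] F) (y : F) : E :=
  ((big b A).inverse (0, y)).1

variable {b : E →L[ℝ] E →L[ℝ] ℝ} {A : E →L[ℝ] F}

omit [FiniteDimensional ℝ E] [FiniteDimensional ℝ F] in
theorem big_apply (p : E × (F →L[ℝ] ℝ)) : big b A p = (b p.1 - p.2.comp A, A p.1) := rfl

theorem contDiff_big (b : E →L[ℝ] E →L[ℝ] ℝ) : ContDiff ℝ ∞ (big b : (E →L[ℝ] F) → _) := by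
  rw [contDiff_clm_apply_iff]
  intro p
  simp only [big_apply]
  exact (contDiff_const.sub (contDiff_const.clm_comp contDiff_id)).prodMk
    (contDiff_id.clm_apply contDiff_const)

theorem big_inv (hb : ∀ v, b v v = 0 → v = 0) (hA : Surjective A) : (big b A).IsInvertible := by
  have hinj : Injective (big b A).toLinearMap := by
    rw [injective_iff_map_eq_zero]
    rintro ⟨v, φ⟩ h
    have h1 : b v - φ.comp A = 0 := congrArg Prod.fst h
    have h2 : A v = 0 := congrArg Prod.snd h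
    have h3 : v = 0 := hb v (by
      have := congrArg (fun ψ : E →L[ℝ] ℝ => ψ v) h1
      simpa [h2] using this)
    have h4 : φ = 0 := ContinuousLinearMap.ext fun y => by
      obtain ⟨x, rfl⟩ := hA y
      have := congrArg (fun ψ : E →L[ℝ] ℝ => ψ x) h1
      simpa [h3] using this
    rw [h3, h4]
    rfl
  have hd : ∀ (X : Type) [NormedAddCommGroup X] [NormedSpace ℝ X] [FiniteDimensional ℝ X],
      finrank ℝ (X →L[ℝ] ℝ) = finrank ℝ X := fun X _ _ _ => by
    rw [← (LinearMap.toContinuousLinearMap (𝕜 := ℝ) (E := X) (F' := ℝ)).finrank_eq]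
    exact Subspace.dual_finrank_eq
  exact ⟨(LinearEquiv.ofInjectiveOfFinrankEq _ hinj (by
    rw [finrank_prod, finrank_prod, hd, hd])).toContinuousLinearEquiv,
    ContinuousLinearMap.ext fun _ => rfl⟩

theorem sol_spec (hb : ∀ v, b v v = 0 → v = 0) (hA : Surjective A) (y : F) :
    A (sol b A y) = y ∧ ∀ k, A k = 0 → b (sol b A y) k = 0 := by
  have h := (big_inv hb hA).self_apply_inverse (0, y)
  rw [big_apply] at h
  refine ⟨congrArg Prod.snd h, fun k hk => ?_⟩
  have := congrArg (fun p : (E →L[ℝ] ℝ) × F => p.1 k) h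
  simpa [hk, sol] using this

theorem sol_unique (hb : ∀ v, b v v = 0 → v = 0) (hA : Surjective A) {y : F} {v : E}
    (h1 : A v = y) (h2 : ∀ k, A k = 0 → b v k = 0) : sol b A y = v := by
  obtain ⟨h3, h4⟩ := sol_spec hb hA y
  have hk : A (sol b A y - v) = 0 := by rw [map_sub, h1, h3, sub_self]
  refine sub_eq_zero.1 (hb _ ?_)
  rw [map_sub b, sub_apply, h2 _ hk, h4 _ hk, sub_self]

theorem contDiffAt_sol (hb : ∀ v, b v v = 0 → v = 0) (hA : Surjective A) (y : F) :
    ContDiffAt ℝ ∞ (fun p : (E →L[ℝ] F) × F => sol b p.1 p.2) (A, y) := by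
  obtain ⟨e, he⟩ := big_inv hb hA
  have h1 : ContDiffAt ℝ ∞ ContinuousLinearMap.inverse (big b A) := he ▸ contDiffAt_map_inverse e
  have h2 : ContDiffAt ℝ ∞ (fun p : (E →L[ℝ] F) × F => (big b p.1).inverse) (A, y) :=
    ContDiffAt.comp (f := fun p : (E →L[ℝ] F) × F => big b p.1) (A, y) h1
      ((contDiff_big (F := F) b).contDiffAt.comp (A, y) contDiffAt_fst)
  exact (h2.clm_apply (contDiffAt_const.prodMk contDiffAt_snd)).fst

end Sol

/-- the derivative in the direction of the fibre -/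
noncomputable def dx (G : M × E → F) (z : M × E) : E →L[ℝ] F :=
  (fderiv ℝ G z).comp (ContinuousLinearMap.inr ℝ M E)

/-- the zero set -/
def zer (G : M × E → F) (O : Set (M × E)) : Set (M × E) := {z | z ∈ O ∧ G z = 0}

/-- a family of submersions whose zero set is proper over `U` -/
structure Sub (G : M × E → F) (O : Set (M × E)) (U : Set M) : Prop where
  isOpen : IsOpen O
  isOpenU : IsOpen U
  smooth : ContDiffOn ℝ ∞ G O
  surj : ∀ z ∈ zer G O, z.1 ∈ U → Surjective (dx G z)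
  prop : ∀ C ⊆ U, IsCompact C → IsCompact (zer G O ∩ Prod.fst ⁻¹' C)

/-- the lift of the direction `w` -/
noncomputable def eta (b : E →L[ℝ] E →L[ℝ] ℝ) (G : M × E → F) (w : M) (z : M × E) : E :=
  sol b (dx G z) (-fderiv ℝ G z (w, 0))

/-- `y` is obtained from `x` by transport along the segment from `u` to `v` -/
def Lift (b : E →L[ℝ] E →L[ℝ] ℝ) (G : M × E → F) (O : Set (M × E)) (u v : M) (x y : E) : Prop :=
  ∃ γ : ℝ → E, γ 0 = x ∧ γ 1 = y ∧ ∀ t ∈ Icc (0 : ℝ) 1, (u + t • (v - u), γ t) ∈ zer G O ∧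
    HasDerivWithinAt γ (eta b G (v - u) (u + t • (v - u), γ t)) (Icc 0 1) t

omit [FiniteDimensional ℝ M] in
theorem line_mem (u v : M) {t : ℝ} (ht : t ∈ Icc (0 : ℝ) 1) : u + t • (v - u) ∈ segment ℝ u v := by
  rw [segment_eq_image']
  exact mem_image_of_mem _ ht

omit [FiniteDimensional ℝ M] in
theorem isCompact_segment (u v : M) : IsCompact (segment ℝ u v) := by
  rw [segment_eq_image']
  exact isCompact_Icc.image (by fun_prop)

namespace Sub

variable {b : E →L[ℝ] E →L[ℝ] ℝ} {G : M × E → F} {O : Set (M × E)} {U : Set M} (S : Sub G O U)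
  (hb : ∀ v, b v v = 0 → v = 0)
include S

omit [FiniteDimensional ℝ M] [FiniteDimensional ℝ E] [FiniteDimensional ℝ F] in
theorem contDiffAt {z : M × E} (hz : z ∈ O) : ContDiffAt ℝ ∞ G z :=
  S.smooth.contDiffAt (S.isOpen.mem_nhds hz)

omit [FiniteDimensional ℝ M] [FiniteDimensional ℝ E] [FiniteDimensional ℝ F] in
theorem contDiffAt_fderiv {z : M × E} (hz : z ∈ O) : ContDiffAt ℝ ∞ (fderiv ℝ G) z :=
  (S.contDiffAt hz).fderiv_right (m := ∞) (by simp)

include hb

omit [FiniteDimensional ℝ M] in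
theorem contDiffAt_eta {z : M × E} (hz : z ∈ O) (hs : Surjective (dx G z)) (w : M) :
    ContDiffAt ℝ ∞ (fun q : M × M × E => eta b G q.1 q.2) (w, z) := by
  have h1 : ContDiffAt ℝ ∞ (fun q : M × M × E => fderiv ℝ G q.2) (w, z) :=
    ContDiffAt.comp (w, z) (S.contDiffAt_fderiv hz) contDiffAt_snd
  exact ContDiffAt.comp (f := fun q : M × M × E => (dx G q.2, -fderiv ℝ G q.2 (q.1, 0))) (w, z)
    (contDiffAt_sol hb hs _) ((h1.clm_comp contDiffAt_const).prodMk
    (h1.clm_apply (contDiffAt_fst.prodMk contDiffAt_const)).neg)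

/-- the flow of a truncation of the lift -/
theorem exists_flow {W C : Set M} (hW : IsCompact W) (hC : IsCompact C) (hCU : C ⊆ U) :
    ∃ Ψ : M × M × E → E, Continuous Ψ ∧ ∀ u v x, v - u ∈ W → segment ℝ u v ⊆ C →
      (u, x) ∈ zer G O → Lift b G O u v x (Ψ (v - u, u, x)) ∧
        ∀ y, Lift b G O u v x y → y = Ψ (v - u, u, x) := by
  let Ω : Set (M × M × E) := {q | q.2 ∈ O ∧ Surjective (dx G q.2)}
  have hΩ : IsOpen Ω := isOpen_iff_mem_nhds.2 fun q hq => by
    have h1 : ContinuousAt (fun q : M × M × E => dx G q.2) q :=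
      (((S.contDiffAt_fderiv hq.1).clm_comp contDiffAt_const).continuousAt).comp continuousAt_snd
    filter_upwards [continuous_snd.continuousAt (S.isOpen.mem_nhds hq.1),
      h1 (isOpen_surj.mem_nhds hq.2)] with q' h2 h3
    exact ⟨h2, h3⟩
  let T : Set (M × M × E) := W ×ˢ (zer G O ∩ Prod.fst ⁻¹' C)
  have hT : IsCompact T := hW.prod (S.prop C hCU hC)
  have hTΩ : T ⊆ Ω := fun q hq => ⟨hq.2.1.1, S.surj _ hq.2.1 (hCU hq.2.2)⟩
  obtain ⟨T₁, hT₁, h1, h1'⟩ := exists_compact_between hT hΩ hTΩ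
  obtain ⟨T₂, hT₂, h2, h2'⟩ := exists_compact_between hT₁ hΩ h1'
  obtain ⟨χ, hχ0, hχ1, -⟩ := exists_contMDiffMap_zero_one_of_isClosed (n := ⊤) 𝓘(ℝ, M × M × E)
    (isOpen_interior (s := T₂)).isClosed_compl hT₁.isClosed
    (disjoint_left.2 fun q hq hq' => hq (h2 hq'))
  have hχ : ContDiff ℝ ∞ χ := contMDiff_iff_contDiff.1 χ.contMDiff
  let ξ : M × M × E → M × M × E := fun q => (0, q.1, eta b G q.1 q.2)
  let Y : M × M × E → M × M × E := fun q => χ q • ξ q
  have hY0 : ∀ q, q ∉ T₂ → Y q = 0 := fun q hq => by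
    have : χ q = 0 := hχ0 fun h => hq (interior_subset h)
    simp only [Y, this, zero_smul]
  have hY1 : ∀ q ∈ T₁, Y q = ξ q := fun q hq => by
    have : χ q = 1 := hχ1 hq
    simp only [Y, this, one_smul]
  have hY : ContDiff ℝ ∞ Y := contDiff_iff_contDiffAt.2 fun q => by
    by_cases hq : q ∈ T₂
    · exact hχ.contDiffAt.smul (contDiffAt_const.prodMk (contDiffAt_fst.prodMk
        (S.contDiffAt_eta hb (h2' hq).1 (h2' hq).2 q.1)))
    · refine (contDiffAt_const (c := 0)).congr_of_eventuallyEq ?_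
      filter_upwards [hT₂.isClosed.isOpen_compl.mem_nhds hq] with q' hq' using hY0 q' hq'
  have hYc : HasCompactSupport Y := HasCompactSupport.intro hT₂ hY0
  obtain ⟨B, hB⟩ := hYc.exists_bound_of_continuous hY.continuous
  obtain ⟨K, hK⟩ := hY.lipschitzWith_of_hasCompactSupport hYc (by simp)
  obtain ⟨Φ, hΦ, hΦ0, hΦd, -⟩ := P265.H185.exists_global_flow Y hY
    (fun z => P265.H185.exists_curve_of_bounded (hY.of_le (by simp)) hB z)
  have hΦc : ∀ z, Continuous fun t => Φ t z := fun z =>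
    continuous_iff_continuousAt.2 fun t => (hΦd t z).continuousAt
  refine ⟨fun q => (Φ 1 q).2.2,
    (hΦ.continuous.comp (continuous_const.prodMk continuous_id)).snd.snd, ?_⟩
  intro u v x hw hseg hx
  set z₀ : M × M × E := (v - u, u, x) with hz₀
  have hfst : ∀ t, (Φ t z₀).1 = v - u := fun t => by
    have h3 : ∀ s, HasDerivAt (fun s => (Φ s z₀).1) 0 s := fun s => by
      have := (ContinuousLinearMap.fst ℝ M (M × E)).hasFDerivAt.comp_hasDerivAt s (hΦd s z₀)
      simpa [Y, ξ, Function.comp_def] using this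
    have := is_const_of_deriv_eq_zero (fun s => (h3 s).differentiableAt) (fun s => (h3 s).deriv) t 0
    rw [this, hΦ0]
  have hmain : Icc (0 : ℝ) 1 ⊆ {t | Φ t z₀ ∈ T ∧ (Φ t z₀).2.1 = u + t • (v - u)} := by
    refine IsClosed.Icc_subset_of_forall_mem_nhdsWithin
      (((hT.isClosed.preimage (hΦc z₀)).inter (isClosed_eq (hΦc z₀).snd.fst (by fun_prop))).inter
        isClosed_Icc) ?_ ?_
    · simp only [mem_ofPred_eq, hΦ0, zero_smul, add_zero]
      exact ⟨⟨hw, hx, hseg (left_mem_segment ℝ u v)⟩, rfl⟩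
    rintro t ⟨⟨h3, h4⟩, ht⟩
    have h5 : ∀ᶠ s in 𝓝 t, Φ s z₀ ∈ T₁ :=
      (hΦc z₀).continuousAt (mem_interior_iff_mem_nhds.1 (h1 h3))
    obtain ⟨r, hr, h6⟩ := (nhds_basis_Icc_pos t).eventually_iff.1 h5
    have h7 : ∀ s ∈ Icc t (t + r), Φ s z₀ ∈ T₁ := fun s hs => h6 ⟨by linarith [hs.1], hs.2⟩
    let g : ℝ → M × F := fun s => ((Φ s z₀).2.1 - s • (v - u), G (Φ s z₀).2)
    have h8 : ∀ s ∈ Icc t (t + r), HasDerivAt g 0 s := fun s hs => by
      have e1 := hΦd s z₀
      rw [hY1 _ (h7 s hs)] at e1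
      have e2 : HasDerivAt (fun s => (Φ s z₀).2) (ξ (Φ s z₀)).2 s :=
        (ContinuousLinearMap.snd ℝ M (M × E)).hasFDerivAt.comp_hasDerivAt s e1
      have e3 : HasDerivAt (fun s => (Φ s z₀).2.1) (ξ (Φ s z₀)).2.1 s :=
        (ContinuousLinearMap.fst ℝ M E).hasFDerivAt.comp_hasDerivAt s e2
      have hq := h1' (h7 s hs)
      have e4 := ((S.contDiffAt hq.1).differentiableAt
        (by simp)).hasFDerivAt.comp_hasDerivAt s e2
      have e5 := (e3.sub ((hasDerivAt_id s).smul_const (v - u))).prodMk e4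
      refine e5.congr_deriv (Eq.symm ?_)
      have e6 := (sol_spec hb hq.2 (-fderiv ℝ G (Φ s z₀).2 ((Φ s z₀).1, 0))).1
      refine Prod.ext (by simp [ξ, hfst]) ?_
      change 0 = fderiv ℝ G (Φ s z₀).2 ((Φ s z₀).1, eta b G _ _)
      rw [← Prod.fst_add_snd ((Φ s z₀).1, eta b G _ _), map_add]
      exact (add_neg_cancel _).symm.trans (congrArg _ e6.symm)
    have h9 := constant_of_has_deriv_right_zero (f := g)
      (fun s hs => (h8 s hs).continuousAt.continuousWithinAt)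
      fun s hs => (h8 s (Ico_subset_Icc_self hs)).hasDerivWithinAt
    filter_upwards [Ioo_mem_nhdsGT (lt_min (lt_add_of_pos_right t hr) ht.2)] with s hs
    have hs1 : s ∈ Icc t (t + r) := ⟨hs.1.le, (hs.2.trans_le (min_le_left _ _)).le⟩
    have hs2 : s ∈ Icc (0 : ℝ) 1 := ⟨ht.1.trans hs.1.le, (hs.2.trans_le (min_le_right _ _)).le⟩
    have e1 : (Φ s z₀).2.1 = u + s • (v - u) := by
      have : (Φ s z₀).2.1 - s • (v - u) = (Φ t z₀).2.1 - t • (v - u) := congrArg Prod.fst (h9 s hs1)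
      rw [h4, add_sub_cancel_right] at this
      exact sub_eq_iff_eq_add.1 this
    refine ⟨⟨hfst s ▸ hw, ⟨(h1' (h7 s hs1)).1, (congrArg Prod.snd (h9 s hs1)).trans h3.2.1.2⟩, ?_⟩, e1⟩
    change (Φ s z₀).2.1 ∈ C
    rw [e1]
    exact hseg (line_mem u v hs2)
  have hΦe : ∀ t ∈ Icc (0 : ℝ) 1, Φ t z₀ = (v - u, u + t • (v - u), (Φ t z₀).2.2) := fun t ht =>
    Prod.ext (hfst t) (Prod.ext (hmain ht).2 rfl)
  refine ⟨⟨fun t => (Φ t z₀).2.2, by simp only [hΦ0, hz₀], rfl, fun t ht => ⟨?_, ?_⟩⟩, ?_⟩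
  · have := (hmain ht).1.2.1
    rwa [hΦe t ht] at this
  · have e1 := hΦd t z₀
    rw [hY1 _ (interior_subset (h1 (hmain ht).1))] at e1
    have e2 : HasDerivAt (fun s => (Φ s z₀).2.2) (ξ (Φ t z₀)).2.2 t :=
      ((ContinuousLinearMap.snd ℝ M E).comp
        (ContinuousLinearMap.snd ℝ M (M × E))).hasFDerivAt.comp_hasDerivAt t e1
    rw [hΦe t ht] at e2
    exact e2.hasDerivWithinAt
  · rintro y ⟨γ, h3, h4, h5⟩
    let f : ℝ → M × M × E := fun t => (v - u, u + t • (v - u), γ t)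
    have hf : ∀ t ∈ Icc (0 : ℝ) 1, HasDerivWithinAt f (Y (f t)) (Icc 0 1) t := fun t ht => by
      rw [hY1 _ (interior_subset (h1 (show f t ∈ T from ⟨hw, (h5 t ht).1, hseg (line_mem u v ht)⟩)))]
      refine (hasDerivWithinAt_const _ _ _).prodMk (HasDerivWithinAt.prodMk ?_ (h5 t ht).2)
      simpa using (((hasDerivAt_id t).smul_const (v - u)).const_add u).hasDerivWithinAt
    have := ODE_solution_unique_of_mem_Icc_right (v := fun _ => Y) (s := fun _ => univ) (K := K)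
      (f := f) (g := fun t => Φ t z₀) (a := 0) (b := 1) (fun _ _ => hK.lipschitzOnWith)
      (fun t ht => (hf t ht).continuousWithinAt)
      (fun t ht => (hf t (Ico_subset_Icc_self ht)).mono_of_mem_nhdsWithin (Icc_mem_nhdsGE_of_mem ht))
      (fun _ _ => trivial) (hΦc z₀).continuousOn (fun t _ => (hΦd t z₀).hasDerivWithinAt)
      (fun _ _ => trivial) (by simp [f, hΦ0, hz₀, h3]) ⟨zero_le_one, le_rfl⟩
    rw [← h4]
    exact congrArg (fun q => q.2.2) this

omit [FiniteDimensional ℝ M] in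
theorem lift_symm {u v : M} (h : segment ℝ u v ⊆ U) {x y : E} (hl : Lift b G O u v x y) :
    Lift b G O v u y x := by
  obtain ⟨γ, h0, h1, h2⟩ := hl
  refine ⟨fun t => γ (1 - t), by simpa using h1, by simpa using h0, fun t ht => ?_⟩
  have ht' : 1 - t ∈ Icc (0 : ℝ) 1 := ⟨by linarith [ht.2], by linarith [ht.1]⟩
  have e : v + t • (u - v) = u + (1 - t) • (v - u) := by module
  obtain ⟨h3, h4⟩ := h2 _ ht'
  rw [e]
  refine ⟨h3, ?_⟩
  have hs := S.surj _ h3 (h (line_mem u v ht'))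
  have h5 := HasDerivWithinAt.scomp (h := fun s => 1 - s) t h4
    ((hasDerivAt_id t).const_sub 1).hasDerivWithinAt
    (s := Icc 0 1) fun s hs => ⟨by simpa using hs.2, by simpa using hs.1⟩
  refine h5.congr_deriv (Eq.symm ?_)
  obtain ⟨h6, h7⟩ := sol_spec hb hs (-fderiv ℝ G (u + (1 - t) • (v - u), γ (1 - t)) (v - u, 0))
  refine sol_unique hb hs ?_ fun k hk => ?_
  · rw [map_smul, eta, h6, neg_smul, one_smul, ← map_neg (fderiv ℝ G _)]
    simp
  · rw [map_smul, smul_apply, eta, h7 k hk, smul_zero]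

omit [FiniteDimensional ℝ M] in
theorem lift_self {u : M} (h : u ∈ U) {x : E} (hx : (u, x) ∈ zer G O) : Lift b G O u u x x := by
  refine ⟨fun _ => x, rfl, rfl, fun t _ => ?_⟩
  rw [sub_self, smul_zero, add_zero]
  refine ⟨hx, ?_⟩
  convert hasDerivWithinAt_const t (Icc (0 : ℝ) 1) x using 1
  refine sol_unique hb (S.surj _ hx h) ?_ fun k _ => by simp
  rw [map_zero, show ((0, 0) : M × E) = 0 from rfl, map_zero, neg_zero]

omit [FiniteDimensional ℝ M] in
theorem lift_map {g : E ≃L[ℝ] E} {g' : F ≃L[ℝ] F} (hg : ∀ v w, b (g v) (g w) = b v w)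
    (hO : ∀ z ∈ O, (z.1, g z.2) ∈ O) (hG : ∀ z ∈ O, G (z.1, g z.2) = g' (G z)) {u v : M}
    (h : segment ℝ u v ⊆ U) {x y : E} (hl : Lift b G O u v x y) : Lift b G O u v (g x) (g y) := by
  obtain ⟨γ, h0, h1, h2⟩ := hl
  refine ⟨fun t => g (γ t), congrArg g h0, congrArg g h1, fun t ht => ?_⟩
  obtain ⟨h3, h4⟩ := h2 t ht
  set z : M × E := (u + t • (v - u), γ t) with hz
  have h5 : (z.1, g z.2) ∈ zer G O := ⟨hO z h3.1, by rw [hG z h3.1, h3.2, map_zero]⟩
  refine ⟨h5, ?_⟩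
  have h6 := (g : E →L[ℝ] E).hasFDerivAt.comp_hasDerivWithinAt t h4
  refine h6.congr_deriv (Eq.symm ?_)
  have hU := h (line_mem u v ht)
  let k : M × E →L[ℝ] M × E := (ContinuousLinearMap.id ℝ M).prodMap (g : E →L[ℝ] E)
  have e1 : ∀ p : M × E, fderiv ℝ G (z.1, g z.2) (p.1, g p.2) = g' (fderiv ℝ G z p) := fun p => by
    have a1 := ((S.contDiffAt h5.1).differentiableAt (by simp)).hasFDerivAt.comp z k.hasFDerivAt
    have a2 := (g' : F →L[ℝ] F).hasFDerivAt.comp z
      ((S.contDiffAt h3.1).differentiableAt (by simp)).hasFDerivAt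
    have a3 : (G ∘ k) =ᶠ[𝓝 z] (g' : F →L[ℝ] F) ∘ G := by
      filter_upwards [S.isOpen.mem_nhds h3.1] with q hq using hG q hq
    exact congrArg (fun A : M × E →L[ℝ] F => A p) ((a1.congr_of_eventuallyEq a3.symm).unique a2)
  obtain ⟨h7, h8⟩ := sol_spec hb (S.surj _ h3 hU) (-fderiv ℝ G z (v - u, 0))
  refine sol_unique hb (S.surj _ h5 hU) ?_ fun q hq => ?_
  · have a1 := e1 (0, eta b G (v - u) z)
    have a2 := e1 (v - u, 0)
    rw [map_zero] at a2
    change fderiv ℝ G (z.1, g z.2) (0, g (eta b G (v - u) z)) = -fderiv ℝ G (z.1, g z.2) (v - u, 0)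
    rw [a1, a2, ← map_neg]
    exact congrArg g' h7
  · obtain ⟨q, rfl⟩ := g.surjective q
    change b (g (eta b G (v - u) z)) (g q) = 0
    rw [hg]
    refine h8 q (g'.injective ?_)
    rw [map_zero]
    exact (e1 (0, q)).symm.trans hq

/-- **Equivariant Ehresmann theorem**: transport along segments. -/
theorem exists_transport : ∃ Φ : M → M → E → E,
    (∀ u v x, segment ℝ u v ⊆ U → (u, x) ∈ zer G O →
      (v, Φ u v x) ∈ zer G O ∧ Φ v u (Φ u v x) = x) ∧
    (∀ u ∈ U, ∀ x, (u, x) ∈ zer G O → Φ u u x = x) ∧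
    ContinuousOn (fun p : M × M × E => Φ p.1 p.2.1 p.2.2)
      {p | segment ℝ p.1 p.2.1 ⊆ U ∧ (p.1, p.2.2) ∈ zer G O} ∧
    ∀ (g : E ≃L[ℝ] E) (g' : F ≃L[ℝ] F), (∀ v w, b (g v) (g w) = b v w) →
      (∀ z ∈ O, (z.1, g z.2) ∈ O) → (∀ z ∈ O, G (z.1, g z.2) = g' (G z)) →
      ∀ u v x, segment ℝ u v ⊆ U → (u, x) ∈ zer G O → Φ u v (g x) = g (Φ u v x) := by
  have h1 : ∀ u v x, ∃ y, segment ℝ u v ⊆ U → (u, x) ∈ zer G O →
      Lift b G O u v x y ∧ ∀ y', Lift b G O u v x y' → y' = y := fun u v x => by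
    by_cases h : segment ℝ u v ⊆ U
    · obtain ⟨Ψ, -, hΨ⟩ := S.exists_flow hb (isCompact_singleton (x := v - u))
        (isCompact_segment u v) h
      exact ⟨_, fun _ hx => hΨ u v x rfl Subset.rfl hx⟩
    · exact ⟨x, fun h' => absurd h' h⟩
  choose Φ hΦ using h1
  refine ⟨Φ, fun u v x h hx => ?_, fun u hu x hx => ?_, ?_, fun g g' hg hO hG u v x h hx => ?_⟩
  · have h2 := (hΦ u v x h hx).1
    have h3 : (v, Φ u v x) ∈ zer G O := by
      obtain ⟨γ, -, h4, h5⟩ := h2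
      simpa [h4] using (h5 1 ⟨zero_le_one, le_rfl⟩).1
    exact ⟨h3, ((hΦ v u _ (by rwa [segment_symm]) h3).2 x (S.lift_symm hb h h2)).symm⟩
  · exact ((hΦ u u x (by simpa using hu) hx).2 x (S.lift_self hb hu hx)).symm
  · rintro ⟨u, v, x⟩ ⟨h, hx⟩
    obtain ⟨δ, hδ, hth⟩ := (isCompact_segment u v).exists_cthickening_subset_open S.isOpenU h
    obtain ⟨Ψ, hc, hΨ⟩ := S.exists_flow hb (isCompact_closedBall (v - u) 1)
      ((isCompact_segment u v).cthickening (r := δ)) hth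
    have hc' : Continuous fun p : M × M × E => Ψ (p.2.1 - p.1, p.1, p.2.2) :=
      hc.comp (by fun_prop)
    have hcv : Convex ℝ (Metric.cthickening δ (segment ℝ u v)) := (convex_segment u v).cthickening δ
    have hn : ∀ w ∈ segment ℝ u v, Metric.cthickening δ (segment ℝ u v) ∈ 𝓝 w := fun w hw =>
      mem_of_superset (Metric.isOpen_thickening.mem_nhds (Metric.self_subset_thickening hδ _ hw))
        (Metric.thickening_subset_cthickening _ _)
    have h2 : ∀ᶠ p : M × M × E in 𝓝 (u, v, x), p.2.1 - p.1 ∈ Metric.closedBall (v - u) 1 ∧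
        segment ℝ p.1 p.2.1 ⊆ Metric.cthickening δ (segment ℝ u v) := by
      have a1 : ContinuousAt (fun p : M × M × E => p.2.1 - p.1) (u, v, x) := by fun_prop
      have a2 : ContinuousAt (fun p : M × M × E => p.1) (u, v, x) := by fun_prop
      have a3 : ContinuousAt (fun p : M × M × E => p.2.1) (u, v, x) := by fun_prop
      filter_upwards [a1 (Metric.closedBall_mem_nhds _ one_pos), a2 (hn u (left_mem_segment ℝ u v)),
        a3 (hn v (right_mem_segment ℝ u v))] with p b1 b2 b3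
      exact ⟨b1, hcv.segment_subset b2 b3⟩
    have h3 : ∀ p : M × M × E, p.2.1 - p.1 ∈ Metric.closedBall (v - u) 1 ∧
        segment ℝ p.1 p.2.1 ⊆ Metric.cthickening δ (segment ℝ u v) →
        segment ℝ p.1 p.2.1 ⊆ U ∧ (p.1, p.2.2) ∈ zer G O →
        Φ p.1 p.2.1 p.2.2 = Ψ (p.2.1 - p.1, p.1, p.2.2) := fun p hp hp' =>
      (hΨ _ _ _ hp.1 hp.2 hp'.2).2 _ (hΦ _ _ _ hp'.1 hp'.2).1
    refine hc'.continuousWithinAt.congr_of_eventuallyEq ?_ (h3 _ h2.self_of_nhds ⟨h, hx⟩)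
    filter_upwards [mem_nhdsWithin_of_mem_nhds h2, self_mem_nhdsWithin] with p hp hp'
    exact h3 p hp hp'
  · exact ((hΦ u v (g x) h ⟨hO _ hx.1, by rw [hG _ hx.1, hx.2, map_zero]⟩).2 _
      (S.lift_map hb hg hO hG h (hΦ u v x h hx).1)).symm

end Sub

end Vale.Agent.P269.Mono
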