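import Vale.Agent.P269.Mono.Defs
import Vale.Agent.P269.Mono.Ehr
import Vale.Agent.P269.Mono.DiscA

/-!
# P269, monodromy: the discriminant of a complete linear system (helper87)
-/

namespace Vale.Agent.P269.Mono

open Set Topology Filter Module Function TopologicalSpace Vale.Agent.P291Z Vale.Agent.P291Z.Fl
open scoped ContDiff

set_option linter.unusedSectionVars false

section Lagrange

variable {M E Y : Type} [NormedAddCommGroup M] [NormedSpace ℂ M] [FiniteDimensional ℂ M]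
  [NormedAddCommGroup E] [NormedSpace ℂ E] [FiniteDimensional ℂ E]
  [NormedAddCommGroup Y] [NormedSpace ℂ Y] [FiniteDimensional ℂ Y]

/-- the equations of a singular point -/
noncomputable def Gc (f₀ : M × E → ℂ) (f' : M × E → Y) (q : M × E × (Y →L[ℂ] ℂ)) :
    ((E →L[ℂ] ℂ) × Y) × ℂ :=
  (cr f₀ f' q.1 q.2, f₀ (q.1, q.2.1) - (cr f₀ f' q.1 q.2).1 q.2.1)

/-- the pairing -/
noncomputable def psiC (w : E × (Y →L[ℂ] ℂ)) : (E →L[ℂ] ℂ) × Y →L[ℂ] ℂ :=
  (ContinuousLinearMap.apply ℂ ℂ w.1).coprod w.2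

theorem Gc_eq_zero {f₀ : M × E → ℂ} {f' : M × E → Y} {u : M} {w : E × (Y →L[ℂ] ℂ)} :
    Gc f₀ f' (u, w) = 0 ↔ f₀ (u, w.1) = 0 ∧ cr f₀ f' u w = 0 := by
  rw [Gc, Prod.mk_eq_zero, and_comm]
  exact and_congr_left fun h => by simp [h]

theorem finrank_dual (E : Type) [NormedAddCommGroup E] [NormedSpace ℂ E] [FiniteDimensional ℂ E] :
    finrank ℂ (E →L[ℂ] ℂ) = finrank ℂ E :=
  (LinearMap.toContinuousLinearMap (𝕜 := ℂ) (E := E) (F' := ℂ)).finrank_eq.symm.trans
    Subspace.dual_finrank_eq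

theorem fam_cr {f₀ : M × E → ℂ} {f' : M × E → Y} (s0 : ContDiff ℂ ∞ f₀) (s1 : ContDiff ℂ ∞ f')
    (a0 : ∀ u v y, f₀ (u + v, y) = f₀ (u, y) + f₀ (v, y))
    (a1 : ∀ u v y, f' (u + v, y) = f' (u, y) + f' (v, y))
    (m0 : ∀ (c : ℂ) u y, f₀ (c • u, y) = c • f₀ (u, y))
    (m1 : ∀ (c : ℂ) u y, f' (c • u, y) = c • f' (u, y))
    {ρ : ((E →L[ℂ] ℂ) × Y) × ℂ →L[ℂ] M} (r0 : ∀ τ y, f₀ (ρ τ, y) = τ.2 + τ.1.1 y)
    (r1 : ∀ τ y, f' (ρ τ, y) = τ.1.2) : Fam (Gc f₀ f') ρ psiC := by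
  have d0 : ∀ u, Differentiable ℂ fun y => f₀ (u, y) := fun u =>
    (s0.comp (contDiff_const.prodMk contDiff_id)).differentiable (by simp)
  have d1 : ∀ u, Differentiable ℂ fun y => f' (u, y) := fun u =>
    (s1.comp (contDiff_const.prodMk contDiff_id)).differentiable (by simp)
  have sc : ContDiff ℂ ∞ fun q : M × E × (Y →L[ℂ] ℂ) => cr f₀ f' q.1 q.2 :=
    ((ContDiff.fderiv (f := fun (q : M × E × (Y →L[ℂ] ℂ)) y => f₀ (q.1, y)) (m := ∞)
      (s0.comp (contDiff_fst.fst.prodMk contDiff_snd)) contDiff_snd.fst (by simp)).add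
      (contDiff_snd.snd.clm_comp
        (ContDiff.fderiv (f := fun (q : M × E × (Y →L[ℂ] ℂ)) y => f' (q.1, y)) (m := ∞)
          (s1.comp (contDiff_fst.fst.prodMk contDiff_snd)) contDiff_snd.fst (by simp)))).prodMk
      (s1.comp (contDiff_fst.prodMk contDiff_snd.fst))
  have ca : ∀ u v w, cr f₀ f' (u + v) w = cr f₀ f' u w + cr f₀ f' v w := fun u v w => by
    simp only [cr, a0, a1, fderiv_fun_add (d0 u _) (d0 v _), fderiv_fun_add (d1 u _) (d1 v _),
      ContinuousLinearMap.comp_add, Prod.mk_add_mk]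
    congr 1
    abel
  have cm : ∀ (c : ℂ) u w, cr f₀ f' (c • u) w = c • cr f₀ f' u w := fun c u w => by
    simp only [cr, m0, m1, fderiv_fun_const_smul (d0 u _), fderiv_fun_const_smul (d1 u _),
      ContinuousLinearMap.comp_smul, Prod.smul_mk, smul_add]
  have cs : ∀ τ w, cr f₀ f' (ρ τ) w = τ.1 := fun τ w => by
    simp only [cr, r0, r1, fderiv_const_add, ContinuousLinearMap.fderiv, fderiv_fun_const,
      Pi.zero_apply, ContinuousLinearMap.comp_zero, add_zero]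
  refine ⟨sc.prodMk ((s0.comp (contDiff_fst.prodMk contDiff_snd.fst)).sub
    (sc.fst.clm_apply contDiff_snd.fst)), fun u v w => ?_, fun c u w => ?_, fun τ w => ?_, ?_,
    fun u w hw δ => ?_⟩
  · simp only [Gc, ca, a0, Prod.mk_add_mk, Prod.fst_add, _root_.add_apply]
    congr 1
    ring
  · simp only [Gc, cm, m0, Prod.smul_mk, Prod.smul_fst, _root_.smul_apply, smul_sub]
  · simp only [Gc, cs, r0, add_sub_cancel_right]
  · rw [finrank_prod, finrank_prod, finrank_dual, finrank_dual]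
  · have hc := (Gc_eq_zero.1 hw).2
    have dJ : HasFDerivAt (cr f₀ f' u) (Jc (Gc f₀ f') u w) w :=
      ((sc.comp (contDiff_const.prodMk contDiff_id)).differentiable (by simp) w).hasFDerivAt
    have e1 := dJ.snd.unique ((d1 u w.1).hasFDerivAt.comp w hasFDerivAt_fst)
    have e2 : (Jc (Gc f₀ f') u w δ).2 = fderiv ℂ (fun y => f' (u, y)) w.1 δ.1 :=
      congrArg (fun L => L δ) e1
    have e3 : fderiv ℂ (fun y => f₀ (u, y)) w.1 δ.1 +
        w.2 (fderiv ℂ (fun y => f' (u, y)) w.1 δ.1) = 0 :=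
      congrArg (fun t : (E →L[ℂ] ℂ) × Y => t.1 δ.1) hc
    have d2 : HasFDerivAt (fun w => (Gc f₀ f' (u, w)).2) _ w :=
      ((d0 u w.1).hasFDerivAt.comp w hasFDerivAt_fst).sub (dJ.fst.clm_apply hasFDerivAt_fst)
    rw [d2.fderiv]
    simp only [psiC, ContinuousLinearMap.coprod_apply, ContinuousLinearMap.apply_apply, e2, hc]
    simp
    linear_combination e3

theorem fst_eq_of_psiC {ι : Type} [Fintype ι] {w w' : (ι → ℂ) × (Y →L[ℂ] ℂ)}
    (h : psiC w = psiC w') : w.1 = w'.1 := funext fun i => by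
  simpa [psiC] using congrArg (fun L => L (ContinuousLinearMap.proj i, 0)) h

theorem node_abs {ι κ : Type} [Fintype ι] [Fintype κ] (a : κ ↪ ι) {f₀ : M × (ι → ℂ) → ℂ}
    {f' : M × (ι → ℂ) → κ → ℂ} {u : M} (h0 : ∀ y, f₀ (u, y) = ∑ i, y i ^ 2)
    (h1 : ∀ y k, f' (u, y) k = y (a k)) :
    Gc f₀ f' (u, 0) = 0 ∧ Injective (Jc (Gc f₀ f') u 0) := by
  classical
  let L : (ι → ℂ) →L[ℂ] κ → ℂ := ContinuousLinearMap.pi fun k => ContinuousLinearMap.proj (a k)
  have e0 : (fun y => f₀ (u, y)) = fun y => ∑ i, y i ^ 2 := funext h0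
  have e1 : (fun y => f' (u, y)) = L := funext fun y => funext (h1 y)
  have d0 : ∀ y : ι → ℂ, HasFDerivAt (fun y : ι → ℂ => ∑ i, y i ^ 2)
      (∑ i, (2 * y i) • ContinuousLinearMap.proj (R := ℂ) i) y := fun y =>
    HasFDerivAt.fun_sum fun i _ => ((hasFDerivAt_apply i y).pow 2).congr_fderiv (by simp)
  let Λ : (ι → ℂ) × ((κ → ℂ) →L[ℂ] ℂ) →L[ℂ] ((ι → ℂ) →L[ℂ] ℂ) × (κ → ℂ) :=
    LinearMap.toContinuousLinearMap
    { toFun := fun w => (∑ i, (2 * w.1 i) • ContinuousLinearMap.proj i + w.2.comp L, L w.1)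
      map_add' := fun _ _ => Prod.ext (ContinuousLinearMap.ext fun η => by
        simp [mul_add, add_mul, Finset.sum_add_distrib]
        ring) (map_add L _ _)
      map_smul' := fun _ _ => Prod.ext (ContinuousLinearMap.ext fun η => by
        simp [Finset.mul_sum, mul_assoc, mul_left_comm]) (map_smul L _ _) }
  have e : cr f₀ f' u = Λ := funext fun w => by
    rw [cr, e0, e1, (d0 _).fderiv, L.fderiv, show f' (u, w.1) = L w.1 from congrFun e1 _]
    rfl
  refine ⟨Gc_eq_zero.2 ⟨(h0 _).trans (by simp), by rw [e, map_zero]⟩, ?_⟩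
  rw [show Jc (Gc f₀ f') u 0 = fderiv ℂ (cr f₀ f' u) 0 from rfl, e, Λ.fderiv,
    injective_iff_map_eq_zero]
  rintro ⟨ξ, μ⟩ hw
  have h1 : ∀ i, 2 * ξ i + μ (L (Pi.single i 1)) = 0 := fun i => by
    have := congrArg (fun t => t.1 (Pi.single i 1)) hw
    simpa [Λ, Pi.single_apply] using this
  have h2 : ∀ k, ξ (a k) = 0 := fun k => congrFun (congrArg Prod.snd hw) k
  have h3 : μ = 0 := ContinuousLinearMap.ext fun y => by
    have : ∀ k, μ (Pi.single k 1) = 0 := fun k => by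
      have h4 := h1 (a k)
      rwa [h2, mul_zero, zero_add, show L (Pi.single (a k) 1) = Pi.single k 1 from
        funext fun k' => by simp [L, Pi.single_apply]] at h4
    rw [pi_eq_sum_univ' y, map_sum]
    simp [this]
  refine Prod.ext (funext fun i => ?_) h3
  simpa [h3] using h1 i

end Lagrange

namespace CI

variable {M m κ : Type} [NormedAddCommGroup M] [NormedSpace ℂ M] [FiniteDimensional ℂ M]
  [Fintype m] [Fintype κ] (S : CI M m κ)

theorem diff_ev (u : M) : Differentiable ℂ (S.ev u) :=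
  ((S.contDiff_ev (n := 1)).comp (contDiff_const.prodMk contDiff_id)).differentiable one_ne_zero

theorem fderiv_ev_hom (u : M) (c : ℂ) (x v : m → ℂ) (k : κ) :
    fderiv ℂ (S.ev u) (c • x) (c • v) k = c ^ S.d k * fderiv ℂ (S.ev u) x v k := by
  have d1 := hasFDerivAt_pi'.1 ((S.diff_ev u (c • x)).hasFDerivAt.comp x
    ((hasFDerivAt_id x).const_smul c)) k
  have d2 := (hasFDerivAt_pi'.1 (S.diff_ev u x).hasFDerivAt k).const_mul (c ^ S.d k)
  simpa using congrArg (fun L => L v) (d1.unique (d2.congr_of_eventuallyEq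
    (Eventually.of_forall fun y => S.ev_hom u c y k)))

theorem euler {u : M} {x : m → ℂ} (h : S.ev u x = 0) : fderiv ℂ (S.ev u) x x = 0 := by
  have d := HasFDerivAt.comp_hasDerivAt_of_eq (1 : ℂ) (S.diff_ev u x).hasFDerivAt
    ((hasDerivAt_id (1 : ℂ)).smul_const x) (by simp)
  have e : (S.ev u ∘ fun c : ℂ => id c • x) = fun _ => 0 := funext fun c => funext fun k => by
    simp [S.ev_hom, h]
  rw [e] at d
  simpa using d.unique (hasDerivAt_const _ _)

variable {S}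

theorem Sing.scale {u : M} {x : m → ℂ} (h : S.Sing u x) {c : ℂ} (hc : c ≠ 0) :
    S.Sing u (c • x) := by
  refine ⟨smul_ne_zero hc h.1, (S.ev_smul_eq_zero hc).2 h.2.1, fun hs => h.2.2 fun y => ?_⟩
  obtain ⟨v, hv⟩ := hs fun k => c ^ S.d k * y k
  refine ⟨c⁻¹ • v, funext fun k => mul_left_cancel₀ (pow_ne_zero (S.d k) hc) ?_⟩
  rw [← S.fderiv_ev_hom, smul_inv_smul₀ hc, hv]

theorem Sing.smul [Nonempty κ] {u : M} {x : m → ℂ} (h : S.Sing u x) (c : ℂ) :
    S.Sing (c • u) x := by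
  have e : S.ev (c • u) = c • S.ev u := funext fun x => S.ev_smul c u x
  refine ⟨h.1, by rw [S.ev_smul, h.2.1, smul_zero], fun hs => h.2.2 fun y => ?_⟩
  rw [e, fderiv_const_smul_field] at hs
  have hc : c ≠ 0 := by
    rintro rfl
    obtain ⟨v, hv⟩ := hs 1
    simpa using congrFun hv (Classical.arbitrary κ)
  obtain ⟨v, hv⟩ := hs (c • y)
  exact ⟨v, smul_right_injective _ hc hv⟩

variable (S)

theorem isOpen_U' : IsOpen S.U := by
  have c1 : Continuous fun q : M × Metric.sphere (0 : m → ℂ) 1 => (q.1, (q.2 : m → ℂ)) := by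
    fun_prop
  have c0 : ContDiff ℂ 1 ((fun p : M × (m → ℂ) => S.ev p.1 p.2) ∘
      fun p : (M × (m → ℂ)) × (m → ℂ) => (p.1.1, p.2)) :=
    S.contDiff_ev.comp (contDiff_fst.fst.prodMk contDiff_snd)
  have c2 : Continuous fun q : M × (m → ℂ) => fderiv ℂ (S.ev q.1) q.2 :=
    (ContDiff.fderiv (f := fun (q : M × (m → ℂ)) y => S.ev q.1 y) (m := 1) (n := 0)
      c0 contDiff_snd (by simp)).continuous
  have c4 : IsClosed {q : M × (m → ℂ) |
      S.ev q.1 q.2 = 0 ∧ ¬Surjective (fderiv ℂ (S.ev q.1) q.2)} :=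
    (isClosed_eq (S.contDiff_ev (n := 0)).continuous continuous_const).inter
      (isOpen_surj.preimage c2).isClosed_compl
  have c3 := c4.preimage c1
  rw [← isClosed_compl_iff]
  convert isClosedMap_fst_of_compactSpace _ c3 using 1
  ext u
  simp only [U, mem_compl_iff, mem_ofPred_eq, not_forall, not_not]
  constructor
  · rintro ⟨x, hx⟩
    have n0 : ((‖x‖ : ℝ) : ℂ) ≠ 0 := Complex.ofReal_ne_zero.2 (norm_ne_zero_iff.2 hx.1)
    refine ⟨(u, ⟨((‖x‖ : ℝ) : ℂ)⁻¹ • x, ?_⟩), (hx.scale (inv_ne_zero n0)).2, rfl⟩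
    simp [norm_smul, hx.1]
  · rintro ⟨q, hq, rfl⟩
    exact ⟨q.2, ne_zero_of_mem_unit_sphere q.2, hq⟩

variable [DecidableEq m] [DecidableEq κ]

theorem exists_single (k : κ) {P : MvPolynomial m ℂ} (hP : P.IsHomogeneous (S.d k)) :
    ∃ u, ∀ x, S.ev u x = Pi.single k (MvPolynomial.eval x P) := by
  obtain ⟨u, hu⟩ := S.surj (Pi.single k P) fun k' => by
    by_cases h : k' = k
    · subst h; simpa using hP
    · simpa [h] using MvPolynomial.isHomogeneous_zero _ _ _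
  refine ⟨u, fun x => funext fun k' => ?_⟩
  by_cases h : k' = k
  · subst h; simp [ev, hu]
  · simp [ev, hu, h]

theorem ev_sum {ι : Type} (s : Finset ι) (u : ι → M) (x : m → ℂ) :
    S.ev (∑ i ∈ s, u i) x = ∑ i ∈ s, S.ev (u i) x := by
  ext k
  simp [ev]

/-- the equations of a singular point in a chart -/
noncomputable abbrev G (i : m) (j : κ) := Gc (S.f₀ i j) (S.f' i j)

theorem exists_fam (i : m) (j : κ) : ∃ ρ, Fam (S.G i j) ρ psiC := by
  choose a ha using fun k => S.exists_single k (MvPolynomial.isHomogeneous_X_pow i (S.d k))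
  choose b hb using fun i' : {i' // i' ≠ i} => S.exists_single j
    (P := MvPolynomial.X i ^ (S.d j - 1) * MvPolynomial.X i'.1) (by
      have := (MvPolynomial.isHomogeneous_X_pow (R := ℂ) i (S.d j - 1)).mul
        (MvPolynomial.isHomogeneous_X ℂ i'.1)
      rwa [Nat.sub_add_cancel (S.pos j)] at this)
  let ρ : ((({i' // i' ≠ i} → ℂ) →L[ℂ] ℂ) × ({j' // j' ≠ j} → ℂ)) × ℂ →L[ℂ] M :=
    LinearMap.toContinuousLinearMap
      { toFun := fun τ => τ.2 • a j + ∑ k : {j' // j' ≠ j}, τ.1.2 k • a k +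
          ∑ i', τ.1.1 (Pi.single i' 1) • b i'
        map_add' := fun _ _ => by
          simp only [Prod.snd_add, Prod.fst_add, Pi.add_apply, _root_.add_apply,
            add_smul, Finset.sum_add_distrib]
          abel
        map_smul' := fun _ _ => by simp [Finset.smul_sum, smul_smul] }
  have e : ∀ τ y, S.ev (ρ τ) (aff i y) = τ.2 • Pi.single j 1 +
      ∑ k : {j' // j' ≠ j}, τ.1.2 k • Pi.single k.1 1 +
      ∑ i', τ.1.1 (Pi.single i' 1) • Pi.single j (y i') := fun τ y => by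
    show S.ev (_ + _ + _) _ = _
    simp [ev_add, ev_sum, ev_smul, ha, hb, aff_self, aff_ne]
  have s1 : ContDiff ℂ ∞ (S.f' i j) := by
    rw [contDiff_pi]
    exact fun k => pol_contDiff (S.pol_aux i k.1)
  refine ⟨ρ, fam_cr (pol_contDiff (S.pol_f₀ i j)) s1 (fun u v y => congrFun (S.ev_add u v _) j)
    (fun u v y => funext fun k => congrFun (S.ev_add u v _) k.1)
    (fun c u y => congrFun (S.ev_smul c u _) j)
    (fun c u y => funext fun k => congrFun (S.ev_smul c u _) k.1) (fun τ y => ?_) fun τ y => ?_⟩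
  · rw [f₀, e]
    conv_rhs => rw [pi_eq_sum_univ' y, map_sum]
    have : ∀ k : {j' // j' ≠ j}, (Pi.single k.1 1 : κ → ℂ) j = 0 := fun k =>
      Pi.single_eq_of_ne' k.2 _
    simp [Finset.sum_apply, this, mul_comm]
  · funext k
    rw [f', e]
    simp [Finset.sum_apply, Pi.single_eq_of_ne k.2, Pi.single_apply, Subtype.coe_inj]

/-- the linear part of the affine coordinates -/
noncomputable def io (i : m) : ({i' // i' ≠ i} → ℂ) →L[ℂ] m → ℂ :=
  ContinuousLinearMap.pi fun i' => if h : i' = i then 0 else ContinuousLinearMap.proj ⟨i', h⟩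

omit [Fintype m] in
theorem io_apply (i : m) (y : {i' // i' ≠ i} → ℂ) (i' : m) :
    io i y i' = if h : i' = i then 0 else y ⟨i', h⟩ := by
  rw [io, ContinuousLinearMap.pi_apply]
  split_ifs <;> rfl

theorem hasFDerivAt_aff (i : m) (y : {i' // i' ≠ i} → ℂ) : HasFDerivAt (aff i) (io i) y := by
  refine ((io i).hasFDerivAt.const_add (Pi.single i 1)).congr_of_eventuallyEq
    (Eventually.of_forall fun z => funext fun i' => ?_)
  by_cases h : i' = i <;> simp [aff, io_apply, h]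

theorem cr_apply (i : m) (j : κ) (u : M) (w) (η : {i' // i' ≠ i} → ℂ) :
    (cr (S.f₀ i j) (S.f' i j) u w).1 η = fderiv ℂ (S.ev u) (aff i w.1) (io i η) j +
      w.2 fun k => fderiv ℂ (S.ev u) (aff i w.1) (io i η) k.1 := by
  have d := hasFDerivAt_pi'.1 ((S.diff_ev u _).hasFDerivAt.comp w.1 (hasFDerivAt_aff i w.1))
  have d0 : HasFDerivAt (fun y => S.f₀ i j (u, y)) _ w.1 := d j
  have d1 : HasFDerivAt (fun y => S.f' i j (u, y)) _ w.1 := hasFDerivAt_pi.2 fun k => d k.1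
  simp only [cr, d0.fderiv, d1.fderiv]
  rfl

variable {S}

theorem sing_of_G {i : m} {j : κ} {u : M} {w} (h : S.G i j (u, w) = 0) : S.Sing u (aff i w.1) := by
  obtain ⟨h0, h1⟩ := Gc_eq_zero.1 h
  have e : S.ev u (aff i w.1) = 0 := funext fun k => by
    by_cases hk : k = j
    · subst hk; exact h0
    · exact congrFun (congrArg Prod.snd h1) ⟨k, hk⟩
  refine ⟨aff_ne_zero _ _, e, fun hs => ?_⟩
  obtain ⟨v, hv⟩ := hs (Pi.single j 1)
  have e1 : v = v i • aff i w.1 + io i fun i' => v i' - v i * w.1 i' := funext fun i' => by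
    by_cases h : i' = i <;> simp [aff, io_apply, h]
  rw [e1, map_add, map_smul, S.euler e, smul_zero, zero_add] at hv
  have e2 := S.cr_apply i j u w fun i' => v i' - v i * w.1 i'
  rw [hv, h1, show (fun k : {j' // j' ≠ j} => (Pi.single j 1 : κ → ℂ) k.1) = 0 from
    funext fun k => Pi.single_eq_of_ne k.2 _] at e2
  simp at e2

theorem Sing.exists_kill {u : M} {x : m → ℂ} (h : S.Sing u x) :
    ∃ l : κ → ℂ, l ≠ 0 ∧ ∀ v, ∑ k, l k * fderiv ℂ (S.ev u) x v k = 0 := by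
  obtain ⟨φ, h0, h1⟩ := (LinearMap.range (fderiv ℂ (S.ev u) x).toLinearMap).exists_le_ker_of_lt_top
    (lt_top_iff_ne_top.2 fun e => h.2.2 (LinearMap.range_eq_top.1 e))
  have e : ∀ y, φ y = ∑ k, φ (Pi.single k 1) * y k := fun y => by
    conv_lhs => rw [pi_eq_sum_univ' y, map_sum]
    simp [mul_comm]
  refine ⟨fun k => φ (Pi.single k 1), fun hl => h0 (LinearMap.ext fun y => ?_), fun v => ?_⟩
  · rw [e]
    simp [show ∀ k, φ (Pi.single k 1) = 0 from congrFun hl]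
  · rw [← e]
    exact h1 ⟨v, rfl⟩

theorem G_of_kill {u : M} {x : m → ℂ} (h : S.ev u x = 0) {l : κ → ℂ}
    (hl : ∀ v, ∑ k, l k * fderiv ℂ (S.ev u) x v k = 0) {i : m} {j : κ} (hi : x i ≠ 0)
    (hj : l j ≠ 0) : ∃ w, S.G i j (u, w) = 0 ∧ aff i w.1 = (x i)⁻¹ • x ∧
      ∀ k : {j' // j' ≠ j}, l k = 0 → w.2 (Pi.single k 1) = 0 := by
  obtain ⟨c, hc⟩ : ∃ c, c = (x i)⁻¹ := ⟨_, rfl⟩
  have c0 : c ≠ 0 := hc ▸ inv_ne_zero hi
  have e : aff i (fun i' => c * x i') = c • x := funext fun i' => by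
    by_cases h : i' = i
    · subst h; simp [aff_self, hc, hi]
    · simp [aff, h]
  have e0 : S.ev u (c • x) = 0 := (S.ev_smul_eq_zero c0).2 h
  refine ⟨(fun i' => c * x i', ∑ k : {j' // j' ≠ j},
    (l k / c ^ S.d k * (c ^ S.d j / l j)) • ContinuousLinearMap.proj k),
    Gc_eq_zero.2 ⟨?_, Prod.ext (ContinuousLinearMap.ext fun η => ?_) (funext fun k => ?_)⟩,
    hc ▸ e, fun k hk => ?_⟩
  · simp only [f₀, e, e0, Pi.zero_apply]
  · have h1 := hl (c⁻¹ • io i η)
    have h2 := fun k => S.fderiv_ev_hom u c x (c⁻¹ • io i η) k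
    simp only [smul_inv_smul₀ c0] at h2
    rw [Fintype.sum_eq_add_sum_subtype_ne _ j] at h1
    rw [S.cr_apply]
    simp only [e, h2, _root_.sum_apply, _root_.smul_apply,
      ContinuousLinearMap.proj_apply, smul_eq_mul, Prod.fst_zero, _root_.zero_apply]
    rw [← mul_zero (c ^ S.d j / l j), ← h1, mul_add, Finset.mul_sum]
    congr 1
    · field_simp
    · exact Finset.sum_congr rfl fun k _ => by field_simp
  · simp only [cr, f', e, e0, Pi.zero_apply, Prod.snd_zero]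
  · simp only [_root_.sum_apply, _root_.smul_apply,
      ContinuousLinearMap.proj_apply, smul_eq_mul]
    refine Finset.sum_eq_zero fun k' _ => ?_
    by_cases h : k' = k
    · simp [h, hk]
    · simp [h]

variable (S)

/-- a member with a node -/
theorem exists_node (hc : Fintype.card κ ≤ Fintype.card m) (i : m) {j : κ} (hd : 2 ≤ S.d j) :
    ∃ u w, S.G i j (u, w) = 0 ∧ Injective (Jc (S.G i j) u w) := by
  obtain ⟨a⟩ : Nonempty ({j' // j' ≠ j} ↪ {i' // i' ≠ i}) :=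
    Function.Embedding.nonempty_of_card_le (by simp; omega)
  obtain ⟨u, hu⟩ := S.surj (fun k => if h : k = j then
      MvPolynomial.X i ^ (S.d j - 2) * ∑ i' : {i' // i' ≠ i}, MvPolynomial.X i'.1 ^ 2
    else MvPolynomial.X i ^ (S.d k - 1) * MvPolynomial.X (a ⟨k, h⟩).1) fun k => by
    split_ifs with h
    · have := (MvPolynomial.isHomogeneous_X_pow (R := ℂ) i (S.d j - 2)).mul
        (MvPolynomial.IsHomogeneous.sum Finset.univ _ 2 fun (i' : {i' // i' ≠ i}) _ =>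
          MvPolynomial.isHomogeneous_X_pow (R := ℂ) i'.1 2)
      rw [Nat.sub_add_cancel hd] at this
      rwa [h]
    · have := (MvPolynomial.isHomogeneous_X_pow (R := ℂ) i (S.d k - 1)).mul
        (MvPolynomial.isHomogeneous_X ℂ (a ⟨k, h⟩).1)
      rwa [Nat.sub_add_cancel (S.pos k)] at this
  exact ⟨u, 0, node_abs a (fun y => by simp [f₀, ev, hu, aff_self, aff_ne])
    fun y k => by simp [f', ev, hu, aff_self, aff_ne, k.2]⟩

variable {S}

theorem good_iff {i : m} {j : κ} {u : M} : S.Good i j u ↔ ∃ w, S.G i j (u, w) = 0 ∧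
    Injective (Jc (S.G i j) u w) ∧ ∀ x, S.Sing u x → prj x = prj (aff i w.1) :=
  exists_congr fun _ => by rw [Gc_eq_zero, and_assoc]; rfl

theorem Good.smul {i : m} {j : κ} {u : M} (h : S.Good i j u) {c : ℂ} (hc : c ≠ 0) :
    S.Good i j (c • u) := by
  have : Nonempty κ := ⟨j⟩
  obtain ⟨ρ, F⟩ := S.exists_fam i j
  obtain ⟨w, h1, h2, h3⟩ := good_iff.1 h
  refine good_iff.2 ⟨w, F.smul_zero' h1 c, F.inj_smul hc h2, fun x hx => h3 x ?_⟩
  simpa [smul_smul, hc] using hx.smul c⁻¹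

theorem Sing.exists_chart {u : M} {x : m → ℂ} (h : S.Sing u x) : ∃ i j w, S.G i j (u, w) = 0 := by
  obtain ⟨l, l0, hl⟩ := h.exists_kill
  obtain ⟨i, hi⟩ := Function.ne_iff.1 h.1
  obtain ⟨j, hj⟩ := Function.ne_iff.1 l0
  obtain ⟨w, hw, -⟩ := G_of_kill h.2.1 hl hi hj
  exact ⟨i, j, w, hw⟩

end CI

variable {M m κ : Type} [NormedAddCommGroup M] [NormedSpace ℂ M] [FiniteDimensional ℂ M]
  [Fintype m] [Fintype κ] [DecidableEq m] [DecidableEq κ] (S : CI M m κ)

theorem CI.isOpen_U : IsOpen S.U := S.isOpen_U'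

theorem CI.small_disc {k : ℕ} (hk : finrank ℝ M ≤ k + 2) : Small k S.Uᶜ := by
  refine (Small.iUnion fun i => Small.iUnion fun j =>
    (S.exists_fam i j).choose_spec.small_all hk).mono fun u hu => ?_
  obtain ⟨x, hx⟩ := not_forall.1 hu
  obtain ⟨i, j, w, hw⟩ := (not_not.1 hx).exists_chart
  exact mem_iUnion₂.2 ⟨i, j, w, hw⟩

theorem CI.exists_bad (hc : Fintype.card κ + 2 ≤ Fintype.card m) (i₀ : m) {j₀ : κ} (hd : 2 ≤ S.d j₀) :
    ∃ Z : Set M, (∀ k, finrank ℝ M ≤ k + 4 → Small k Z) ∧ Disjoint S.U Z ∧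
      (∀ u ∈ Z, ∀ c : ℂ, c • u ∈ Z) ∧ IsPreconnected (S.Uᶜ \ Z) ∧
      ∀ u, u ∉ S.U → u ∉ Z → S.Good i₀ j₀ u := by
  have : Nonempty κ := ⟨j₀⟩
  obtain ⟨ρ, F⟩ := S.exists_fam i₀ j₀
  obtain ⟨u₀, w₀, n0, n1⟩ := S.exists_node (by omega) i₀ hd
  have hW : 1 ≤ finrank ℂ (({i // i ≠ i₀} → ℂ) × (({j // j ≠ j₀} → ℂ) →L[ℂ] ℂ)) := by
    rw [finrank_prod, finrank_fintype_fun_eq_card]
    simp
    omega
  have sm : ∀ k, finrank ℝ M ≤ k + 4 → Small k {u | u ∉ S.U ∧ ¬S.Good i₀ j₀ u} := fun k hk => by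
    have s1 := Small.iUnion fun i => Small.iUnion fun j => Small.iUnion fun h : i₀ ≠ i =>
      (S.exists_fam i j).choose_spec.small_hyp (φ := fun w => w.1 ⟨i₀, h⟩) (by fun_prop)
        (a := (1, 0)) one_ne_zero hk
    have s2 := Small.iUnion fun i => Small.iUnion fun j => Small.iUnion fun h : j₀ ≠ j =>
      (S.exists_fam i j).choose_spec.small_hyp (φ := fun w => w.2 (Pi.single ⟨j₀, h⟩ 1))
        (contDiff_snd.clm_apply contDiff_const) (a := (0, ContinuousLinearMap.proj ⟨j₀, h⟩))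
        (by simp) hk
    refine ((s1.union s2).union ((F.small_deg n0 n1 hk).union (F.small_two hk))).mono ?_
    rintro u ⟨hu, hg⟩
    by_contra hn
    simp only [mem_union, mem_iUnion, mem_ofPred_eq, not_or, not_exists, not_and, not_not] at hn
    obtain ⟨⟨k1, k2⟩, k3, k4⟩ := hn
    have key : ∀ x, S.Sing u x → ∃ w, S.G i₀ j₀ (u, w) = 0 ∧ prj x = prj (aff i₀ w.1) := by
      intro x hx
      obtain ⟨l, l0, hl⟩ := hx.exists_kill
      obtain ⟨i, hi⟩ := Function.ne_iff.1 hx.1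
      obtain ⟨j, hj⟩ := Function.ne_iff.1 l0
      obtain ⟨w, hw, e1, e2⟩ := CI.G_of_kill hx.2.1 hl hi hj
      have a1 : x i₀ ≠ 0 := fun h => by
        have h' : i₀ ≠ i := fun e => hi (e ▸ h)
        refine k1 i j h' w ?_ hw
        rw [← aff_ne w.1 ⟨i₀, h'⟩, e1]
        simp [h]
      have a2 : l j₀ ≠ 0 := fun h => by
        have h' : j₀ ≠ j := fun e => hj (e ▸ h)
        exact k2 i j h' w (e2 ⟨j₀, h'⟩ h) hw
      obtain ⟨w, hw, e1, -⟩ := CI.G_of_kill hx.2.1 hl a1 a2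
      exact ⟨w, hw, by rw [e1, prj_smul (inv_ne_zero a1)]⟩
    obtain ⟨x, hx⟩ := not_forall.1 hu
    obtain ⟨w, hw, -⟩ := key x (not_not.1 hx)
    refine hg (CI.good_iff.2 ⟨w, hw, k3 w hw, fun x' hx' => ?_⟩)
    obtain ⟨w', hw', e⟩ := key x' hx'
    by_contra hne
    refine k4 w w' (fun h => hne ?_) hw hw' (k3 w hw) (k3 w' hw')
    rw [e, fst_eq_of_psiC h]
  refine ⟨{u | u ∉ S.U ∧ ¬S.Good i₀ j₀ u}, sm, disjoint_left.2 fun u hu h => h.1 hu, ?_, ?_,
    fun u hu h => by_contra fun k => h ⟨hu, k⟩⟩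
  · rintro u ⟨hu, hg⟩ c
    obtain ⟨x, hx⟩ := not_forall.1 hu
    refine ⟨fun h => h x ((not_not.1 hx).smul c), fun h => ?_⟩
    rcases eq_or_ne c 0 with rfl | c0
    · obtain ⟨w, -, h2, -⟩ := CI.good_iff.1 h
      exact F.not_inj_zero hW u w h2
    · exact hg (by simpa [smul_smul, c0] using h.smul (inv_ne_zero c0))
  · convert F.preconn n0 n1 hW sm using 1
    ext u
    refine and_congr_left fun h => ⟨fun hu => ?_, fun ⟨w, hw⟩ k => k _ (CI.sing_of_G hw)⟩
    obtain ⟨w, hw, -⟩ := CI.good_iff.1 (by_contra fun k => h ⟨hu, k⟩)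
    exact ⟨w, hw⟩

end Vale.Agent.P269.Mono
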