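import Vale.Agent.P269.Mono.WL
import Vale.Agent.P269.Inv.Root
import Vale.Agent.P269.Inv.FFT

set_option linter.unusedSectionVars false

/-!
# P269, monodromy: complex conjugation on cohomology (helper19)
-/

namespace Vale.Agent.P269.Mono

open Set Topology Filter Module Function TopologicalSpace Vale.Agent.P291Z
open scoped ComplexConjugate

section Coch

variable {X Y : Type}

/-- the conjugate of a cochain -/
noncomputable def cjC (a : Coch X) : Coch X :=
  ⟨fun l => conj (a.1 l), by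
    obtain ⟨h0, N, hN⟩ := a.2
    exact ⟨by simp [h0], N, fun l hl => by simp [hN l hl]⟩⟩

theorem cjC_add (a b : Coch X) : cjC (a + b) = cjC a + cjC b :=
  Subtype.ext (funext fun l => map_add conj (a.1 l) (b.1 l))

theorem cjC_sub (a b : Coch X) : cjC (a - b) = cjC a - cjC b :=
  Subtype.ext (funext fun l => map_sub conj (a.1 l) (b.1 l))

theorem cjC_smul (c : ℂ) (a : Coch X) : cjC (c • a) = conj c • cjC a :=
  Subtype.ext (funext fun l => map_mul conj c (a.1 l))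

theorem cjC_mul (a b : Coch X) : cjC (a * b) = cjC a * cjC b :=
  Subtype.ext (funext fun l => by
    change conj (cup a.1 b.1 l) = cup (fun l => conj (a.1 l)) (fun l => conj (b.1 l)) l
    simp [cup])

theorem cjC_δ (a : Coch X) : cjC (δ a) = δ (cjC a) :=
  Subtype.ext (funext fun l => by
    change conj (cob a.1 l) = cob (fun l => conj (a.1 l)) l
    simp [cob])

theorem cjC_cjC (a : Coch X) : cjC (cjC a) = a :=
  Subtype.ext (funext fun l => Complex.conj_conj (a.1 l))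

theorem cjC_pull (f : X → Y) (a : Coch Y) : cjC (pull f a) = pull f (cjC a) := rfl

theorem isDeg_cjC {k : ℤ} {a : Coch X} (h : IsDeg k a) : IsDeg k (cjC a) := fun l hl => by
  change conj (a.1 l) = 0
  rw [h l hl, map_zero]

variable [TopologicalSpace X] [TopologicalSpace Y]

theorem supp_cjC (a : Coch X) : supp (cjC a) = supp a := by
  ext x
  change (∀ U ∈ 𝓝 x, ∃ l : List X, (∀ y ∈ l, y ∈ U) ∧ conj (a.1 l) ≠ 0) ↔ _
  simp only [map_ne_zero]
  rfl

theorem cocycle_cjC {a : Coch X} (h : supp (δ a) = ∅) : supp (δ (cjC a)) = ∅ := by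
  rw [← cjC_δ, supp_cjC, h]

theorem exists_cj (c : H X) : ∃ c', ∀ a, supp (δ a) = ∅ → hcls a = c → hcls (cjC a) = c' := by
  obtain ⟨a₀, h0, rfl⟩ := hcls_surj c
  refine ⟨hcls (cjC a₀), fun a ha e => ?_⟩
  obtain ⟨b, hb⟩ := (hcls_eq_iff ha h0).1 e
  refine (hcls_eq_iff (cocycle_cjC ha) (cocycle_cjC h0)).2 ⟨cjC b, ?_⟩
  rw [← cjC_δ, ← cjC_sub, ← cjC_sub, supp_cjC, hb]

theorem cj_aux {a : Coch X} (h : supp (δ a) = ∅) : (exists_cj (hcls a)).choose = hcls (cjC a) :=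
  ((exists_cj (hcls a)).choose_spec a h rfl).symm

/-- complex conjugation on cohomology -/
noncomputable def cj : H X →ₛₗ[starRingEnd ℂ] H X where
  toFun c := (exists_cj c).choose
  map_add' x y := by
    obtain ⟨a, ha, rfl⟩ := hcls_surj x
    obtain ⟨b, hb, rfl⟩ := hcls_surj y
    rw [← hcls_add ha hb, cj_aux ha, cj_aux hb, cj_aux (cocycle_add ha hb), cjC_add,
      hcls_add (cocycle_cjC ha) (cocycle_cjC hb)]
  map_smul' c x := by
    obtain ⟨a, ha, rfl⟩ := hcls_surj x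
    rw [← hcls_smul c ha, cj_aux ha, cj_aux (cocycle_smul c ha), cjC_smul,
      hcls_smul _ (cocycle_cjC ha)]

theorem cj_hcls {a : Coch X} (h : supp (δ a) = ∅) : cj (hcls a) = hcls (cjC a) := cj_aux h

theorem cj_mul (x y : H X) : cj (x * y) = cj x * cj y := by
  obtain ⟨a, ha, rfl⟩ := hcls_surj x
  obtain ⟨b, hb, rfl⟩ := hcls_surj y
  rw [← hcls_mul ha hb, cj_hcls ha, cj_hcls hb, cj_hcls (cocycle_mul ha hb), cjC_mul,
    hcls_mul (cocycle_cjC ha) (cocycle_cjC hb)]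

theorem cj_cj (x : H X) : cj (cj x) = x := by
  obtain ⟨a, ha, rfl⟩ := hcls_surj x
  rw [cj_hcls ha, cj_hcls (cocycle_cjC ha), cjC_cjC]

theorem cj_map (f : C(X, Y)) (y : H Y) : cj (H.map f y) = H.map f (cj y) := by
  obtain ⟨a, ha, rfl⟩ := hcls_surj y
  rw [H.map_hcls f ha, cj_hcls ha, cj_hcls (cocycle_pull f.continuous ha), cjC_pull,
    H.map_hcls f (cocycle_cjC ha)]

theorem isDeg_cj {k : ℤ} {x : H X} (h : H.IsDeg k x) : H.IsDeg k (cj x) := by
  obtain ⟨a, ha, hd, rfl⟩ := H.isDeg_iff.1 h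
  rw [cj_hcls ha]
  exact hcls_isDeg (isDeg_cjC hd)

/-- the integral is real up to a factor -/
theorem Lef.exists_real {n : ℕ} {h : H X} {ι : H X →ₗ[ℂ] ℂ} (L : Lef n h ι) :
    ∃ a : ℂ, a ≠ 0 ∧ ∀ x, a * ι (cj x) = conj (a * ι x) := by
  let ι' : H X →ₗ[ℂ] ℂ :=
    { toFun := fun x => conj (ι (cj x))
      map_add' := fun x y => by simp
      map_smul' := fun c x => by simp [LinearMap.map_smulₛₗ] }
  have h1 : ∀ x, conj (ι (cj x)) = ι' (h ^ n) * ι x := fun x => by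
    have := L.unique (ι' := ι + ι' - ι' (h ^ n) • ι) (fun k hk x hx => by
      simp [ι', L.deg k hk x hx, L.deg k hk _ (isDeg_cj hx)]) (by simp [L.norm])
    have := LinearMap.congr_fun this x
    simp only [LinearMap.sub_apply, LinearMap.add_apply, LinearMap.smul_apply, smul_eq_mul] at this
    change ι' x = _
    linear_combination this
  generalize ι' (h ^ n) = l at h1
  have h2 : conj l * l = 1 := by
    have h3 := h1 (cj (h ^ n))
    have h4 := congrArg conj (h1 (h ^ n))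
    rw [cj_cj, L.norm, map_one] at h3
    rw [L.norm, mul_one, Complex.conj_conj] at h4
    rw [h4] at h3
    rw [mul_comm, ← h3]
  obtain ⟨a, rfl⟩ := IsAlgClosed.exists_pow_nat_eq l two_pos
  have h3 : conj a * a = 1 := by
    have h4 : ‖a‖ ^ 4 = 1 := by
      have := congrArg (‖·‖) h2
      simp only [norm_mul, Complex.norm_conj, norm_pow, norm_one] at this
      linear_combination this
    rw [Complex.conj_mul', (pow_eq_one_iff_of_nonneg (norm_nonneg a) (by norm_num)).1 h4]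
    simp
  refine ⟨a, right_ne_zero_of_mul_eq_one h3, fun x => ?_⟩
  have h4 := congrArg conj (h1 x)
  rw [Complex.conj_conj] at h4
  rw [h4]
  simp only [map_mul, map_pow]
  linear_combination (conj a * conj (ι x)) * h3

end Coch

section Alg

open _root_.Vale.Agent.P269.Inv

variable {ι H : Type*} [Fintype ι] [DecidableEq ι] [AddCommGroup H] [Module ℂ H]
  {B : H →ₗ[ℂ] H →ₗ[ℂ] ℂ} {V : Submodule ℂ H} {Δ : Set H} {T : MF ι H}

theorem refl_smul_form {a : ℂ} (ha : a ≠ 0) (δ : H) : refl (a • B) δ = refl B δ := by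
  ext x
  simp only [refl_apply, LinearMap.smul_apply, smul_eq_mul]
  congr 2
  by_cases h : B δ δ = 0
  · simp [h]
  · field_simp

/-- an isometry of Picard-Lefschetz type is a reflection -/
theorem eq_refl (h : IsForm B V 1) {δ : H} (hδ : δ ∈ V) (h0 : δ ≠ 0) {c : ℂ} (hc : c ≠ 0)
    (hi : ∀ x ∈ V, B ((1 + c • rk B δ δ) x) ((1 + c • rk B δ δ) x) = B x x) :
    B δ δ ≠ 0 ∧ 1 + c • rk B δ δ = refl B δ := by
  obtain ⟨x, hx, hxδ⟩ : ∃ x ∈ V, B x δ ≠ 0 := by
    by_contra! hcon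
    exact h0 (h.nondeg δ hδ hcon)
  have h1 := hi x hx
  simp only [LinearMap.add_apply, Module.End.one_apply, LinearMap.smul_apply, rk_apply, map_add,
    map_smul, smul_eq_mul, h.comm hδ hx] at h1
  have h2 : 2 + c * B δ δ = 0 := by
    refine mul_left_cancel₀ (mul_ne_zero hc (pow_ne_zero 2 hxδ)) ?_
    linear_combination h1
  have h3 : B δ δ ≠ 0 := fun h4 => by simp [h4] at h2
  refine ⟨h3, ?_⟩
  rw [Inv.refl, sub_eq_add_neg, ← neg_smul]
  congr 2
  field_simp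
  linear_combination h2

theorem exists_real (σ : H →ₛₗ[starRingEnd ℂ] H) (hσ : ∀ x, σ (σ x) = x)
    (hB : ∀ x y, B (σ x) (σ y) = conj (B x y)) {δ : H} (h0 : B δ δ ≠ 0)
    (hc : σ (refl B δ δ) = refl B δ (σ δ)) :
    ∃ s : ℂ, s ≠ 0 ∧ σ (s • δ) = s • δ ∧ B (s • δ) (s • δ) ^ 2 = 4 := by
  obtain ⟨k, hk⟩ : ∃ k : ℂ, σ δ = k • δ := by
    refine ⟨B (σ δ) δ / B δ δ, ?_⟩
    rw [refl_apply, refl_apply, div_mul_cancel₀ _ h0, two_smul, sub_add_cancel_left, map_neg] at hc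
    have : (2 : ℂ) • σ δ = (2 / B δ δ * B (σ δ) δ) • δ := by
      linear_combination (norm := module) -hc
    refine smul_right_injective H (two_ne_zero (α := ℂ)) ?_
    simp only [this, smul_smul]
    congr 1
    ring
  obtain ⟨s, hs, hs'⟩ : ∃ s : ℂ, s ≠ 0 ∧ σ (s • δ) = s • δ := by
    by_cases h1 : 1 + k = 0
    · refine ⟨Complex.I, Complex.I_ne_zero, ?_⟩
      rw [LinearMap.map_smulₛₗ, hk, Complex.conj_I, smul_smul, eq_neg_of_add_eq_zero_right h1]
      simp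
    · refine ⟨1 + k, h1, ?_⟩
      rw [add_smul, one_smul, ← hk, map_add, hσ, add_comm]
  have h1 : B (s • δ) (s • δ) ≠ 0 := by simpa [hs] using h0
  obtain ⟨ρ, hρ⟩ : ∃ ρ : ℝ, B (s • δ) (s • δ) = ρ := by
    have := hB (s • δ) (s • δ)
    rw [hs'] at this
    exact Complex.conj_eq_iff_real.1 this.symm
  have h2 : 0 < |ρ| := abs_pos.2 fun h => h1 (by rw [hρ, h, Complex.ofReal_zero])
  refine ⟨(√(2 / |ρ|) : ℝ) * s, mul_ne_zero (Complex.ofReal_ne_zero.2 (by positivity)) hs, ?_, ?_⟩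
  · rw [mul_smul, LinearMap.map_smulₛₗ, hs', Complex.conj_ofReal]
  · rw [mul_smul, LinearMap.map_smul₂, map_smul, hρ, smul_eq_mul, smul_eq_mul, ← mul_assoc]
    norm_cast
    rw [Real.mul_self_sqrt (by positivity), mul_pow, ← sq_abs ρ]
    field_simp
    norm_num

/-- reflections which commute with a real structure -/
theorem isInv_of_real [FiniteDimensional ℂ H] (h : IsForm B V 1) (hΔ : Irr B V Δ)
    (hT : ∀ δ ∈ Δ, B δ δ ≠ 0 ∧ Fixes (refl B δ) T) (σ : H →ₛₗ[starRingEnd ℂ] H)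
    (hσ : ∀ x, σ (σ x) = x) {a : ℂ} (ha : a ≠ 0)
    (hB : ∀ x y, a * B (σ x) (σ y) = conj (a * B x y))
    (hc : ∀ δ ∈ Δ, ∀ x, σ (refl B δ x) = refl B δ (σ x)) {x : H} (hxV : x ∈ V) (hx0 : x ≠ 0)
    (hxx : B x x = 0) (hx : σ x = x) : IsInv B V 1 T := by
  have key : ∀ δ ∈ Δ, ∃ s : ℂ, s ≠ 0 ∧ σ (s • δ) = s • δ ∧ (a • B) (s • δ) (s • δ) ^ 2 = 4 :=
    fun δ hδ => exists_real (B := a • B) σ hσ hB (mul_ne_zero ha (hT δ hδ).1)
      (by rw [refl_smul_form ha, hc δ hδ])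
  choose! s hs hs' hs'' using key
  have h1 : IsForm (a • B) V 1 := ⟨h.sq, fun u hu v hv => by simp [h.comm hu hv],
    fun u hu h0 => h.nondeg u hu fun v hv => by simpa [ha] using h0 v hv⟩
  have h2 : Irr (a • B) V ((fun δ => s δ • δ) '' Δ) := by
    refine ⟨le_antisymm ?_ ?_, fun W hW h0 => hΔ.irr W hW fun δ hδ => ?_⟩
    · rw [Submodule.span_le]
      rintro _ ⟨δ, hδ, rfl⟩
      exact V.smul_mem _ (hΔ.mem hδ)
    · rw [← hΔ.span, Submodule.span_le]
      intro δ hδ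
      exact (Submodule.smul_mem_iff _ (hs δ hδ)).1 (Submodule.subset_span ⟨δ, hδ, rfl⟩)
    · refine (h0 _ ⟨δ, hδ, rfl⟩).imp (W.smul_mem_iff (hs δ hδ)).1 fun h3 w hw => ?_
      simpa [ha, hs δ hδ] using h3 w hw
  have h3 : LieInv (a • B) V 1 T := lieInv_of_real h1 h2
    (by rintro _ ⟨δ, hδ, rfl⟩; exact hs'' δ hδ)
    (by rintro _ ⟨δ, hδ, rfl⟩; rw [refl_smul_form ha, refl_smul (hs δ hδ)]; exact (hT δ hδ).2)
    σ hB (by rintro _ ⟨δ, hδ, rfl⟩; exact hs' δ hδ) hxV hx0 (by simp [hxx]) hx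
  refine ⟨fun u hu v hv => Kills.of_smul ha ?_, fun _ hV => ?_⟩
  · convert h3 u hu v hv using 1
    ext y
    simp only [wd_apply, LinearMap.smul_apply, smul_eq_mul]
    module
  · obtain ⟨δ, hδ⟩ : Δ.Nonempty := nonempty_iff_ne_empty.2 fun e => hV (by
      rw [← hΔ.span, e, Submodule.span_empty])
    exact ⟨δ, hΔ.mem hδ, hT δ hδ⟩

end Alg

end Vale.Agent.P269.Mono
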