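import Vale.Agent.P269.Mono.Dg

/-!
# P269: the Mayer-Vietoris sequence of a closed cover, extension of classes to neighbourhoods
-/

namespace Vale.Agent.P269.Mono

open Set Topology Filter Module Function TopologicalSpace Vale.Agent.P291Z MvPolynomial
open scoped ContDiff ComplexConjugate
open Vale.Agent.P291Z.Fl

namespace MVA

variable {X Z U : Type} [TopologicalSpace X] [TopologicalSpace Z] [TopologicalSpace U]

/-- the inverse of `toH` on a compact space -/
noncomputable def ofH (X : Type) [TopologicalSpace X] [CompactSpace X] : H X →ₗ[ℂ] Hc X :=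
  (LinearEquiv.ofBijective toH toH_bijective).symm.toLinearMap

theorem ofH_toH [CompactSpace X] (c : Hc X) : ofH X (toH c) = c :=
  (LinearEquiv.ofBijective toH toH_bijective).symm_apply_apply c

theorem ofH_deg [CompactSpace X] {k : ℤ} {a : H X} (h : H.IsDeg k a) : ofH X a ∈ Hc.deg X k := by
  obtain ⟨c, hc, rfl⟩ := PL.exists_toH h
  rwa [ofH_toH]

variable [MetrizableSpace X] [CompactSpace X] [CompactSpace Z] {f : C(Z, X)}
  (hf : IsClosedEmbedding f) {j : U → X} (hj : IsOpenEmbedding j) (hc : range j = (range f)ᶜ)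

include hf hc in
theorem exact_push (x : H X) : H.map f x = 0 ↔ ∃ c, toH (Hc.push hj c) = x := by
  obtain ⟨x, rfl⟩ := toH_bijective.2 x
  rw [← toH_pull (IsPr.of_isClosedEmbedding hf), map_eq_zero_iff _ toH_bijective.1,
    Hc.exact_push_pull hf hj hc x]
  exact exists_congr fun c => toH_bijective.1.eq_iff.symm

theorem exact_map (z : H Z) : Hc.conn hf hj hc (ofH Z z) = 0 ↔ ∃ x, H.map f x = z := by
  obtain ⟨z, rfl⟩ := toH_bijective.2 z
  rw [ofH_toH, Hc.exact_pull_conn hf hj hc z]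
  constructor
  · rintro ⟨x, rfl⟩
    exact ⟨_, (toH_pull _ x).symm⟩
  · rintro ⟨x, hx⟩
    obtain ⟨x, rfl⟩ := toH_bijective.2 x
    exact ⟨x, toH_bijective.1 ((toH_pull _ x).trans hx)⟩

theorem exact_conn (c : Hc U) :
    toH (Hc.push hj c) = 0 ↔ ∃ z, Hc.conn hf hj hc (ofH Z z) = c := by
  rw [map_eq_zero_iff _ toH_bijective.1, Hc.exact_conn_push hf hj hc c]
  exact ⟨fun ⟨z, h⟩ => ⟨toH z, by rwa [ofH_toH]⟩, fun ⟨z, h⟩ => ⟨_, h⟩⟩

end MVA

section MV
variable {G A T W : Type} [TopologicalSpace G] [TopologicalSpace A] [TopologicalSpace T]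
  [TopologicalSpace W] [MetrizableSpace G] [CompactSpace G] {a : C(A, G)} {t : C(T, G)}
  {u : C(W, A)} {w : C(W, T)}

open MVA in
theorem exists_mv (ha : IsClosedEmbedding a) (ht : IsClosedEmbedding t)
    (hw : IsClosedEmbedding w) (sq : ∀ x, t (w x) = a (u x)) (cov : ∀ g, g ∉ range a → g ∈ range t)
    (int : ∀ x, t x ∈ range a → x ∈ range w) : ∃ d : H W →ₗ[ℂ] H G,
      (∀ k x, H.IsDeg k x → H.IsDeg (k + 1) (d x)) ∧
      Exact d (fun g => (H.map a g, H.map t g)) ∧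
      Exact (fun g => (H.map a g, H.map t g)) (fun p : H A × H T => H.map u p.1 - H.map w p.2) ∧
      Exact (fun p : H A × H T => H.map u p.1 - H.map w p.2) d := by
  have := ha.compactSpace
  have := ht.compactSpace
  have := hw.compactSpace
  have := ht.isEmbedding.metrizableSpace
  have := ha.isEmbedding.t2Space
  have hc := PL.mv_range sq cov int
  have hj := PL.oemb ha (ht.isEmbedding.comp IsEmbedding.subtypeVal) hc
  have hj' := hw.isClosed_range.isOpen_compl.isOpenEmbedding_subtypeVal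
  have hc' : range (Subtype.val : ((range w)ᶜ : Set T) → T) = (range w)ᶜ := Subtype.range_coe
  have n1 : ∀ α, Hc.conn hw hj' hc' (ofH W (H.map u α)) = Hc.conn ha hj hc (ofH A α) := fun α => by
    obtain ⟨α, rfl⟩ := toH_bijective.2 α
    have h1 := Hc.pull_conn ha hj hc hw hj' hc' (IsPr.of_isClosedEmbedding ht)
      (IsPr.of_compact u.continuous) IsPr.id sq (fun _ => rfl) α
    rw [Hc.pull_id _ fun _ => rfl] at h1
    rw [← toH_pull (IsPr.of_compact u.continuous), ofH_toH, ofH_toH, h1]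
  have n2 : ∀ c, H.map t (toH (Hc.push hj c)) = toH (Hc.push hj' c) := fun c => by
    rw [← toH_pull (IsPr.of_isClosedEmbedding ht), Hc.pull_push hj hj' _ IsPr.id (fun _ => rfl) (by
      rintro x ⟨y, hy⟩
      exact ⟨y, ht.injective hy⟩), Hc.pull_id _ fun _ => rfl]
  have n3 : ∀ g, H.map u (H.map a g) = H.map w (H.map t g) := fun g =>
    (PL.map_map' (k := t.comp w) (fun x => (sq x).symm) g).trans (H.map_map w t g).symm
  refine ⟨toH ∘ₗ Hc.push hj ∘ₗ Hc.conn hw hj' hc' ∘ₗ ofH W, fun k x hx =>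
    toH_deg (Hc.push_deg hj (Hc.conn_deg hw hj' hc' (ofH_deg hx))), fun γ => ?_, fun p => ?_,
    fun b => ?_⟩
  · rw [Prod.mk_eq_zero]
    constructor
    · rintro ⟨h1, h2⟩
      obtain ⟨c, rfl⟩ := (exact_push ha hj hc γ).1 h1
      obtain ⟨b, rfl⟩ := (exact_conn hw hj' hc' c).1 ((n2 c).symm.trans h2)
      exact ⟨b, rfl⟩
    · rintro ⟨b, rfl⟩
      exact ⟨(exact_push ha hj hc _).2 ⟨_, rfl⟩,
        (n2 _).trans ((exact_conn hw hj' hc' _).2 ⟨b, rfl⟩)⟩
  · obtain ⟨α, τ⟩ := p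
    constructor
    · intro h
      have h1 : H.map u α = H.map w τ := sub_eq_zero.1 h
      obtain ⟨γ, rfl⟩ := (exact_map ha hj hc α).1 (by
        rw [← n1, h1]; exact (exact_map hw hj' hc' _).2 ⟨τ, rfl⟩)
      obtain ⟨c, h2⟩ := (exact_push hw hj' hc' (τ - H.map t γ)).1 (by
        rw [map_sub, ← h1, n3, sub_self])
      refine ⟨γ + toH (Hc.push hj c), Prod.ext ?_ ?_⟩
      · show H.map a _ = _
        rw [map_add, (exact_push ha hj hc _).2 ⟨c, rfl⟩, add_zero]
      · show H.map t _ = _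
        rw [map_add, n2, h2, add_sub_cancel]
    · rintro ⟨γ, h⟩
      obtain ⟨rfl, rfl⟩ := Prod.mk.inj h
      exact sub_eq_zero.2 (n3 γ)
  · constructor
    · intro h
      obtain ⟨α, h1⟩ := (exact_conn ha hj hc _).1 h
      obtain ⟨τ, h2⟩ := (exact_map hw hj' hc' (H.map u α - b)).1 (by
        rw [map_sub, map_sub, n1, h1]; exact sub_self _)
      exact ⟨(α, τ), show H.map u α - H.map w τ = b by rw [h2, sub_sub_cancel]⟩
    · rintro ⟨⟨α, τ⟩, rfl⟩
      show toH (Hc.push hj (Hc.conn hw hj' hc' (ofH W (H.map u α - H.map w τ)))) = 0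
      rw [map_sub, map_sub, n1, (exact_map hw hj' hc' _).2 ⟨τ, rfl⟩, sub_zero]
      exact (exact_conn ha hj hc _).2 ⟨α, rfl⟩

theorem exists_ext_nhds (ha : IsClosedEmbedding a) {p : G → ℝ} (hp : Continuous p)
    (h0 : ∀ g, g ∈ range a ↔ p g ≤ 0) (x : H A) : ∀ᶠ s in 𝓝[>] (0 : ℝ),
      ∃ e : H {g | p g ≤ s}, ∀ a' : C(A, {g | p g ≤ s}), (∀ y, (a' y).1 = a y) → H.map a' e = x := by
  obtain ⟨α, hα, rfl⟩ := hcls_surj x
  obtain ⟨D⟩ := (Taut.of_isClosedEmbedding ha).data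
  have h1 : IsClosed (p '' supp (δ (D.e α))) := ((isClosed_supp _).isCompact.image hp).isClosed
  have h2 : ∀ g ∈ supp (δ (D.e α)), 0 < p g := fun g hg => not_le.1 fun h => by
    obtain ⟨y, rfl⟩ := (h0 g).2 h
    rw [D.e_δ] at hg
    exact D.e_van y _ (supp_eq_empty.1 hα y) hg
  obtain ⟨m, hm, h3⟩ : ∃ m > 0, ∀ g ∈ supp (δ (D.e α)), m ≤ p g := by
    obtain ⟨m, hm, h3⟩ := Metric.isOpen_iff.1 h1.isOpen_compl 0 fun ⟨g, hg, e⟩ => (h2 g hg).ne' e
    refine ⟨m, hm, fun g hg => not_lt.1 fun h => h3 ?_ ⟨g, hg, rfl⟩⟩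
    rwa [mem_ball_zero_iff, Real.norm_eq_abs, abs_of_pos (h2 g hg)]
  filter_upwards [Ioo_mem_nhdsGT hm] with s hs
  have h4 : supp (δ (pull (Subtype.val : {g | p g ≤ s} → G) (D.e α))) = ∅ := by
    rw [δ_pull]
    refine eq_empty_of_forall_notMem fun g hg => ?_
    exact ((h3 _ (supp_pull continuous_subtype_val _ hg)).trans g.2).not_gt hs.2
  refine ⟨hcls (pull Subtype.val (D.e α)), fun a' h => ?_⟩
  rw [H.map_hcls a' h4, pull_pull, show Subtype.val ∘ a' = a from funext h, D.pull_e]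

end MV

end Vale.Agent.P269.Mono
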