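import Vale.Agent.P269.Mono.Dg
import Vale.Agent.P269.Mono.Ehr
import Vale.Agent.P269.Holo.Act
import Vale.Agent.P269.Orb.Slice

set_option linter.unusedSectionVars false
set_option linter.style.haveILetI false

/-!
# P269, degenerations `b c = t`: gauge fixing for torus quotients
-/

namespace Vale.Agent.P269.Mono

open Set Topology Filter Module Function TopologicalSpace Vale.Agent.P291Z MvPolynomial
open scoped ContDiff ComplexConjugate

variable {R J K : Type} [Fintype R] [Fintype J] [Fintype K] [DecidableEq R] {T : Tgt R J K} {i : R}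
  {b c : J} {r ε : ℝ} {O : Set (J → ℂ)} {μ : (J → ℂ) → R → ℝ}

/-! ### characters and monomials -/

namespace Ga

/-- the character with exponent `e` -/
noncomputable def chi (t : R → ℂ) (e : R → ℤ) : ℂ := ∏ l, t l ^ e l

/-- the monomial with exponent `α` -/
def mon (α : J → ℕ) (x : J → ℂ) : ℂ := ∏ j, x j ^ α j

theorem unit_iff {t : R → ℂ} : IsUnit t ↔ ∀ l, t l ≠ 0 := by
  simp only [Pi.isUnit_iff, isUnit_iff_ne_zero]

theorem chi_ne {t : R → ℂ} (ht : IsUnit t) (e : R → ℤ) : chi t e ≠ 0 :=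
  Finset.prod_ne_zero_iff.2 fun l _ => zpow_ne_zero _ (unit_iff.1 ht l)

theorem chi_add {t : R → ℂ} (ht : IsUnit t) (e e' : R → ℤ) : chi t (e + e') = chi t e * chi t e' := by
  simp only [chi, Pi.add_apply, zpow_add₀ (unit_iff.1 ht _), Finset.prod_mul_distrib]

theorem chi_zero (t : R → ℂ) : chi t 0 = 1 := by simp [chi]

theorem chi_single (t : R → ℂ) (l : R) : chi t (Pi.single l 1) = t l := by
  rw [chi, Finset.prod_eq_single l (fun m _ h => by simp [h]) (by simp)]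
  simp

theorem act_apply (t : R → ℂ) (x : J → ℂ) (j : J) : T.act t x j = chi t (T.w j) * x j := rfl

theorem act_one (x : J → ℂ) : T.act 1 x = x := funext fun j => by simp [act_apply, chi]

theorem act_mul (s t : R → ℂ) (x : J → ℂ) : T.act (s * t) x = T.act s (T.act t x) :=
  funext fun j => by simp only [act_apply, chi, Pi.mul_apply, mul_zpow, Finset.prod_mul_distrib,
    mul_assoc]

theorem act_inv {t : R → ℂ} (ht : IsUnit t) (x : J → ℂ) : T.act t⁻¹ (T.act t x) = x := by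
  rw [← act_mul, show t⁻¹ * t = 1 from funext fun l => inv_mul_cancel₀ (unit_iff.1 ht l), act_one]

theorem unit_inv {t : R → ℂ} (ht : IsUnit t) : IsUnit t⁻¹ :=
  unit_iff.2 fun l => inv_ne_zero (unit_iff.1 ht l)

theorem mon_act {t : R → ℂ} (ht : IsUnit t) {α : J → ℕ} {e : R → ℤ}
    (h : ∀ l, ∑ j, α j * T.w j l = e l) (x : J → ℂ) : mon α (T.act t x) = chi t e * mon α x := by
  simp only [mon, act_apply, mul_pow, Finset.prod_mul_distrib]
  congr 1
  simp only [chi, ← h, ← Finset.prod_zpow, ← zpow_natCast, ← zpow_mul]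
  rw [Finset.prod_comm]
  refine Finset.prod_congr rfl fun l _ => ?_
  obtain ⟨u, hu⟩ := (unit_iff.1 ht l).isUnit
  simp only [← hu, ← Units.val_zpow_eq_zpow_val, ← Units.coe_prod, mul_comm (T.w _ l)]
  exact congrArg _ (map_prod (zpowersHom ℂˣ u) (fun j => Multiplicative.ofAdd (α j * T.w j l)) _).symm

theorem analytic_mon (α : J → ℕ) (x : J → ℂ) : AnalyticAt ℂ (mon α) x :=
  Finset.analyticAt_fun_prod _ fun j _ =>
    ((ContinuousLinearMap.proj j : (J → ℂ) →L[ℂ] ℂ).analyticAt x).pow _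

theorem analytic_act {t : R → ℂ} (ht : IsUnit t) (x : J → ℂ) :
    AnalyticAt ℂ (fun p : (R → ℂ) × (J → ℂ) => T.act p.1 p.2) (t, x) := by
  refine analyticAt_pi_iff.2 fun j => (Finset.analyticAt_fun_prod _ fun l _ => ?_).mul
    (((ContinuousLinearMap.proj j : (J → ℂ) →L[ℂ] ℂ).analyticAt x).comp (f := Prod.snd)
      (x := (t, x)) analyticAt_snd)
  exact (((ContinuousLinearMap.proj l : (R → ℂ) →L[ℂ] ℂ).analyticAt t).comp
    (f := Prod.fst) (x := (t, x)) analyticAt_fst).zpow (unit_iff.1 ht l)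

theorem continuousAt_act {X : Type*} [TopologicalSpace X] {t : X → R → ℂ} {x : X → J → ℂ} {p : X}
    (ht : ContinuousAt t p) (hx : ContinuousAt x p) (h : IsUnit (t p)) :
    ContinuousAt (fun p => T.act (t p) (x p)) p :=
  ContinuousAt.comp (f := fun p => (t p, x p)) (analytic_act h _).continuousAt (ht.prodMk hx)

theorem isAct {A : Set (J → ℂ)} (hi : ∀ t, IsUnit t → ∀ x ∈ A, T.act t x ∈ A) :
    Holo.IsAct T.act A :=
  ⟨fun x _ => act_one x, fun s t _ _ x _ => act_mul s t x, hi, fun _ ht x _ => analytic_act ht x⟩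

theorem mk_eq {A : Set (J → ℂ)} (hi : ∀ t, IsUnit t → ∀ x ∈ A, T.act t x ∈ A) {x y : A} :
    Quo.mk T.act x = Quo.mk T.act y ↔ ∃ t, IsUnit t ∧ y.1 = T.act t x.1 :=
  haveI := isAct hi
  ⟨fun e => (Holo.Sp.mk_eq_iff.1 e).elim fun g hg => ⟨g, g.isUnit, (congrArg Subtype.val hg).symm⟩,
    fun e => Quot.sound e⟩

theorem isEmbedding_qinc {A A' : Set (J → ℂ)} (hA : A ⊆ A')
    (hi : ∀ t, IsUnit t → ∀ x ∈ A, T.act t x ∈ A) (hi' : ∀ t, IsUnit t → ∀ x ∈ A', T.act t x ∈ A') :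
    IsEmbedding (qinc T.act hA) ∧ ∀ x : A', Quo.mk T.act x ∈ range (qinc T.act hA) ↔ x.1 ∈ A := by
  haveI := isAct hi'
  have h1 : ∀ x : A', Quo.mk T.act x ∈ range (qinc T.act hA) ↔ x.1 ∈ A := fun x => by
    refine ⟨fun ⟨z, hz⟩ => ?_, fun hx => ⟨Quo.mk T.act ⟨x.1, hx⟩, rfl⟩⟩
    obtain ⟨y, rfl⟩ := Quot.mk_surjective z
    obtain ⟨t, ht, e⟩ := (mk_eq hi').1 hz
    exact e ▸ hi t ht _ y.2
  refine ⟨isEmbedding_of_isOpenQuotientMap_of_isInducing (inclusion hA) _ (Quo.mk T.act)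
    (Quo.mk T.act) rfl (IsEmbedding.inclusion hA).isInducing isQuotientMap_quot_mk
    Holo.Sp.isOpenQuotientMap_mk (fun z z' e => ?_) ?_, h1⟩
  · obtain ⟨y, rfl⟩ := Quot.mk_surjective z
    obtain ⟨y', rfl⟩ := Quot.mk_surjective z'
    exact Quot.sound ((mk_eq hi').1 e)
  · rintro x ⟨_, ⟨y, rfl⟩, e⟩
    exact ⟨⟨x.1, (h1 x).1 ⟨Quo.mk T.act y, e⟩⟩, rfl⟩

end Ga

open Ga

/-! ### invariance -/

theorem Dg.mul_act (h : Dg T i b c r) {t : R → ℂ} (ht : IsUnit t) (x : J → ℂ) :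
    T.act t x b * T.act t x c = x b * x c := by
  rw [act_apply, act_apply, mul_mul_mul_comm, ← chi_add ht, h.wb, h.wc, add_neg_cancel, chi_zero,
    one_mul]

theorem Dg.eval_act (h : Dg T i b c r) {t : R → ℂ} (ht : IsUnit t) {x : J → ℂ} {k : K}
    (hx : eval x (T.F k) = 0) : eval (T.act t x) (T.F k) = 0 := by
  obtain ⟨χ, hχ⟩ := h.hom
  rw [eval_eq'] at hx ⊢
  rw [← mul_zero (chi t (χ k)), ← hx, Finset.mul_sum]
  refine Finset.sum_congr rfl fun α hα => ?_
  rw [mul_left_comm]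
  exact congrArg _ (mon_act ht (hχ k α hα) x)

theorem Dg.cone_act (h : Dg T i b c r) {t : R → ℂ} (ht : IsUnit t) {x : J → ℂ} (hx : x ∈ T.cone) :
    T.act t x ∈ T.cone := ⟨h.invU t ht x hx.1, fun k => h.eval_act ht (hx.2 k)⟩

theorem Dg.ovr_act (h : Dg T i b c r) (A : Set ℂ) :
    ∀ t, IsUnit t → ∀ x ∈ ovr T b c A, T.act t x ∈ ovr T b c A :=
  fun _ ht x hx => ⟨h.cone_act ht hx.1, (h.mul_act ht x).symm ▸ hx.2⟩

theorem Dg.cut_act (h : Dg T i b c r) (Z : Set J) :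
    ∀ t, IsUnit t → ∀ x ∈ cut T Z, T.act t x ∈ cut T Z :=
  fun _ ht x hx => ⟨h.cone_act ht hx.1, fun j hj => by rw [act_apply, hx.2 j hj, mul_zero]⟩

/-- the orbit directions are tangent to the cone -/
theorem Dg.euler (h : Dg T i b c r) {x : J → ℂ} {k : K} (hx : eval x (T.F k) = 0) (z : R → ℂ) :
    ∑ j, (∑ l, z l * T.w j l) * x j * eval x (pderiv j (T.F k)) = 0 := by
  obtain ⟨χ, hχ⟩ := h.hom
  have e : ∀ j, x j * eval x (pderiv j (T.F k)) =
      ∑ α ∈ (T.F k).support, (α j : ℂ) * eval x (monomial α (coeff α (T.F k))) := fun j => by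
    conv_lhs => rw [(T.F k).as_sum, map_sum, map_sum, Finset.mul_sum]
    refine Finset.sum_congr rfl fun α _ => ?_
    have := congrArg (MvPolynomial.eval x) (X_mul_pderiv_monomial (i := j) (m := α) (r := coeff α (T.F k)))
    simpa only [map_mul, eval_X, nsmul_eq_mul, map_natCast] using this
  simp only [mul_assoc, e, Finset.mul_sum]
  rw [Finset.sum_comm, ← mul_zero (∑ l, z l * χ k l), ← hx]
  conv_rhs => rw [(T.F k).as_sum, map_sum, Finset.mul_sum]
  refine Finset.sum_congr rfl fun α hα => ?_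
  simp only [← mul_assoc, ← Finset.sum_mul, ← hχ k α hα]
  congr 1
  push_cast
  simp only [Finset.sum_mul, Finset.mul_sum]
  rw [Finset.sum_comm]
  exact Finset.sum_congr rfl fun l _ => Finset.sum_congr rfl fun j _ => by ring

theorem Dg.exists_loc (h : Dg T i b c r) {x : J → ℂ} (hx : x ∈ ovr T b c (Metric.closedBall 0 r)) :
    ∃ (N : Set (J → ℂ)) (τ : (J → ℂ) → R → ℂ), IsOpen N ∧ x ∈ N ∧ AnalyticOnNhd ℂ τ N ∧ τ x = 1 ∧
      (∀ y ∈ N, IsUnit (τ y)) ∧ ∀ t, IsUnit t → ∀ y ∈ N, T.act t y ∈ N ∧ τ (T.act t y) = t * τ y := by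
  obtain ⟨θ, hθ⟩ := h.amp
  obtain ⟨α, h1, h2⟩ := hθ θ (.inl rfl) x hx
  choose β h3 h4 using fun l => hθ _ (.inr ⟨l, rfl⟩) x hx
  have c : ∀ α : J → ℕ, Continuous (mon α) := fun α =>
    continuous_iff_continuousAt.2 fun y => (analytic_mon α y).continuousAt
  refine ⟨{y | mon α y ≠ 0 ∧ ∀ l, mon (β l) y ≠ 0},
    fun y l => mon (β l) y / mon α y / (mon (β l) x / mon α x),
    (isOpen_ne_fun (c α) continuous_const).inter ?_, ⟨h2, h4⟩, fun y hy => ?_,
    funext fun l => div_self (div_ne_zero (h4 l) h2),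
    fun y hy => unit_iff.2 fun l => div_ne_zero (div_ne_zero (hy.2 l) hy.1) (div_ne_zero (h4 l) h2),
    fun t ht y hy => ⟨⟨?_, fun l => ?_⟩, funext fun l => ?_⟩⟩
  · change IsOpen {y | ∀ l, mon (β l) y ≠ 0}
    rw [ofPred_forall]
    exact isOpen_iInter_of_finite fun l => isOpen_ne_fun (c _) continuous_const
  · exact analyticAt_pi_iff.2 fun l => (((analytic_mon _ y).div (analytic_mon _ y) hy.1).div
      analyticAt_const (div_ne_zero (h4 l) h2))
  · rw [mon_act ht h1]; exact mul_ne_zero (chi_ne ht _) hy.1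
  · rw [mon_act ht (h3 l)]; exact mul_ne_zero (chi_ne ht _) (hy.2 l)
  · have := chi_ne ht θ
    simp only [mon_act ht h1, mon_act ht (h3 l), chi_add ht, chi_single, Pi.mul_apply]
    field_simp

/-- the action is free -/
theorem Dg.free (h : Dg T i b c r) {x : J → ℂ} (hx : x ∈ ovr T b c (Metric.closedBall 0 r))
    {t : R → ℂ} (ht : IsUnit t) (e : T.act t x = x) : t = 1 := by
  obtain ⟨N, τ, -, h1, -, h2, -, h3⟩ := h.exists_loc hx
  have := (h3 t ht x h1).2
  rwa [e, h2, mul_one, eq_comm] at this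

/-! ### the normalisation -/

theorem Uni.unit {t : R → ℂ} (h : Uni t) : IsUnit t :=
  unit_iff.2 fun l => norm_ne_zero_iff.1 (by rw [h l]; exact one_ne_zero)

theorem Uni.inv {t : R → ℂ} (h : Uni t) : Uni t⁻¹ := fun l => by
  rw [Pi.inv_apply, norm_inv, h l, inv_one]

namespace Ga

theorem isCompact_uni : IsCompact {t : R → ℂ | Uni t} := by
  simpa [Set.pi, Uni] using isCompact_univ_pi fun _ : R => isCompact_sphere (0 : ℂ) 1

/-- the normalising element -/
noncomputable def nrm (μ : (J → ℂ) → R → ℝ) (x : J → ℂ) (l : R) : ℂ := (Real.exp (-μ x l) : ℝ)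

theorem nrm_unit (μ : (J → ℂ) → R → ℝ) (x : J → ℂ) : IsUnit (nrm μ x) :=
  unit_iff.2 fun _ => Complex.ofReal_ne_zero.2 (Real.exp_ne_zero _)

theorem norm_nrm (μ : (J → ℂ) → R → ℝ) (x : J → ℂ) (l : R) : ‖nrm μ x l‖ = Real.exp (-μ x l) := by
  rw [nrm, Complex.norm_real, Real.norm_of_nonneg (Real.exp_pos _).le]

theorem continuousAt_nrm {x : J → ℂ} (h : ContinuousAt μ x) : ContinuousAt (nrm μ) x := by
  exact continuousAt_pi.2 fun l => Complex.continuous_ofReal.continuousAt.comp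
    (Real.continuous_exp.continuousAt.comp (continuousAt_pi.1 h l).neg)

section
variable (ha : ∀ t, IsUnit t → ∀ x ∈ O, ∀ l, μ (T.act t x) l = μ x l + Real.log ‖t l‖)
include ha

theorem mu_nrm {u : R → ℂ} (hu : Uni u) {x : J → ℂ} (hx : x ∈ O) :
    μ (T.act (u * nrm μ x) x) = 0 := funext fun l => by
  rw [ha _ (hu.unit.mul (nrm_unit μ x)) x hx, Pi.mul_apply, norm_mul, hu l, norm_nrm]
  simp

theorem uni_of {t : R → ℂ} (ht : IsUnit t) {x : J → ℂ} (hx : x ∈ O) (h0 : μ x = 0) :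
    Uni (nrm μ (T.act t x) * t) := fun l => by
  have := norm_pos_iff.2 (unit_iff.1 ht l)
  rw [Pi.mul_apply, norm_mul, norm_nrm, ha t ht x hx, h0, Pi.zero_apply, zero_add, Real.exp_neg,
    Real.exp_log this, inv_mul_cancel₀ this.ne']

end

end Ga

theorem Dg.exists_gau (h : Dg T i b c r) : ∃ O μ ε, Gau T b c r O μ ε := by
  classical
  obtain ⟨θ, hθ⟩ := h.amp
  obtain ⟨C, hC, hc, hcov⟩ := h.cpt
  let e : Option R → R → ℤ := fun o => o.elim θ fun l => θ + Pi.single l 1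
  have he : ∀ o, e o = θ ∨ ∃ l, e o = θ + Pi.single l 1 := fun o => by
    cases o
    exacts [.inl rfl, .inr ⟨_, rfl⟩]
  have cm : ∀ α : J → ℕ, ContDiff ℝ ∞ (mon α) := fun α => by unfold mon; fun_prop
  have hC' : IsCompact (C ∩ {x | x b * x c ∈ Metric.closedBall 0 r}) :=
    hc.inter_right (Metric.isClosed_closedBall.preimage (by fun_prop))
  have hB : ∀ x ∈ C ∩ {x | x b * x c ∈ Metric.closedBall 0 r},
      x ∈ ovr T b c (Metric.closedBall 0 r) := fun x hx => ⟨hC hx.1, hx.2⟩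
  have hcov' : ∀ x ∈ ovr T b c (Metric.closedBall 0 r), ∃ t, IsUnit t ∧
      T.act t x ∈ C ∩ {x | x b * x c ∈ Metric.closedBall 0 r} := fun x hx =>
    (hcov x hx).imp fun t ht => ⟨ht.1, ht.2, (h.ovr_act _ t ht.1 x hx).2⟩
  choose A hA using fun o => hC'.elim_finite_subcover
    (fun α : {α : J → ℕ // ∀ l, ∑ j, α j * T.w j l = e o l} => {x | mon α.1 x ≠ 0})
    (fun α => isOpen_ne_fun (cm α).continuous continuous_const) fun x hx =>
      (hθ _ (he o) x (hB x hx)).elim fun α hα => mem_iUnion.2 ⟨⟨α, hα.1⟩, hα.2⟩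
  obtain ⟨N, hN⟩ : ∃ N : Option R → (J → ℂ) → ℝ, N = fun o x => ∑ α ∈ A o, ‖mon α.1 x‖ ^ 2 :=
    ⟨_, rfl⟩
  have n1 : ∀ o, ContDiff ℝ ∞ (N o) := fun o =>
    hN ▸ ContDiff.sum fun α _ => (cm α.1).norm_sq ℂ
  have n2 : ∀ o t, IsUnit t → ∀ x, N o (T.act t x) = ‖chi t (e o)‖ ^ 2 * N o x := fun o t ht x => by
    simp only [hN, Finset.mul_sum]
    exact Finset.sum_congr rfl fun α _ => by rw [mon_act ht α.2, norm_mul, mul_pow]
  have n3 : ∀ o, ∀ x ∈ ovr T b c (Metric.closedBall 0 r), 0 < N o x := fun o x hx => by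
    obtain ⟨t, ht, h1⟩ := hcov' x hx
    obtain ⟨α, h2, h3⟩ := mem_iUnion₂.1 (hA o h1)
    refine pos_of_mul_pos_right (a := ‖chi t (e o)‖ ^ 2) ?_ (sq_nonneg _)
    rw [← n2 o t ht, hN]
    exact Finset.sum_pos' (fun _ _ => sq_nonneg _) ⟨α, h2, pow_pos (norm_pos_iff.2 h3) 2⟩
  obtain ⟨O, hO⟩ : ∃ O, O = T.U ∩ ⋂ o, {x | 0 < N o x} := ⟨_, rfl⟩
  obtain ⟨μ, hμ⟩ : ∃ μ : (J → ℂ) → R → ℝ,
    μ = fun x l => (Real.log (N (some l) x) - Real.log (N none x)) / 2 := ⟨_, rfl⟩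
  have o1 : IsOpen O := hO ▸ h.openU.inter
    (isOpen_iInter_of_finite fun o => isOpen_lt continuous_const (n1 o).continuous)
  have o2 : ∀ x ∈ O, ∀ o, 0 < N o x := fun x hx => mem_iInter.1 (hO ▸ hx).2
  have o3 : ovr T b c (Metric.closedBall 0 r) ⊆ O := fun x hx =>
    hO ▸ ⟨hx.1.1, mem_iInter.2 fun o => n3 o x hx⟩
  have m1 : ContDiffOn ℝ ∞ μ O := hμ ▸ contDiffOn_pi.2 fun l =>
    (((n1 _).contDiffOn.log fun x hx => (o2 x hx _).ne').sub
      ((n1 _).contDiffOn.log fun x hx => (o2 x hx _).ne')).div_const 2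
  have m2 : ∀ t, IsUnit t → ∀ x ∈ O, ∀ l, μ (T.act t x) l = μ x l + Real.log ‖t l‖ := by
    intro t ht x hx l
    have a1 := norm_ne_zero_iff.2 (chi_ne ht θ)
    have a2 := norm_ne_zero_iff.2 (unit_iff.1 ht l)
    simp only [hμ, n2 _ t ht, e, Option.elim, chi_add ht, chi_single, norm_mul]
    rw [Real.log_mul (pow_ne_zero 2 (mul_ne_zero a1 a2)) (o2 x hx _).ne',
      Real.log_mul (pow_ne_zero 2 a1) (o2 x hx _).ne', Real.log_pow, Real.log_pow,
      Real.log_mul a1 a2]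
    push_cast
    ring
  have m3 : ∀ x ∈ O, ContinuousAt μ x := fun x hx =>
    m1.continuousOn.continuousAt (o1.mem_nhds hx)
  have l1 : IsCompact (lev T b c r μ) := by
    have := (isCompact_uni.prod hC').image_of_continuousOn
      (f := fun p : (R → ℂ) × (J → ℂ) => T.act (p.1 * nrm μ p.2) p.2) fun p hp =>
        (continuousAt_act (continuousAt_fst.mul ((continuousAt_nrm (m3 _ (o3 (hB _ hp.2)))).comp
          continuousAt_snd)) continuousAt_snd (hp.1.unit.mul (nrm_unit _ _))).continuousWithinAt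
    convert this using 1
    refine Subset.antisymm (fun y hy => ?_) ?_
    · obtain ⟨t, ht, h1⟩ := hcov' y hy.1
      have h2 := uni_of m2 ht (o3 hy.1) hy.2
      refine ⟨((nrm μ (T.act t y) * t)⁻¹, T.act t y), ⟨h2.inv, h1⟩, ?_⟩
      simp only [act_mul _ (nrm _ _)]
      rw [← act_mul (nrm _ _), act_inv h2.unit]
    · rintro _ ⟨p, hp, rfl⟩
      exact ⟨h.ovr_act _ _ (hp.1.unit.mul (nrm_unit _ _)) _ (hB _ hp.2),
        mu_nrm m2 hp.1 (o3 (hB _ hp.2))⟩
  -- the differentials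
  let P : (J → ℂ) →ₗ[ℝ] (J → ℂ) :=
    ⟨⟨fun v j => if j = b ∨ j = c then 0 else v j, fun v v' => by
      ext j; by_cases e : j = b ∨ j = c <;> simp [e]⟩,
      fun s v => by ext j; by_cases e : j = b ∨ j = c <;> simp [e]⟩
  let L : (J → ℂ) → (J → ℂ) →L[ℝ] (K → ℂ) × (R → ℝ) := fun x => LinearMap.toContinuousLinearMap
    ((LinearMap.prod ⟨⟨fun v k => ∑ j, v j * eval x (pderiv j (T.F k)), fun v v' => by
      ext k; simp [add_mul, Finset.sum_add_distrib]⟩, fun s v => by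
        ext k; simp [Finset.mul_sum, mul_assoc]⟩ (fderiv ℝ μ x)).comp P)
  have L1 : ∀ x v, L x v = (fun k => ∑ j, P v j * eval x (pderiv j (T.F k)), fderiv ℝ μ x (P v)) :=
    fun _ _ => rfl
  have L2 : ContinuousOn L O := continuousOn_clm_apply.2 fun v => by
    simp only [L1]
    refine ContinuousOn.prodMk (Continuous.continuousOn (continuous_pi fun k =>
      continuous_finsetSum _ fun j _ => continuous_const.mul (continuous_eval _))) ?_
    exact (m1.continuousOn_fderiv_of_isOpen o1 (by simp)).clm_apply continuousOn_const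
  have L3 : ∀ x ∈ lev T b c r μ, x b = 0 → x c = 0 → Surjective (L x) := by
    rintro x hx h1 h2 ⟨y, z⟩
    obtain ⟨v, v1, v2, v3⟩ := h.reg x hx.1 y
    obtain ⟨z', hz⟩ : ∃ z', z' = z - fderiv ℝ μ x v := ⟨_, rfl⟩
    obtain ⟨u, hu⟩ : ∃ u : J → ℂ, u = fun j => (∑ l, (z' l : ℂ) * T.w j l) * x j := ⟨_, rfl⟩
    have a1 : P (v + u) = v + u := funext fun j => ite_eq_right_iff.2 (by
      rintro (rfl | rfl) <;> simp [*])
    have a2 : HasDerivAt (fun s : ℝ => T.act (fun l => (Real.exp (s * z' l) : ℝ)) x) u 0 := by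
      refine hasDerivAt_pi.2 fun j => ?_
      have := (((hasDerivAt_id (0 : ℝ)).ofReal_comp.mul_const
        (∑ l, (z' l : ℂ) * T.w j l)).cexp).mul_const (x j)
      refine (this.congr_deriv (by simp [hu])).congr_of_eventuallyEq (.of_forall fun s => ?_)
      simp only [act_apply, chi, Complex.ofReal_exp, ← Complex.exp_int_mul, ← Complex.exp_sum,
        Finset.mul_sum, id]
      congr 2
      exact Finset.sum_congr rfl fun l _ => by push_cast; ring
    have a3 : HasDerivAt (fun s : ℝ => μ (T.act (fun l => (Real.exp (s * z' l) : ℝ)) x)) z' 0 := by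
      refine hasDerivAt_pi.2 fun l => ?_
      refine ((((hasDerivAt_id (0 : ℝ)).mul_const (z' l)).const_add (μ x l)).congr_deriv
        (one_mul _)).congr_of_eventuallyEq (.of_forall fun s => ?_)
      beta_reduce
      rw [m2 _ (unit_iff.2 fun _ => Complex.ofReal_ne_zero.2 (Real.exp_ne_zero _)) x (o3 hx.1),
        Complex.norm_real, Real.norm_of_nonneg (Real.exp_pos _).le, Real.log_exp, id]
    have a4 := a3.unique (HasFDerivAt.comp_hasDerivAt_of_eq 0 ((m1.contDiffAt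
      (o1.mem_nhds (o3 hx.1))).differentiableAt (by simp)).hasFDerivAt a2 (by
        rw [← act_one (T := T) x, ← act_mul]; congr 1; ext l; simp))
    refine ⟨v + u, ?_⟩
    rw [L1, a1, map_add, ← a4, hz, add_sub_cancel]
    congr 1
    ext k
    simp only [Pi.add_apply, add_mul, Finset.sum_add_distrib, v3, hu, h.euler (hx.1.1.2 k), add_zero]
  obtain ⟨m, m0, hm⟩ := (l1.diff (L2.isOpen_inter_preimage o1 isOpen_surj)).exists_forall_le'
    (f := fun x => ‖x b‖ ^ 2 + ‖x c‖ ^ 2) (a := 0) (by fun_prop) fun x hx => by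
      refine lt_of_le_of_ne (by positivity) fun e => hx.2 ⟨o3 hx.1.1, L3 x hx.1 ?_ ?_⟩
      · exact norm_eq_zero.1 (by nlinarith [norm_nonneg (x b), sq_nonneg ‖x c‖])
      · exact norm_eq_zero.1 (by nlinarith [norm_nonneg (x c), sq_nonneg ‖x b‖])
  have e0 : 0 < min (m / 2) r := lt_min (half_pos m0) h.pos
  refine ⟨O, μ, √(min (m / 2) r), o1, hO ▸ inter_subset_left, fun t ht x hx => ?_, o3, m1, m2, l1,
    Real.sqrt_pos.2 e0, (Real.sq_sqrt e0.le).trans_le (min_le_right _ _), fun x hx hε y z => ?_⟩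
  · refine hO ▸ ⟨h.invU t ht x (hO ▸ hx).1, mem_iInter.2 fun o => ?_⟩
    rw [mem_ofPred_eq, n2 o t ht]
    exact mul_pos (pow_pos (norm_pos_iff.2 (chi_ne ht _)) 2) (o2 x hx o)
  · rw [Real.sq_sqrt e0.le] at hε
    have : Surjective (L x) := by
      by_contra hn
      linarith [hm x ⟨hx, fun h => hn h.2⟩, min_le_left (m / 2) r]
    obtain ⟨v, hv⟩ := this (y, z)
    exact ⟨P v, if_pos (.inl rfl), if_pos (.inr rfl), congrFun (congrArg Prod.fst hv),
      congrArg Prod.snd hv⟩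

/-! ### the orbit spaces -/

theorem Gau.continuousAt (g : Gau T b c r O μ ε) {x : J → ℂ}
    (hx : x ∈ ovr T b c (Metric.closedBall 0 r)) : ContinuousAt μ x :=
  g.smooth.continuousOn.continuousAt (g.isOpen.mem_nhds (g.sup hx))

theorem Gau.quo' (g : Gau T b c r O μ ε) {A : Set (J → ℂ)}
    (hA : A ⊆ ovr T b c (Metric.closedBall 0 r)) (hi : ∀ t, IsUnit t → ∀ x ∈ A, T.act t x ∈ A) :
    IsOpenQuotientMap (fun x : ↥(A ∩ lev T b c r μ) => Quo.mk T.act (⟨x.1, x.2.1⟩ : A)) ∧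
      ∀ x y : ↥(A ∩ lev T b c r μ), Quo.mk T.act (⟨x.1, x.2.1⟩ : A) = Quo.mk T.act ⟨y.1, y.2.1⟩ ↔
        ∃ t, Uni t ∧ y.1 = T.act t x.1 := by
  have h1 : ∀ x y : ↥(A ∩ lev T b c r μ), Quo.mk T.act (⟨x.1, x.2.1⟩ : A) =
      Quo.mk T.act ⟨y.1, y.2.1⟩ ↔ ∃ t, Uni t ∧ y.1 = T.act t x.1 := fun x y => by
    refine (mk_eq hi).trans (exists_congr fun t => and_congr_left fun e => ⟨fun ht => ?_, Uni.unit⟩)
    have := uni_of g.act ht (g.sup x.2.2.1) x.2.2.2
    rwa [← e, show nrm μ y.1 = 1 from funext fun l => by simp [nrm, y.2.2.2], one_mul] at this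
  let n : {t : R → ℂ | Uni t} → A → ↥(A ∩ lev T b c r μ) := fun u x =>
    ⟨T.act (u * nrm μ x) x, hi _ (u.2.unit.mul (nrm_unit _ _)) _ x.2,
      hA (hi _ (u.2.unit.mul (nrm_unit _ _)) _ x.2), mu_nrm g.act u.2 (g.sup (hA x.2))⟩
  have n1 : ∀ u, Continuous (n u) := fun u => Continuous.subtype_mk
    (continuous_iff_continuousAt.2 fun x => continuousAt_act (continuousAt_const.mul
      ((continuousAt_nrm (g.continuousAt (hA x.2))).comp continuous_subtype_val.continuousAt))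
      continuous_subtype_val.continuousAt (u.2.unit.mul (nrm_unit _ _))) _
  have n2 : ∀ u x, Quo.mk T.act (⟨(n u x).1, (n u x).2.1⟩ : A) = Quo.mk T.act x := fun u x =>
    (Quot.sound ⟨_, u.2.unit.mul (nrm_unit _ _), rfl⟩).symm
  have u1 : (1 : R → ℂ) ∈ {t : R → ℂ | Uni t} := fun _ => norm_one
  refine ⟨⟨fun z => ?_, continuous_quot_mk.comp (continuous_subtype_val.subtype_mk _),
    fun V hV => isQuotientMap_quot_mk.isOpen_preimage.1 ?_⟩, h1⟩
  · obtain ⟨x, rfl⟩ := Quot.mk_surjective z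
    exact ⟨n ⟨1, u1⟩ x, n2 _ x⟩
  · convert isOpen_iUnion fun u => hV.preimage (n1 u) using 1
    ext x
    simp only [mem_preimage, mem_iUnion]
    refine ⟨fun ⟨y, h2, h3⟩ => ?_, fun ⟨u, hu⟩ => ⟨_, hu, n2 u x⟩⟩
    obtain ⟨t, ht, e⟩ := (h1 _ _).1 ((n2 ⟨1, u1⟩ x).trans h3.symm)
    refine ⟨⟨t, ht⟩, (show y = n ⟨t, ht⟩ x from Subtype.ext (e.trans ?_)) ▸ h2⟩
    simp only [n, one_mul, act_mul]

theorem Gau.metrizable (h : Dg T i b c r) (g : Gau T b c r O μ ε) :
    MetrizableSpace (Quo T.act (ovr T b c (Metric.closedBall 0 r))) := by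
  obtain ⟨h1, h2⟩ := g.quo' Subset.rfl (h.ovr_act _)
  have e : ovr T b c (Metric.closedBall 0 r) ∩ lev T b c r μ = lev T b c r μ :=
    inter_eq_right.2 fun x hx => hx.1
  haveI : CompactSpace ↥(ovr T b c (Metric.closedBall 0 r) ∩ lev T b c r μ) :=
    isCompact_iff_compactSpace.1 (e.symm ▸ g.cpt)
  haveI := h1.surjective.compactSpace h1.continuous
  haveI := h1.isQuotientMap.secondCountableTopology h1.isOpenMap
  haveI : T2Space _ := (t2Space_iff_of_isOpenQuotientMap h1).2 (by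
    haveI := isCompact_iff_compactSpace.1 (isCompact_uni (R := R))
    have c : Continuous fun p : {t : R → ℂ | Uni t} ×
        ↥(ovr T b c (Metric.closedBall 0 r) ∩ lev T b c r μ) => (p.2.1, T.act p.1 p.2) :=
      (continuous_subtype_val.comp continuous_snd).prodMk (continuous_iff_continuousAt.2 fun p =>
        continuousAt_act (by fun_prop) (by fun_prop) p.1.2.unit)
    convert (isCompact_range c).isClosed.preimage
      (continuous_subtype_val.prodMap continuous_subtype_val) using 1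
    ext p
    simp only [mem_ofPred_eq, h2, mem_preimage, mem_range, Prod.map, Prod.mk.injEq]
    refine ⟨fun ⟨t, ht, e⟩ => ⟨(⟨t, ht⟩, p.1), rfl, e.symm⟩, fun ⟨q, e1, e2⟩ => ⟨q.1, q.1.2, ?_⟩⟩
    rw [← e1, e2])
  infer_instance

theorem Gau.quo (h : Dg T i b c r) (g : Gau T b c r O μ ε) {A : Set (J → ℂ)}
    (hA : A ⊆ ovr T b c (Metric.closedBall 0 r)) (hi : ∀ t, IsUnit t → ∀ x ∈ A, T.act t x ∈ A) :
    IsOpenQuotientMap (fun x : ↥(A ∩ lev T b c r μ) => Quo.mk T.act (⟨x.1, x.2.1⟩ : A)) ∧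
      (∀ x y : ↥(A ∩ lev T b c r μ), Quo.mk T.act (⟨x.1, x.2.1⟩ : A) = Quo.mk T.act ⟨y.1, y.2.1⟩ ↔
        ∃ t, Uni t ∧ y.1 = T.act t x.1) ∧
      MetrizableSpace (Quo T.act A) :=
  haveI := g.metrizable h
  ⟨(g.quo' hA hi).1, (g.quo' hA hi).2, (Ga.isEmbedding_qinc hA hi (h.ovr_act _)).1.metrizableSpace⟩

theorem Dg.compact (h : Dg T i b c r) {A C : Set (J → ℂ)}
    (hA : A = ovr T b c (Metric.closedBall 0 r) ∩ C) (hC : IsClosed C)
    (hi : ∀ t, IsUnit t → ∀ x ∈ A, T.act t x ∈ A) :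
    CompactSpace (Quo T.act A) ∧ MetrizableSpace (Quo T.act A) := by
  obtain ⟨O, μ, ε, g⟩ := h.exists_gau
  obtain ⟨h1, -, h2⟩ := g.quo h (hA ▸ inter_subset_left) hi
  have e : A ∩ lev T b c r μ = lev T b c r μ ∩ C :=
    Set.ext fun x => by rw [hA]; exact ⟨fun h => ⟨h.2, h.1.2⟩, fun h => ⟨⟨h.1.1, h.2⟩, h.1⟩⟩
  haveI : CompactSpace ↥(A ∩ lev T b c r μ) :=
    isCompact_iff_compactSpace.1 (e.symm ▸ g.cpt.inter_right hC)
  exact ⟨h1.surjective.compactSpace h1.continuous, h2⟩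

set_option linter.unusedVariables false in
theorem Dg.isEmbedding_qinc (h : Dg T i b c r) {A A' : Set (J → ℂ)} (hA : A ⊆ A')
    (hA' : A' ⊆ ovr T b c (Metric.closedBall 0 r)) (hi : ∀ t, IsUnit t → ∀ x ∈ A, T.act t x ∈ A)
    (hi' : ∀ t, IsUnit t → ∀ x ∈ A', T.act t x ∈ A') : IsEmbedding (qinc T.act hA) ∧
      ∀ x : A', Quo.mk T.act x ∈ range (qinc T.act hA) ↔ x.1 ∈ A :=
  Ga.isEmbedding_qinc hA hi hi'

/-! ### the group action -/

section
variable {A : Set (J → ℂ)} [Holo.IsAct T.act A]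

theorem Dg.properSMul (h : Dg T i b c r) (hA : A ⊆ ovr T b c (Metric.closedBall 0 r)) :
    ProperSMul (R → ℂ)ˣ (Holo.Sp T.act A) := by
  obtain ⟨O, μ, ε, g⟩ := h.exists_gau
  have c : Continuous fun x : Holo.Sp T.act A => μ x.val := continuous_iff_continuousAt.2 fun x =>
    (g.continuousAt (hA x.val_mem)).comp Holo.Sp.continuous_val.continuousAt
  refine Holo.properSMul_units fun x y => ⟨Real.exp (‖μ y.val - μ x.val‖ + 1), ?_⟩
  filter_upwards [((c.comp continuous_snd).sub (c.comp continuous_fst)).norm.continuousAt.eventually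
    (gt_mem_nhds (lt_add_one _))] with p hp t ht
  refine (pi_norm_le_iff_of_nonneg (Real.exp_pos _).le).2 fun l => ?_
  rw [← Real.log_le_iff_le_exp (norm_pos_iff.2 (unit_iff.1 t.isUnit l))]
  have e := g.act _ t.isUnit _ (g.sup (hA p.1.val_mem)) l
  rw [← Holo.Sp.val_smul t p.1, ht] at e
  have := (le_abs_self _).trans ((norm_le_pi_norm (μ p.2.val - μ p.1.val) l).trans hp.le)
  exact (eq_sub_of_add_eq' e.symm).trans_le this

theorem Dg.free_sp (h : Dg T i b c r) (hA : A ⊆ ovr T b c (Metric.closedBall 0 r))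
    (x : Holo.Sp T.act A) : ∀ g : (R → ℂ)ˣ, g • x = x → g = 1 :=
  Holo.Sp.free_iff.1 fun _ ht e => h.free (hA x.val_mem) ht e

theorem Dg.finite_stab (h : Dg T i b c r) (hA : A ⊆ ovr T b c (Metric.closedBall 0 r))
    (x : Holo.Sp T.act A) : Finite (MulAction.stabilizer (R → ℂ)ˣ x) :=
  haveI : Subsingleton (MulAction.stabilizer (R → ℂ)ˣ x) := ⟨fun a b =>
    Subtype.ext ((h.free_sp hA x _ a.2).trans (h.free_sp hA x _ b.2).symm)⟩
  Finite.of_subsingleton

theorem Dg.orb (h : Dg T i b c r) (hA : A ⊆ ovr T b c (Metric.closedBall 0 r))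
    (hl : IsLocallyClosed A) : Orb.Orb (R → ℂ)ˣ (Holo.Sp T.act A) := by
  classical
  haveI := hl.locallyCompactSpace
  refine ⟨inferInstance, h.properSMul hA, ⟨inferInstance, inferInstance, inferInstance⟩, fun x => ?_⟩
  obtain ⟨N, τ, h1, h2, h3, -, h4, h5⟩ := h.exists_loc (hA x.val_mem)
  let σ : Holo.Sp T.act A → (R → ℂ)ˣ := fun y => if e : IsUnit (τ y.val) then e.unit else 1
  have e : ∀ y, y.val ∈ N → (σ y : R → ℂ) = τ y.val := fun y hy => by
    simp only [σ, dif_pos (h4 _ hy), IsUnit.unit_spec]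
  have o := h1.preimage (Holo.Sp.continuous_val (act := T.act) (S := A))
  refine ⟨σ, (o.eventually_mem h2).mono fun y hy => ?_,
    ((continuousAt_snd (p := (1, x))).eventually (o.eventually_mem h2)).mono fun p hp => Units.ext ?_⟩
  · refine Units.isOpenEmbedding_val.isInducing.continuousAt_iff.2 ?_
    exact ((h3 _ hy).continuousAt.comp Holo.Sp.continuous_val.continuousAt).congr
      ((o.eventually_mem hy).mono fun z hz => (e z hz).symm)
  · rw [Units.val_mul, e (p.1 • p.2) (h5 _ p.1.isUnit _ hp).1, e _ hp]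
    exact (h5 _ p.1.isUnit _ hp).2

end

end Vale.Agent.P269.Mono
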