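import Vale.Agent.P269.Mono.DgTO

set_option linter.unusedSectionVars false

/-!
# P269, degenerations `b c = t`: triviality of the outer part
-/

namespace Vale.Agent.P269.Mono

open Set Topology Filter Module Function TopologicalSpace Vale.Agent.P291Z MvPolynomial
open scoped ContDiff ComplexConjugate

variable {R J K : Type} [Fintype R] [Fintype J] [Fintype K] [DecidableEq R] {T : Tgt R J K} {i : R}
  {b c : J} {r ε : ℝ} {O : Set (J → ℂ)} {μ : (J → ℂ) → R → ℝ}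

namespace OutP

open TO

variable (T μ b c ε) in
/-- the equations of the double of the outer part -/
noncomputable def Go (z : ℝ × (J → ℂ) × ℝ) : ((K → ℂ) × (R → ℝ)) × ℂ × ℝ :=
  (PP T μ z.2.1, z.2.1 b * z.2.1 c - z.1, ‖z.2.1 b‖ ^ 2 + ‖z.2.1 c‖ ^ 2 - ε ^ 2 - z.2.2 ^ 2)

variable (h : Dg T i b c r) (g : Gau T b c r O μ ε)
include g

theorem mem_zer {s : ℝ} (hs : s ∈ Ioo (-(ε ^ 2 / 2)) (ε ^ 2 / 2)) {e : (J → ℂ) × ℝ} :
    (s, e) ∈ zer (Go T b c ε μ) {z | z.2.1 ∈ O} ↔ e.1 ∈ lev T b c r μ ∧ e.1 b * e.1 c = s ∧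
      ‖e.1 b‖ ^ 2 + ‖e.1 c‖ ^ 2 - ε ^ 2 = e.2 ^ 2 := by
  simp only [zer, Go, mem_ofPred_eq, Prod.mk_eq_zero, sub_eq_zero, mem_lev g]
  refine ⟨fun H => ⟨⟨H.1, H.2.1, ?_⟩, H.2.2⟩, fun H => ⟨H.1.1, H.1.2.1, H.2⟩⟩
  rw [H.2.2.1, Complex.norm_real]
  linarith [abs_lt.2 hs, g.le, sq_nonneg ε, Real.norm_eq_abs s]

include h

theorem sub : Sub (Go T b c ε μ) {z | z.2.1 ∈ O} (Ioo (-(ε ^ 2 / 2)) (ε ^ 2 / 2)) := by
  classical
  have hO : IsOpen {z : ℝ × (J → ℂ) × ℝ | z.2.1 ∈ O} := g.isOpen.preimage (by fun_prop)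
  have cn : ∀ j, ContDiff ℝ ∞ fun z : ℝ × (J → ℂ) × ℝ => ‖z.2.1 j‖ ^ 2 := fun j =>
    ContDiff.norm_sq ℝ (by fun_prop)
  have hsm : ContDiffOn ℝ ∞ (Go T b c ε μ) {z | z.2.1 ∈ O} :=
    ((sm g).comp contDiff_snd.fst.contDiffOn fun z hz => hz).prodMk (ContDiff.contDiffOn
      (ContDiff.prodMk (ContDiff.sub (by fun_prop) (Complex.ofRealCLM.contDiff.comp contDiff_fst))
        ((((cn b).add (cn c)).sub contDiff_const).sub (contDiff_snd.snd.pow 2))))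
  refine ⟨hO, isOpen_Ioo, hsm, ?_, fun C hCU hC => ?_⟩
  · rintro ⟨s, x, σ⟩ hz hs
    obtain ⟨hx, h1, h2⟩ := (mem_zer g hs).1 hz
    dsimp only at hx h1 h2
    have df := hasFDerivAt_fst (𝕜 := ℝ) (p := (x, σ))
    have dj := fun j => (hasFDerivAt_apply (𝕜 := ℝ) j x).comp (x, σ) df
    have e1 := (((hsm.contDiffAt (hO.mem_nhds hz.1)).differentiableAt (by simp)).hasFDerivAt.comp
      (x, σ) (hasFDerivAt_prodMk_right s (x, σ))).unique (((fd g hz.1).comp (x, σ) df).prodMk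
        ((((dj b).mul (dj c)).sub_const (s : ℂ)).prodMk
          ((((dj b).norm_sq.add (dj c).norm_sq).sub_const (ε ^ 2)).sub
            ((hasFDerivAt_snd (𝕜 := ℝ) (p := (x, σ))).pow 2))))
    have e2 : ∀ v a, dx (Go T b c ε μ) (s, x, σ) (v, a) = (fderiv ℝ (PP T μ) x v,
        x c * v b + x b * v c, 2 * (v b * conj (x b)).re + 2 * (v c * conj (x c)).re - 2 * σ * a) := by
      intro v a
      rw [dx, e1]
      simp [add_comm]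
      ring
    rintro ⟨p, q, ρ⟩
    have hε := pow_pos g.pos 2
    obtain ⟨v, hv1, hv2⟩ : ∃ v : J → ℂ, x c * v b + x b * v c = q ∧
        fderiv ℝ (PP T μ) x v = p := by
      obtain ⟨v, hv⟩ : ∃ v : J → ℂ, x c * v b + x b * v c = q := by
        by_cases hb : x b = 0
        · have hc : x c ≠ 0 := fun hc => by
            rw [hb, hc, norm_zero] at h2
            nlinarith [sq_nonneg σ]
          exact ⟨fun _ => q / x c, by rw [hb, zero_mul, add_zero, mul_div_cancel₀ _ hc]⟩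
        · exact ⟨Pi.single c (q / x b), by simp [h.ne, mul_div_cancel₀ _ hb]⟩
      obtain ⟨v', h3, h4⟩ := surj h g hx (p - fderiv ℝ (PP T μ) x v)
      refine ⟨v + v', ?_, by rw [map_add, h4, add_sub_cancel]⟩
      simp only [Pi.add_apply]
      linear_combination hv + h3
    by_cases hσ : σ = 0
    · obtain ⟨u, h3, h4, h5⟩ := surj0 g hx (by rw [hσ] at h2; linarith)
        (-fderiv ℝ (PP T μ) x (Pi.single b (x b) - Pi.single c (x c)))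
      have h6 : ‖x b‖ ^ 2 - ‖x c‖ ^ 2 ≠ 0 := fun h6 => by
        have h7 := congrArg norm h1
        rw [norm_mul, Complex.norm_real, Real.norm_eq_abs] at h7
        have h8 : ‖x b‖ = ‖x c‖ := (pow_left_inj₀ (norm_nonneg _) (norm_nonneg _) two_ne_zero).1
          (sub_eq_zero.1 h6)
        rw [hσ, h8] at h2
        rw [h8] at h7
        linarith [abs_lt.2 hs]
      obtain ⟨a, ha⟩ : ∃ a : ℝ, a * (2 * (‖x b‖ ^ 2 - ‖x c‖ ^ 2)) =
          ρ - (2 * (v b * conj (x b)).re + 2 * (v c * conj (x c)).re) :=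
        ⟨_, div_mul_cancel₀ _ (mul_ne_zero two_ne_zero h6)⟩
      refine ⟨(v + a • (Pi.single b (x b) - Pi.single c (x c) + u), 0), ?_⟩
      rw [e2, map_add, map_smul, map_add, h5, add_neg_cancel, smul_zero, add_zero, hv2]
      simp only [Pi.add_apply, Pi.smul_apply, Pi.sub_apply, h3, h4, Pi.single_eq_same,
        Pi.single_eq_of_ne h.ne, Pi.single_eq_of_ne h.ne.symm, Complex.real_smul]
      refine Prod.ext rfl (Prod.ext (by linear_combination hv1) ?_)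
      simp only [Complex.sq_norm, Complex.normSq_apply] at ha
      simp at ha ⊢
      linear_combination ha
    · refine ⟨(v, (2 * (v b * conj (x b)).re + 2 * (v c * conj (x c)).re - ρ) / (2 * σ)), ?_⟩
      rw [e2, hv1, hv2, mul_div_cancel₀ _ (mul_ne_zero two_ne_zero hσ), sub_sub_cancel]
  · obtain ⟨B, hB⟩ := g.cpt.exists_bound_of_continuousOn
      (f := fun x : J → ℂ => ‖x b‖ ^ 2 + ‖x c‖ ^ 2 - ε ^ 2) (by fun_prop)
    refine prop_of hsm.continuousOn hC.isClosed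
      (hC.prod (g.cpt.prod (isCompact_Icc (a := -(B + 1)) (b := B + 1))))
      (fun z hz => g.sup hz.2.1.1) fun z hz h0 hzC => ?_
    obtain ⟨h1, -, h2⟩ := (mem_zer g (hCU hzC)).1 ⟨hz, h0⟩
    have h3 := hB _ h1
    rw [h2, Real.norm_eq_abs, abs_pow] at h3
    exact ⟨hzC, h1, abs_le.1 (by nlinarith [sq_nonneg (|z.2.2| - 1)])⟩

end OutP

open TO OutP in
theorem Gau.exists_out (h : Dg T i b c r) (g : Gau T b c r O μ ε) {t : ℝ} (ht : 2 * t < ε ^ 2) :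
    ∃ Φ : ℝ × (J → ℂ) → J → ℂ,
      ContinuousOn Φ (Icc 0 t ×ˢ
        {x | x ∈ lev T b c r μ ∧ x b * x c = 0 ∧ ε ^ 2 ≤ ‖x b‖ ^ 2 + ‖x c‖ ^ 2}) ∧
      ∀ s ∈ Icc 0 t, (∀ x ∈ lev T b c r μ, x b * x c = 0 → ε ^ 2 ≤ ‖x b‖ ^ 2 + ‖x c‖ ^ 2 →
          ∀ u, Uni u → Φ (s, T.act u x) = T.act u (Φ (s, x))) ∧
        BijOn (fun x => Φ (s, x))
          {x | x ∈ lev T b c r μ ∧ x b * x c = 0 ∧ ε ^ 2 ≤ ‖x b‖ ^ 2 + ‖x c‖ ^ 2}
          {x | x ∈ lev T b c r μ ∧ x b * x c = s ∧ ε ^ 2 ≤ ‖x b‖ ^ 2 + ‖x c‖ ^ 2} := by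
  obtain ⟨B, hB1, hB2⟩ := exists_b J ℝ
  obtain ⟨Φ, h1, -, h3, h4⟩ := (OutP.sub h g).exists_transport hB2
  have hε := pow_pos g.pos 2
  have m0 : (0 : ℝ) ∈ Ioo (-(ε ^ 2 / 2)) (ε ^ 2 / 2) := ⟨by linarith, by linarith⟩
  have ms : ∀ s ∈ Icc 0 t, s ∈ Ioo (-(ε ^ 2 / 2)) (ε ^ 2 / 2) := fun s hs =>
    ⟨by linarith [hs.1], by linarith [hs.2]⟩
  have sg := fun {u v} hu hv => (convex_Ioo (𝕜 := ℝ) (-(ε ^ 2 / 2)) (ε ^ 2 / 2)).segment_subset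
    (x := u) (y := v) hu hv
  let l : (J → ℂ) → (J → ℂ) × ℝ := fun x => (x, √(‖x b‖ ^ 2 + ‖x c‖ ^ 2 - ε ^ 2))
  have hl : ∀ {s : ℝ}, s ∈ Ioo (-(ε ^ 2 / 2)) (ε ^ 2 / 2) → ∀ x ∈ lev T b c r μ, x b * x c = s →
      ε ^ 2 ≤ ‖x b‖ ^ 2 + ‖x c‖ ^ 2 → (s, l x) ∈ zer (Go T b c ε μ) {z | z.2.1 ∈ O} :=
    fun hs x a1 a2 a3 => (mem_zer g hs).2 ⟨a1, a2, (Real.sq_sqrt (sub_nonneg.2 a3)).symm⟩
  have key : ∀ {u v : ℝ}, u ∈ Ioo (-(ε ^ 2 / 2)) (ε ^ 2 / 2) → v ∈ Ioo (-(ε ^ 2 / 2)) (ε ^ 2 / 2) →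
      MapsTo (fun x => (Φ u v (l x)).1)
        {x | x ∈ lev T b c r μ ∧ x b * x c = u ∧ ε ^ 2 ≤ ‖x b‖ ^ 2 + ‖x c‖ ^ 2}
        {x | x ∈ lev T b c r μ ∧ x b * x c = v ∧ ε ^ 2 ≤ ‖x b‖ ^ 2 + ‖x c‖ ^ 2} ∧
      LeftInvOn (fun x => (Φ v u (l x)).1) (fun x => (Φ u v (l x)).1)
        {x | x ∈ lev T b c r μ ∧ x b * x c = u ∧ ε ^ 2 ≤ ‖x b‖ ^ 2 + ‖x c‖ ^ 2} := by
    intro u v hu hv
    refine ⟨fun x hx => ?_, fun x hx => ?_⟩ <;>
      obtain ⟨a1, a2⟩ := h1 u v _ (sg hu hv) (hl hu x hx.1 hx.2.1 hx.2.2) <;>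
      obtain ⟨a3, a4, a5⟩ := (mem_zer g hv).1 a1
    · exact ⟨a3, a4, sub_nonneg.1 (a5.symm ▸ sq_nonneg _)⟩
    simp only [l, a5, Real.sqrt_sq_eq_abs] at a2 a1 ⊢
    rcases abs_choice (Φ u v (l x)).2 with a6 | a6
    · rw [a6, a2]
    · have := h4 ((ContinuousLinearEquiv.refl ℝ _).prodCongr (.neg ℝ)) (.refl ℝ _)
        (fun v w => by simp [hB1]) (fun z hz => hz) (fun z _ => by simp [Go]) v u _ (sg hv hu) a1
      rw [a2] at this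
      rw [a6]
      exact congrArg Prod.fst this
  refine ⟨fun p => (Φ 0 p.1 (l p.2)).1, (h3.comp (f := fun p : ℝ × (J → ℂ) => (0, p.1, l p.2))
    (by fun_prop) fun p hp => ⟨sg m0 (ms _ hp.1), hl m0 _ hp.2.1 hp.2.2.1 hp.2.2.2⟩).fst,
    fun s hs => ⟨fun x a1 a2 a3 u hu => ?_, InvOn.bijOn ⟨(key m0 (ms s hs)).2, (key (ms s hs) m0).2⟩
      (key m0 (ms s hs)).1 (key (ms s hs) m0).1⟩⟩
  obtain ⟨g₁, g', b1, b2, b3⟩ := exists_g h g hu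
  have n1 : ∀ x, ‖T.act u x b‖ = ‖x b‖ := fun x => by rw [act_b h, norm_mul, hu i, one_mul]
  have n2 : ∀ x, ‖T.act u x c‖ = ‖x c‖ := fun x => by
    rw [act_c h, norm_mul, norm_inv, hu i, inv_one, one_mul]
  have n3 : ∀ x, T.act u x b * T.act u x c = x b * x c := fun x => by
    rw [act_b h, act_c h, mul_mul_mul_comm,
      mul_inv_cancel₀ (norm_pos_iff.1 ((hu i).symm ▸ one_pos)), one_mul]
  have := h4 (g₁.prodCongr (.refl ℝ _)) (g'.prodCongr (.refl ℝ _))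
    (fun v w => by simp [hB1, b1, b3, -Complex.inner]) (fun z hz => by simpa [b1] using (b2 _ hz).1)
    (fun z hz => by simp [Go, b1, (b2 _ hz).2, n1, n2, n3]) 0 s _ (sg m0 (ms s hs))
    (hl m0 x a1 a2 a3)
  simpa [l, b1, n1, n2] using congrArg Prod.fst this

end Vale.Agent.P269.Mono
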