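import Vale.Agent.P269.Mono.Dg
import Vale.Agent.P269.Orb.Slice

/-!
# P269, degenerations `b c = t`: descent of embeddings, Thom isomorphism of a line orbibundle
-/

namespace Vale.Agent.P269.Mono.DgT

open Set Topology Filter Module Function TopologicalSpace Vale.Agent.P291Z Vale.Agent.P269.Orb
open scoped ComplexConjugate

section Gen

variable {X X' Y E : Type} [TopologicalSpace X] [TopologicalSpace X'] [TopologicalSpace Y]
  [TopologicalSpace E] {π : X → E} {f : X' → X}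

theorem oq_range (hπ : IsOpenQuotientMap π) (hf : IsEmbedding f)
    (hs : ∀ x x', π x = π (f x') → x ∈ range f) :
    IsOpenQuotientMap (rangeFactorization (π ∘ f)) := by
  refine ⟨rangeFactorization_surjective, (hπ.continuous.comp hf.continuous).subtype_mk _,
    fun V hV => ?_⟩
  obtain ⟨W, hW, rfl⟩ := hf.isInducing.isOpen_iff.1 hV
  have : rangeFactorization (π ∘ f) '' (f ⁻¹' W) = Subtype.val ⁻¹' (π '' W) := by
    ext ⟨_, x', rfl⟩
    refine ⟨fun ⟨y, h1, h2⟩ => ⟨f y, h1, congrArg Subtype.val h2⟩, fun ⟨y, h1, h2⟩ => ?_⟩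
    obtain ⟨z, rfl⟩ := hs y x' h2
    exact ⟨z, h1, Subtype.ext h2⟩
  rw [this]
  exact (hπ.isOpenMap _ hW).preimage continuous_subtype_val

theorem exists_emb (hπ : IsOpenQuotientMap π) (hf : IsEmbedding f)
    (hs : ∀ x x', π x = π (f x') → x ∈ range f) {p : X' → Y} (hp : IsOpenQuotientMap p)
    (he : ∀ x x', π (f x) = π (f x') ↔ p x = p x') :
    ∃ F : Y → E, IsEmbedding F ∧ ∀ x, F (p x) = π (f x) := by
  have h1 := oq_range hπ hf hs
  obtain ⟨F, hF⟩ : ∃ F : Y → range (π ∘ f), F ∘ p = rangeFactorization (π ∘ f) :=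
    ⟨fun y => rangeFactorization (π ∘ f) (hp.surjective y).choose, funext fun x =>
      Subtype.ext ((he _ _).2 (hp.surjective (p x)).choose_spec)⟩
  have h2 : ∀ x, (F (p x)).1 = π (f x) := fun x => congrArg Subtype.val (congrFun hF x)
  refine ⟨Subtype.val ∘ F, IsEmbedding.subtypeVal.comp
    (IsOpenEmbedding.of_continuous_injective_isOpenMap (hp.continuous_comp_iff.1 (hF ▸ h1.continuous))
      (fun y y' e => ?_) (IsOpenMap.of_comp hp.continuous hp.surjective
        (hF ▸ h1.isOpenMap))).isEmbedding, h2⟩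
  obtain ⟨x, rfl⟩ := hp.surjective y
  obtain ⟨x', rfl⟩ := hp.surjective y'
  exact (he _ _).1 (by rw [← h2, ← h2, e])

theorem emb_of_ultra [T2Space X] (hc : Continuous f) (hi : Injective f)
    (h : ∀ w (U : Ultrafilter X'), Tendsto f U (𝓝 (f w)) → ∃ y, (U : Filter X') ≤ 𝓝 y) :
    IsEmbedding f := by
  refine ⟨isInducing_iff_nhds.2 fun w => le_antisymm (hc.tendsto w).le_comap
    (le_iff_ultrafilter.2 fun U hU => ?_), hi⟩
  obtain ⟨y, hy⟩ := h w U (tendsto_iff_comap.2 hU)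
  rwa [hi (tendsto_nhds_unique (tendsto_iff_comap.2 hU) ((hc.tendsto y).mono_left hy))]

end Gen

/-- The Thom isomorphism of the line orbibundle of a character. -/
theorem exists_thom_iso {G K D W : Type} [Group G] [TopologicalSpace G] [TopologicalSpace K]
    [MulAction G K] [TopologicalSpace D] [TopologicalSpace W] (ho : Orb G K) (χ : G →* Circle)
    (hχ : Continuous χ) {πT : K → D} (hT : IsQuo G πT) {πE : K × (Fin 1 → ℂ) → W}
    (hE : IsOpenQuotientMap πE)
    (he : ∀ x y, πE x = πE y ↔ ∃ g : G, g • x.1 = y.1 ∧ χ g • x.2 = y.2) :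
    ∃ θ : Hc D ≃ₗ[ℂ] Hc W, ∀ k, ∀ a ∈ Hc.deg D k, θ a ∈ Hc.deg W (k + 2) := by
  let : MulAction G (Fin 1 → ℂ) := MulAction.compHom _ χ
  have : ContinuousSMul G (Fin 1 → ℂ) :=
    ⟨(hχ.comp continuous_fst).smul (M := Circle) continuous_snd⟩
  have := ho.nice
  have := ho.contSMul
  have hE' : IsQuo G πE := ⟨hE, fun x y => (he x y).trans
    (exists_congr fun g => (Prod.ext_iff (x := g • x)).symm)⟩
  have : Nice D := hT.nice ho
  have : Nice W := hE'.nice (ho.of_map continuous_fst fun _ _ => rfl)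
  have h1 : IsVB 1 (Prod.fst : K × (Fin 1 → ℂ) → K) {w | w.2 = 0}
      fun r φ => ∃ (k : K) (l : (Fin r → ℂ) ≃ₗ[ℂ] (Fin 1 → ℂ)), φ = fun v => (k, l v) := by
    refine ⟨continuous_fst, fun x => ⟨univ, Prod.map Subtype.val id, trivial, ⟨isOpen_univ,
      isOpen_univ.isOpenEmbedding_subtypeVal.prodMap IsOpenEmbedding.id, ?_, fun _ => rfl,
      fun _ => .rfl⟩, fun y => ⟨y, LinearEquiv.refl _ _, rfl⟩⟩, ?_, ?_⟩
    · exact eq_univ_of_forall fun w => ⟨(⟨w.1, trivial⟩, w.2), rfl⟩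
    · rintro r _ ⟨-, l, -⟩
      simpa using l.finrank_eq
    · rintro _ _ ⟨k, l, rfl⟩ ⟨k', l', rfl⟩ e
      obtain rfl : k = k' := e
      exact ⟨l.trans l'.symm, funext fun v => by simp⟩
  obtain ⟨p', hp'⟩ := hE'.exists_lift (fun w => πT w.1) fun g w => hT.smul g w.1
  have h2 := IsOVB.of_equivariant ho h1 (fun _ _ => rfl) (by
    rintro g _ ⟨k, l, rfl⟩
    exact ⟨g • k, l.trans (DistribMulAction.toLinearEquiv ℂ _ (χ g)), rfl⟩) hE' hT hp'
  obtain ⟨t, ht⟩ := h2.exists_thom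
  exact ⟨LinearEquiv.ofBijective _ (h2.thom_iso ht), fun k a ha =>
    Hc.pullMul_deg h2.cont ht.1 (h2.thom_prop ht) (h2.thom_deg ht) ha⟩

theorem properSMul_of_compact {G K : Type} [Group G] [TopologicalSpace G] [CompactSpace G]
    [TopologicalSpace K] [T2Space K] [MulAction G K] [ContinuousSMul G K] : ProperSMul G K :=
  properSMul_iff_continuousSMul_ultrafilter_tendsto_t2.2 ⟨inferInstance, fun U _ _ _ =>
    (isCompact_univ.ultrafilter_le_nhds (U.map Prod.fst) (by simp)).imp fun _ h => h.2⟩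

/-- The direction of a complex number. -/
noncomputable def dir (z : ℂ) : Circle := Circle.exp (Complex.arg z)

theorem norm_mul_dir (z : ℂ) : ‖z‖ * (dir z : ℂ) = z := Complex.norm_mul_exp_arg_mul_I z

theorem dir_eq {s : ℝ} (hs : 0 < s) (φ : Circle) : dir (s * φ) = φ := by
  have := norm_mul_dir (s * φ)
  rw [norm_mul, Circle.norm_coe, mul_one, Complex.norm_of_nonneg hs.le] at this
  exact Circle.ext (mul_left_cancel₀ (Complex.ofReal_ne_zero.2 hs.ne') this)

theorem dir_mul (φ : Circle) {z : ℂ} (hz : z ≠ 0) : dir (φ * z) = φ * dir z := by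
  rw [← dir_eq (norm_pos_iff.2 hz) (φ * dir z), Circle.coe_mul, mul_left_comm, norm_mul_dir]

theorem continuousAt_dir {z : ℂ} (hz : z ≠ 0) : ContinuousAt dir z := by
  refine (IsInducing.subtypeVal.continuousAt_iff (f := dir)).2 (ContinuousAt.congr
    (f := fun w : ℂ => w / ‖w‖) (continuousAt_id.div (by fun_prop) (by simpa using hz)) ?_)
  filter_upwards [eventually_ne_nhds hz] with w hw
  exact div_eq_of_eq_mul (by simpa using hw) ((norm_mul_dir w).symm.trans (mul_comm _ _))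

theorem exists_polar {p q : ℂ} (h : p * q = (‖p‖ * ‖q‖ : ℝ)) :
    ∃ φ : ℂ, ‖φ‖ = 1 ∧ p = ‖p‖ * φ ∧ q = ‖q‖ * conj φ := by
  by_cases hp : p = 0
  · exact ⟨conj (dir q : ℂ), by simp [Circle.norm_coe], by simp [hp], by simpa using (norm_mul_dir q).symm⟩
  refine ⟨dir p, Circle.norm_coe _, (norm_mul_dir p).symm, mul_left_cancel₀ hp ?_⟩
  rw [h, ← Circle.coe_inv_eq_conj, Circle.coe_inv]
  nth_rewrite 2 [← norm_mul_dir p]
  push_cast
  field_simp [Circle.coe_ne_zero]

end Vale.Agent.P269.Mono.DgT
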