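import Vale.Agent.P269.Mono.DgTO

set_option linter.unusedSectionVars false

/-!
# P269, degenerations `b c = t`: the equivariant tubular neighbourhood of `b = c = 0`
-/

namespace Vale.Agent.P269.Mono

open Set Topology Filter Module Function TopologicalSpace Vale.Agent.P291Z MvPolynomial
open scoped ContDiff ComplexConjugate

variable {R J K : Type} [Fintype R] [Fintype J] [Fintype K] [DecidableEq R] {T : Tgt R J K} {i : R}
  {b c : J} {r ε : ℝ} {O : Set (J → ℂ)} {μ : (J → ℂ) → R → ℝ}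

namespace TubeP

open TO

variable [DecidableEq J]

variable (b c) in
/-- the point with the given coordinates `b`, `c` -/
noncomputable def Xt (z : ℝ × ℝ) (e : (J → ℂ) × ℂ) : J → ℂ :=
  e.1 + Pi.single b (z.1 * e.2) + Pi.single c (z.2 * conj e.2)

theorem cd_XX : ContDiff ℝ ∞ fun z : (ℝ × ℝ) × (J → ℂ) × ℂ => Xt b c z.1 z.2 :=
  (contDiff_snd.fst.add ((contDiff_single (F' := fun _ => ℂ) ∞ b).comp
    ((Complex.ofRealCLM.contDiff.comp contDiff_fst.fst).mul contDiff_snd.snd))).add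
      ((contDiff_single (F' := fun _ => ℂ) ∞ c).comp ((Complex.ofRealCLM.contDiff.comp contDiff_fst.snd).mul
        (Complex.conjCLE.contDiff.comp contDiff_snd.snd)))

theorem exists_L (b c : J) (z : ℝ × ℝ) :
    ∃ L : ((J → ℂ) × ℂ) →L[ℝ] (J → ℂ), ∀ e, L e = Xt b c z e :=
  ⟨LinearMap.toContinuousLinearMap
    { toFun := Xt b c z
      map_add' := fun x y => by
        simp only [Xt, Prod.fst_add, Prod.snd_add, mul_add, map_add, Pi.single_add]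
        abel
      map_smul' := fun a x => by
        simp [Xt, ← Pi.single_smul', mul_left_comm] }, fun _ => rfl⟩

variable (T μ b c) in
/-- the equations -/
noncomputable def Gt (z : (ℝ × ℝ) × (J → ℂ) × ℂ) : ((K → ℂ) × (R → ℝ)) × ℂ × ℂ × ℝ :=
  (PP T μ (Xt b c z.1 z.2), z.2.1 b, z.2.1 c, ‖z.2.2‖ ^ 2 - 1)

variable (h : Dg T i b c r) (g : Gau T b c r O μ ε)
include h

theorem XX_b (z : ℝ × ℝ) (e : (J → ℂ) × ℂ) : Xt b c z e b = e.1 b + z.1 * e.2 := by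
  simp [Xt, h.ne]

theorem XX_c (z : ℝ × ℝ) (e : (J → ℂ) × ℂ) : Xt b c z e c = e.1 c + z.2 * conj e.2 := by
  simp [Xt, h.ne.symm]

include g

theorem mem_zer {z : ℝ × ℝ} (hz : z.1 ^ 2 + z.2 ^ 2 < ε ^ 2) {e : (J → ℂ) × ℂ} :
    (z, e) ∈ zer (Gt T b c μ) {z | Xt b c z.1 z.2 ∈ O} ↔ Xt b c z e ∈ lev T b c r μ ∧
      e.1 b = 0 ∧ e.1 c = 0 ∧ ‖e.2‖ = 1 := by
  simp only [zer, Gt, mem_ofPred_eq, Prod.mk_eq_zero, sub_eq_zero, mem_lev g,
    pow_eq_one_iff_of_nonneg (norm_nonneg _) two_ne_zero]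
  refine ⟨fun H => ⟨⟨H.1, H.2.1, ?_⟩, H.2.2⟩, fun H => ⟨H.1.1, H.1.2.1, H.2⟩⟩
  simp only [XX_b h, XX_c h, H.2.2, zero_add, norm_mul, Complex.norm_conj, mul_one,
    Complex.norm_real, Real.norm_eq_abs]
  nlinarith [g.le, sq_nonneg (|z.1| - |z.2|), sq_abs z.1, sq_abs z.2, sq_nonneg ε]

theorem sub : Sub (Gt T b c μ) {z | Xt b c z.1 z.2 ∈ O} {z | z.1 ^ 2 + z.2 ^ 2 < ε ^ 2} := by
  have hO : IsOpen {z : (ℝ × ℝ) × (J → ℂ) × ℂ | Xt b c z.1 z.2 ∈ O} :=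
    g.isOpen.preimage cd_XX.continuous
  have hsm : ContDiffOn ℝ ∞ (Gt T b c μ) {z | Xt b c z.1 z.2 ∈ O} :=
    ((sm g).comp cd_XX.contDiffOn fun z hz => hz).prodMk (ContDiff.contDiffOn
      (ContDiff.prodMk (by fun_prop) (ContDiff.prodMk (by fun_prop)
        ((ContDiff.norm_sq ℝ (by fun_prop)).sub contDiff_const))))
  refine ⟨hO, isOpen_lt (by fun_prop) continuous_const, hsm, ?_, fun C hCU hC => ?_⟩
  · rintro ⟨z, e⟩ hz hs
    obtain ⟨hx, h1, h2, h3⟩ := (mem_zer h g hs).1 hz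
    obtain ⟨L, hL⟩ := exists_L b c z
    have dj := fun j => (hasFDerivAt_apply (𝕜 := ℝ) j e.1).comp e hasFDerivAt_fst
    have dL : HasFDerivAt (Xt b c z) L e := funext hL ▸ L.hasFDerivAt
    have e1 := (((hsm.contDiffAt (hO.mem_nhds hz.1)).differentiableAt (by simp)).hasFDerivAt.comp
      e (hasFDerivAt_prodMk_right z e)).unique (((fd g hz.1).comp e dL).prodMk
        ((dj b).prodMk ((dj c).prodMk ((hasFDerivAt_snd (𝕜 := ℝ) (p := e)).norm_sq.sub_const 1))))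
    rintro ⟨p, q₁, q₂, ρ⟩
    obtain ⟨u, h4, h5, h6⟩ := surj0 g hx (by
      simpa [XX_b h, XX_c h, h1, h2, h3] using le_of_lt hs) (p - fderiv ℝ (PP T μ) (Xt b c z e)
        (L (Pi.single b q₁ + Pi.single c q₂, (ρ / 2) • e.2)))
    refine ⟨(Pi.single b q₁ + Pi.single c q₂, (ρ / 2) • e.2) + (u, 0), ?_⟩
    have h7 : L (u, 0) = u := by simp [hL, Xt]
    rw [dx, e1]
    refine Prod.ext ?_ ?_
    · change fderiv ℝ (PP T μ) (Xt b c z e) (L _) = p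
      rw [map_add, map_add, h7, h6, add_sub_cancel]
    · simp [h4, h5, h.ne, h.ne.symm, h3, -Complex.inner, -Complex.real_smul]
      ring
  · refine prop_of hsm.continuousOn hC.isClosed ((hC.prod (g.cpt.prod (isCompact_sphere 0 1))).image
      (f := fun p : (ℝ × ℝ) × (J → ℂ) × ℂ => (p.1, Xt b c (-p.1) p.2, p.2.2))
      (continuous_fst.prodMk ((cd_XX.continuous.comp
        (continuous_fst.neg.prodMk continuous_snd)).prodMk continuous_snd.snd))) ?_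
      fun z hz h0 hzC => ?_
    · rintro _ ⟨p, hp, rfl⟩
      have : Xt b c p.1 (Xt b c (-p.1) p.2, p.2.2) = p.2.1 := by
        simp only [Xt, Prod.fst_neg, Prod.snd_neg, Complex.ofReal_neg, neg_mul, Pi.single_neg]
        abel
      exact this.symm.subst (motive := (· ∈ O)) (g.sup hp.2.1.1)
    · obtain ⟨h1, -, -, h2⟩ := (mem_zer h g (hCU hzC)).1 ⟨hz, h0⟩
      refine ⟨(z.1, Xt b c z.1 z.2, z.2.2), ⟨hzC, h1, mem_sphere_zero_iff_norm.2 h2⟩,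
        Prod.ext rfl (Prod.ext ?_ rfl)⟩
      simp only [Xt, Prod.fst_neg, Prod.snd_neg, Complex.ofReal_neg, neg_mul, Pi.single_neg]
      abel

end TubeP

open TO TubeP in
theorem Gau.exists_tube (h : Dg T i b c r) (g : Gau T b c r O μ ε) :
    ∃ Φ : (ℝ × ℝ) × (J → ℂ) × ℂ → J → ℂ,
      ContinuousOn Φ ({z | z.1 ^ 2 + z.2 ^ 2 < ε ^ 2} ×ˢ (cut T {b, c} ∩ lev T b c r μ) ×ˢ
        Metric.sphere 0 1) ∧
      (∀ k ∈ cut T {b, c} ∩ lev T b c r μ, ∀ φ : ℂ, ‖φ‖ = 1 → Φ (0, k, φ) = k) ∧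
      ∀ z : ℝ × ℝ, z.1 ^ 2 + z.2 ^ 2 < ε ^ 2 →
        (∀ k ∈ cut T {b, c} ∩ lev T b c r μ, ∀ φ : ℂ, ‖φ‖ = 1 → ∀ t, Uni t →
          Φ (z, T.act t k, t i * φ) = T.act t (Φ (z, k, φ))) ∧ (z ≠ 0 →
        BijOn (fun p => Φ (z, p)) ((cut T {b, c} ∩ lev T b c r μ) ×ˢ Metric.sphere 0 1)
          {x | x ∈ lev T b c r μ ∧ ∃ φ : ℂ, ‖φ‖ = 1 ∧ x b = z.1 * φ ∧ x c = z.2 * conj φ}) := by
  classical
  obtain ⟨B, hB1, hB2⟩ := exists_b J ℂ
  obtain ⟨Φ, h1, h2, h3, h4⟩ := (TubeP.sub h g).exists_transport hB2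
  have m0 : (0 : ℝ × ℝ).1 ^ 2 + (0 : ℝ × ℝ).2 ^ 2 < ε ^ 2 := by simpa using pow_pos g.pos 2
  have sg : ∀ {z : ℝ × ℝ}, z.1 ^ 2 + z.2 ^ 2 < ε ^ 2 →
      segment ℝ 0 z ⊆ {z | z.1 ^ 2 + z.2 ^ 2 < ε ^ 2} := by
    rintro z hz _ ⟨a, a', ha, ha', e, rfl⟩
    have : a' ^ 2 * (z.1 ^ 2 + z.2 ^ 2) ≤ z.1 ^ 2 + z.2 ^ 2 :=
      mul_le_of_le_one_left (by positivity) (pow_le_one₀ ha' (by linarith))
    simp only [mem_ofPred_eq, smul_zero, zero_add, Prod.smul_fst, Prod.smul_snd, smul_eq_mul]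
    linarith
  have x0 : ∀ e : (J → ℂ) × ℂ, Xt b c 0 e = e.1 := fun e => by simp [Xt]
  have z0 : ∀ e, (0, e) ∈ zer (Gt T b c μ) {z | Xt b c z.1 z.2 ∈ O} ↔
      e ∈ (cut T {b, c} ∩ lev T b c r μ) ×ˢ Metric.sphere (0 : ℂ) 1 := fun e => by
    rw [mem_zer h g m0, x0]
    exact ⟨fun H => ⟨⟨⟨H.1.1.1, by simp [H.2]⟩, H.1⟩, mem_sphere_zero_iff_norm.2 H.2.2.2⟩,
      fun H => ⟨H.1.2, H.1.1.2 b (by simp), H.1.1.2 c (by simp), mem_sphere_zero_iff_norm.1 H.2⟩⟩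
  refine ⟨fun p => Xt b c p.1 (Φ 0 p.1 p.2), cd_XX.continuous.comp_continuousOn
    (continuousOn_fst.prodMk (h3.comp (f := fun p : (ℝ × ℝ) × (J → ℂ) × ℂ => (0, p)) (by fun_prop)
      fun p hp => ⟨sg hp.1, (z0 _).2 hp.2⟩)), fun k hk φ hφ => ?_, fun z hz =>
    ⟨fun k hk φ hφ t ht => ?_, fun hz0 => BijOn.comp (g := Xt b c z) (f := Φ 0 z)
      (t := {e | (z, e) ∈ zer (Gt T b c μ) {z | Xt b c z.1 z.2 ∈ O}}) ⟨fun e he => ?_,
        fun e he e' he' H => ?_, ?_⟩ (InvOn.bijOn (f' := Φ z 0)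
          ⟨fun e he => (h1 0 z e (sg hz) ((z0 e).2 he)).2,
            fun e he => (h1 z 0 e (segment_symm ℝ 0 z ▸ sg hz) he).2⟩
          (fun e he => (h1 0 z e (sg hz) ((z0 e).2 he)).1)
          fun e he => (z0 _).1 (h1 z 0 e (segment_symm ℝ 0 z ▸ sg hz) he).1)⟩⟩
  · simp only [x0, h2 0 m0 _ ((z0 (k, φ)).2 ⟨hk, mem_sphere_zero_iff_norm.2 hφ⟩)]
  · obtain ⟨g₁, g', b1, b2, b3⟩ := exists_g h g ht
    have t0 : t i ≠ 0 := norm_pos_iff.1 ((ht i).symm ▸ one_pos)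
    obtain ⟨g₂, b4⟩ := exists_mul t0
    obtain ⟨g₃, b5⟩ := exists_mul (inv_ne_zero t0)
    have e1 : ∀ z e, Xt b c z (g₁.prodCongr g₂ e) = T.act t (Xt b c z e) := fun z e => by
      have s1 : ∀ j y, T.act t (Pi.single j y) = Pi.single j (T.act t (Pi.single j y) j) :=
        fun j y => funext fun j' => by
          by_cases hj : j' = j <;> simp [hj, Tgt.act]
      rw [Xt, Xt, ← b1, map_add, map_add, b1, b1, b1, s1 b, s1 c, act_b h, act_c h]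
      simp [b1, b4, mul_left_comm, Complex.inv_eq_conj (ht i)]
    have := h4 (g₁.prodCongr g₂) (g'.prodCongr (g₂.prodCongr (g₃.prodCongr (.refl ℝ ℝ))))
      (fun v w => by simp [hB1, b1, b3, b4, inner_mul (ht i), -Complex.inner])
      (fun z hz => (e1 z.1 z.2).symm.subst (motive := (· ∈ O)) (b2 _ hz).1)
      (fun z hz => by
        rw [Gt, e1, (b2 _ hz).2]
        simp [Gt, b1, b4, b5, act_b h, act_c h, ht i]) 0 z (k, φ) (sg hz)
      ((z0 _).2 ⟨hk, mem_sphere_zero_iff_norm.2 hφ⟩)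
    rw [← e1, ← this, ContinuousLinearEquiv.prodCongr_apply, b1, b4]
  · obtain ⟨a1, a2, a3, a4⟩ := (mem_zer h g hz).1 he
    exact ⟨a1, e.2, a4, by rw [XX_b h, a2, zero_add], by rw [XX_c h, a3, zero_add]⟩
  · obtain ⟨-, a2, a3, -⟩ := (mem_zer h g hz).1 he
    obtain ⟨-, a2', a3', -⟩ := (mem_zer h g hz).1 he'
    have e1 := congrFun H b
    have e2 := congrFun H c
    rw [XX_b h, XX_b h, a2, a2', add_right_inj] at e1
    rw [XX_c h, XX_c h, a3, a3', add_right_inj] at e2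
    have e3 : e.2 = e'.2 := by
      by_contra hne
      exact hz0 (Prod.ext (by simpa [hne] using e1) (by simpa [hne, (starRingEnd ℂ).injective.eq_iff] using e2))
    rw [Xt, Xt, e3, add_left_inj, add_left_inj] at H
    exact Prod.ext H e3
  · rintro x ⟨a1, φ, a2, a3, a4⟩
    have e1 : Xt b c z (Xt b c (-z) (x, φ), φ) = x := by
      simp only [Xt, Prod.fst_neg, Prod.snd_neg, Complex.ofReal_neg, neg_mul, Pi.single_neg]
      abel
    exact ⟨_, (mem_zer h g hz).2 ⟨e1.symm ▸ a1, by simp [XX_b h, a3], by simp [XX_c h, a4], a2⟩, e1⟩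

end Vale.Agent.P269.Mono
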