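import Vale.Agent.P269.Mono.DgAbs
import Vale.Agent.P269.Mono.DgGau
import Vale.Agent.P269.Mono.DgTube
import Vale.Agent.P269.Mono.DgOut
import Vale.Agent.P269.Mono.DgTopA

set_option linter.unusedSectionVars false

/-!
# P269, degenerations `b c = t`: the nearby cycle sequence
-/

namespace Vale.Agent.P269.Mono

open Set Topology Filter Module Function TopologicalSpace Vale.Agent.P291Z MvPolynomial
open scoped ContDiff ComplexConjugate

variable {R J K : Type} [Fintype R] [Fintype J] [Fintype K] [DecidableEq R] {T : Tgt R J K} {i : R}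
  {b c : J} {r ε : ℝ} {O : Set (J → ℂ)} {μ : (J → ℂ) → R → ℝ}

namespace DgT

open Ga

variable {t : ℝ} {u : R → ℂ} {x : J → ℂ}

theorem act_b (h : Dg T i b c r) (u : R → ℂ) (x : J → ℂ) : T.act u x b = u i * x b := by
  rw [Tgt.act, h.wb, Finset.prod_eq_single i (fun l _ hl => by simp [hl]) (by simp)]
  simp

theorem act_c (h : Dg T i b c r) (u : R → ℂ) (x : J → ℂ) : T.act u x c = (u i)⁻¹ * x c := by
  rw [Tgt.act, h.wc, Finset.prod_eq_single i (fun l _ hl => by simp [hl]) (by simp)]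
  simp

theorem norm_b (h : Dg T i b c r) (hu : Uni u) (x : J → ℂ) : ‖T.act u x b‖ = ‖x b‖ := by
  rw [act_b h, norm_mul, hu, one_mul]

theorem norm_c (h : Dg T i b c r) (hu : Uni u) (x : J → ℂ) : ‖T.act u x c‖ = ‖x c‖ := by
  rw [act_c h, norm_mul, norm_inv, hu, inv_one, one_mul]

theorem uni_one : Uni (1 : R → ℂ) := fun _ => norm_one

theorem uni_iff {P : (R → ℂ) → Prop} :
    (∃ u, Uni u ∧ P u) ↔ ∃ g : R → Circle, P fun l => g l :=
  ⟨fun ⟨u, hu, h⟩ => ⟨fun l => ⟨u l, mem_sphere_zero_iff_norm.2 (hu l)⟩, h⟩,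
    fun ⟨g, h⟩ => ⟨_, fun l => (g l).norm_coe, h⟩⟩

theorem lev_act (h : Dg T i b c r) (g : Gau T b c r O μ ε) (hu : Uni u)
    (hx : x ∈ lev T b c r μ) : T.act u x ∈ lev T b c r μ :=
  ⟨h.ovr_act _ u hu.unit x hx.1, funext fun l => by
    rw [g.act u hu.unit x (g.sup hx.1), hx.2, hu l, Real.log_one, add_zero]⟩

theorem continuous_act : Continuous fun w : (R → Circle) × (J → ℂ) => T.act (fun l => w.1 l) w.2 :=
  continuous_pi fun j => Continuous.mul (continuous_finsetProd _ fun l _ => Continuous.zpow₀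
    (continuous_subtype_val.comp (by fun_prop)) _ fun w => .inl (w.1 l).coe_ne_zero) (by fun_prop)

theorem mem_seg (ht : 0 ≤ t) {z : ℂ} : z ∈ segment ℝ 0 (t : ℂ) ↔ ∃ s ∈ Icc 0 t, (s : ℂ) = z := by
  have := image_segment ℝ Complex.ofRealCLM.toLinearMap.toAffineMap 0 t
  rw [segment_eq_Icc ht] at this
  exact (Set.ext_iff.1 this z).symm

/-- the level set over the segment -/
abbrev XX (T : Tgt R J K) (b c : J) (r : ℝ) (μ : (J → ℂ) → R → ℝ) (t : ℝ) : Set (J → ℂ) :=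
  ovr T b c (segment ℝ 0 (t : ℂ)) ∩ lev T b c r μ

theorem cnorm {A : Set (J → ℂ)} (j : J) : Continuous fun x : A => ‖x.1 j‖ :=
  ((continuous_apply j).comp continuous_subtype_val).norm

/-- the level set over the double locus -/
abbrev KK (T : Tgt R J K) (b c : J) (r : ℝ) (μ : (J → ℂ) → R → ℝ) : Set (J → ℂ) :=
  cut T {b, c} ∩ lev T b c r μ

/-- the quadrant -/
def Zd (ε t : ℝ) : Set (ℝ × ℝ) :=
  {z | 0 ≤ z.1 ∧ 0 ≤ z.2 ∧ z.1 ^ 2 + z.2 ^ 2 < ε ^ 2 ∧ z.1 * z.2 ≤ t}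

theorem mem_XX (hx : x ∈ lev T b c r μ) {s : ℝ} (hs : s ∈ Icc 0 t) (e : x b * x c = s) :
    x ∈ XX T b c r μ t := ⟨⟨hx.1.1, (mem_seg (hs.1.trans hs.2)).2 ⟨s, hs, e.symm⟩⟩, hx⟩

theorem norm_XX (ht : 0 ≤ t) (hx : x ∈ XX T b c r μ t) :
    x b * x c = (‖x b‖ * ‖x c‖ : ℝ) ∧ ‖x b‖ * ‖x c‖ ≤ t := by
  obtain ⟨s, hs, e⟩ := (mem_seg ht).1 hx.1.2
  rw [← norm_mul, ← e, Complex.norm_of_nonneg hs.1]
  exact ⟨rfl, hs.2⟩

theorem mem_KK : x ∈ KK T b c r μ ↔ x ∈ lev T b c r μ ∧ x b = 0 ∧ x c = 0 :=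
  ⟨fun h => ⟨h.2, h.1.2 b (by simp), h.1.2 c (by simp)⟩, fun h => ⟨⟨h.1.1.1, by
    rintro j (rfl | rfl)
    exacts [h.2.1, h.2.2]⟩, h.1⟩⟩

theorem compact_KK (g : Gau T b c r O μ ε) : CompactSpace (KK T b c r μ) :=
  isCompact_iff_compactSpace.1 (by
    rw [show KK T b c r μ = lev T b c r μ ∩ ({x | x b = 0} ∩ {x | x c = 0}) from
      Set.ext fun _ => mem_KK]
    exact g.cpt.inter_right ((isClosed_eq (by fun_prop) continuous_const).inter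
      (isClosed_eq (by fun_prop) continuous_const)))

/-- The tubular neighbourhood in polar coordinates. -/
structure Tb (i : R) (f : Zd ε t × KK T b c r μ × Circle → XX T b c r μ t) : Prop where
  cont : Continuous f
  nb : ∀ w, ‖(f w).1 b‖ = w.1.1.1
  nc : ∀ w, ‖(f w).1 c‖ = w.1.1.2
  zero : ∀ w, w.1.1 = 0 → (f w).1 = w.2.1.1
  eqv : ∀ z p p' u, Uni u → p'.1.1 = T.act u p.1.1 → (p'.2 : ℂ) = u i * p.2 →
    (f (z, p')).1 = T.act u (f (z, p)).1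
  orb : ∀ z z' p p' u, z.1 ≠ 0 → Uni u → (f (z', p')).1 = T.act u (f (z, p)).1 →
    z' = z ∧ p'.1.1 = T.act u p.1.1 ∧ (p'.2 : ℂ) = u i * p.2
  surj : ∀ (z : Zd ε t) (x : XX T b c r μ t), z.1 ≠ 0 → ‖x.1 b‖ = z.1.1 → ‖x.1 c‖ = z.1.2 →
    ∃ p, f (z, p) = x

theorem exists_tb (h : Dg T i b c r) (g : Gau T b c r O μ ε) (ht : 0 ≤ t) :
    ∃ f : Zd ε t × KK T b c r μ × Circle → XX T b c r μ t, Tb i f := by
  obtain ⟨Φ, h1, h2, h3⟩ := g.exists_tube h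
  have h4 : ∀ w : Zd ε t × KK T b c r μ × Circle, Φ (w.1, w.2.1, w.2.2) ∈ lev T b c r μ ∧
      ∃ φ : ℂ, ‖φ‖ = 1 ∧ Φ (w.1, w.2.1, w.2.2) b = w.1.1.1 * φ ∧
        Φ (w.1, w.2.1, w.2.2) c = w.1.1.2 * conj φ := fun w => by
    by_cases hz : w.1.1 = 0
    · rw [hz, h2 _ w.2.1.2 _ w.2.2.norm_coe]
      exact ⟨w.2.1.2.2, 1, norm_one, by simpa using (mem_KK.1 w.2.1.2).2⟩
    · exact ((h3 _ w.1.2.2.2.1).2 hz).mapsTo (x := (w.2.1, w.2.2)) ⟨w.2.1.2, w.2.2.2⟩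
  have h5 : ∀ w : Zd ε t × KK T b c r μ × Circle, Φ (w.1, w.2.1, w.2.2) ∈ XX T b c r μ t := by
    intro w
    obtain ⟨h5, φ, h6, h7, h8⟩ := h4 w
    refine mem_XX h5 ⟨mul_nonneg w.1.2.1 w.1.2.2.1, w.1.2.2.2.2⟩ ?_
    rw [h7, h8, mul_mul_mul_comm, Complex.mul_conj, Complex.normSq_eq_norm_sq, h6]
    simp
  have h6 : ∀ w : Zd ε t × KK T b c r μ × Circle, ‖Φ (w.1, w.2.1, w.2.2) b‖ = w.1.1.1 ∧
      ‖Φ (w.1, w.2.1, w.2.2) c‖ = w.1.1.2 := fun w => by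
    obtain ⟨-, φ, h6, h7, h8⟩ := h4 w
    simp [h6, h7, h8, w.1.2.1, w.1.2.2.1]
  refine ⟨fun w => ⟨_, h5 w⟩, Continuous.subtype_mk (h1.comp_continuous ((continuous_subtype_val.comp
    continuous_fst).prodMk ((continuous_subtype_val.comp (by fun_prop)).prodMk
      (continuous_subtype_val.comp (by fun_prop)))) fun w => ⟨w.1.2.2.2.1, w.2.1.2, w.2.2.2⟩) _,
    fun w => (h6 w).1, fun w => (h6 w).2, fun w hz => ?_, fun z p p' u hu e1 e2 => ?_,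
    fun z z' p p' u hz hu e => ?_, fun z x hz e1 e2 => ?_⟩
  · simp only [hz]
    exact h2 _ w.2.1.2 _ w.2.2.norm_coe
  · simp only [e1, e2]
    exact (h3 _ z.2.2.2.1).1 _ p.1.2 _ p.2.norm_coe u hu
  · obtain rfl : z' = z := Subtype.ext (Prod.ext
      ((h6 (z', p')).1.symm.trans ((congrArg (‖· b‖) e).trans ((norm_b h hu _).trans (h6 (z, p)).1)))
      ((h6 (z', p')).2.symm.trans ((congrArg (‖· c‖) e).trans ((norm_c h hu _).trans (h6 (z, p)).2))))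
    exact ⟨rfl, Prod.ext_iff.1 (((h3 _ z'.2.2.2.1).2 hz).injOn (x₁ := (p'.1, p'.2))
      (x₂ := (T.act u p.1, u i * p.2)) ⟨p'.1.2, p'.2.2⟩ ⟨⟨h.cut_act _ u hu.unit _ p.1.2.1,
        lev_act h g hu p.1.2.2⟩, by simp [hu i, Circle.norm_coe]⟩
      (e.trans ((h3 _ z'.2.2.2.1).1 _ p.1.2 _ p.2.norm_coe u hu).symm))⟩
  · obtain ⟨p, hp, e⟩ := ((h3 _ z.2.2.2.1).2 hz).surjOn (a := x.1)
      ⟨x.2.2, e1 ▸ e2 ▸ exists_polar (norm_XX ht x.2).1⟩
    exact ⟨(⟨p.1, hp.1⟩, ⟨p.2, hp.2⟩), Subtype.ext e⟩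

section Desc

variable {E : Type} [TopologicalSpace E] {π : XX T b c r μ t → E} (hπ : IsOpenQuotientMap π)
  (he : ∀ x y, π x = π y ↔ ∃ u, Uni u ∧ y.1 = T.act u x.1) {β γ : E → ℝ}
  (hβ : ∀ x, β (π x) = ‖x.1 b‖) (hγ : ∀ x, γ (π x) = ‖x.1 c‖)
include hπ he hβ hγ

theorem exists_psi (h : Dg T i b c r) (g : Gau T b c r O μ ε) (ht : 0 ≤ t) (ht' : 2 * t < ε ^ 2) :
    ∃ (S : Set E) (Ψ : Icc 0 t × S → E), IsCompact S ∧ IsEmbedding Ψ ∧
      (∀ e, e ∈ range Ψ ↔ ε ^ 2 ≤ β e ^ 2 + γ e ^ 2) ∧ ∀ w, β (Ψ w) * γ (Ψ w) = w.1 := by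
  obtain ⟨Φ, h1, h2⟩ := g.exists_out h ht'
  set Y := {x | x ∈ lev T b c r μ ∧ x b * x c = 0 ∧ ε ^ 2 ≤ ‖x b‖ ^ 2 + ‖x c‖ ^ 2}
  have : CompactSpace Y := isCompact_iff_compactSpace.1 (g.cpt.inter_right
    ((isClosed_eq (f := fun x : J → ℂ => x b * x c) (by fun_prop) continuous_const).inter
      (isClosed_le (g := fun x : J → ℂ => ‖x b‖ ^ 2 + ‖x c‖ ^ 2) continuous_const (by fun_prop))))
  have h3 : Y ⊆ XX T b c r μ t := fun x hx => mem_XX hx.1 (left_mem_Icc.2 ht) hx.2.1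
  have h4 := fun w : Icc 0 t × Y => (h2 _ w.1.2).2.mapsTo w.2.2
  obtain ⟨f, hf⟩ : ∃ f : Icc 0 t × Y → XX T b c r μ t, ∀ w, (f w).1 = Φ (w.1, w.2) :=
    ⟨fun w => ⟨_, mem_XX (h4 w).1 w.1.2 (h4 w).2.1⟩, fun _ => rfl⟩
  have h5 : ∀ w, ‖(f w).1 b‖ * ‖(f w).1 c‖ = w.1 := fun w => by
    rw [← norm_mul, hf, (h4 w).2.1, Complex.norm_of_nonneg w.1.2.1]
  have h6 : ∀ w w' u, Uni u → ((f w').1 = T.act u (f w).1 ↔
      w.1 = w'.1 ∧ w'.2.1 = T.act u w.2.1) := by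
    rintro ⟨s, y⟩ ⟨s', y'⟩ u hu
    have k := (h2 _ s.2).1 _ y.2.1 y.2.2.1 y.2.2.2 u hu
    refine ⟨fun e => ?_, ?_⟩
    · obtain rfl : s = s' := Subtype.ext (by
        rw [← h5 (s, y), ← h5 (s', y'), e, norm_b h hu, norm_c h hu])
      rw [hf, hf, ← k] at e
      exact ⟨rfl, (h2 _ s.2).2.injOn y'.2 ⟨lev_act h g hu y.2.1, by
        rw [h.mul_act hu.unit]; exact y.2.2.1, by
        rw [norm_b h hu, norm_c h hu]; exact y.2.2.2⟩ e⟩
    · rintro ⟨rfl : s = s', e⟩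
      rw [hf, hf, ← k, ← e]
  have h7 : ∀ x, x ∈ range f ↔ ε ^ 2 ≤ β (π x) ^ 2 + γ (π x) ^ 2 := fun x => by
    rw [hβ, hγ]
    refine ⟨?_, fun k => ?_⟩
    · rintro ⟨w, rfl⟩
      rw [hf]
      exact (h4 w).2.2
    · obtain ⟨k1, k2⟩ := norm_XX ht x.2
      obtain ⟨y, hy, e⟩ := (h2 _ ⟨by positivity, k2⟩).2.surjOn (a := x.1) ⟨x.2.2, k1, k⟩
      exact ⟨(⟨_, by positivity, k2⟩, ⟨y, hy⟩), Subtype.ext ((hf _).trans e)⟩
  have h8 : Continuous f := IsInducing.subtypeVal.continuous_iff.2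
    ((h1.comp_continuous (f := fun w : Icc 0 t × Y => (w.1.1, w.2.1)) (by fun_prop)
      fun w => ⟨w.1.2, w.2.2⟩).congr fun w => (hf w).symm)
  have h9 := oq_range hπ (IsEmbedding.inclusion h3) fun x y e => by
    obtain ⟨u, hu, e⟩ := (he _ _).1 e.symm
    refine ⟨⟨x.1, x.2.2, ?_, ?_⟩, rfl⟩
    · rw [e, h.mul_act hu.unit]
      exact y.2.2.1
    · rw [e, norm_b h hu, norm_c h hu]
      exact y.2.2.2
  obtain ⟨Ψ, k1, k2⟩ := exists_emb hπ (h8.isClosedEmbedding fun w w' e => by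
      obtain ⟨k1, k2⟩ := (h6 w w' 1 uni_one).1 (by rw [e, act_one])
      exact Prod.ext k1 (Subtype.ext (k2.trans (act_one _)).symm)).isEmbedding
    (fun x w e => by rw [h7, e, ← h7]; exact mem_range_self w)
    (IsOpenQuotientMap.id.prodMap h9) fun w w' => by
      rw [he, Prod.ext_iff, Subtype.ext_iff (a1 := (Prod.map _ _ w).2)]
      refine ⟨fun ⟨u, hu, e⟩ => ⟨((h6 _ _ u hu).1 e).1, (he _ _).2 ⟨u, hu, ((h6 _ _ u hu).1 e).2⟩⟩,
        fun ⟨e1, e2⟩ => ?_⟩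
      obtain ⟨u, hu, e⟩ := (he _ _).1 e2
      exact ⟨u, hu, (h6 _ _ u hu).2 ⟨e1, e⟩⟩
  refine ⟨_, Ψ, isCompact_range (hπ.continuous.comp (continuous_inclusion h3)), k1, fun e => ?_,
    fun w => ?_⟩
  · obtain ⟨x, rfl⟩ := hπ.surjective e
    refine ⟨fun ⟨w, e⟩ => ?_, fun k => ?_⟩
    · obtain ⟨w, rfl⟩ := (IsOpenQuotientMap.id.prodMap h9).surjective w
      rw [← e, k2, ← h7]
      exact mem_range_self w
    · obtain ⟨w, rfl⟩ := (h7 x).2 k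
      exact ⟨_, k2 w⟩
  · obtain ⟨w, rfl⟩ := (IsOpenQuotientMap.id.prodMap h9).surjective w
    rw [k2, hβ, hγ, h5]
    rfl

variable {f : Zd ε t × KK T b c r μ × Circle → XX T b c r μ t} (hf : Tb i f)
  [CompactSpace (KK T b c r μ)]
include hf

theorem exists_theta (hε : 0 < ε) (ht : 0 ≤ t) :
    ∃ (S : Set E) (Θ : S × Qd ε t → E), IsCompact S ∧ IsEmbedding Θ ∧
      (∀ e, e ∈ range Θ ↔ (β e, γ e) ∈ Qd ε t) ∧ ∀ w, (β (Θ w), γ (Θ w)) = w.2 := by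
  have hQ : Qd ε t ⊆ Zd ε t := fun z hz => ⟨hz.1, hz.2.1, hz.2.2.2⟩
  have h1 : ∀ z z' p p', z.1 ≠ 0 → (π (f (z, p)) = π (f (z', p')) ↔ z' = z ∧
      ∃ u, Uni u ∧ p'.1.1 = T.act u p.1.1 ∧ (p'.2 : ℂ) = u i * p.2) := fun z z' p p' hz => by
    rw [he]
    refine ⟨fun ⟨u, hu, e⟩ => (hf.orb _ _ _ _ u hz hu e).imp_right fun k => ⟨u, hu, k⟩, ?_⟩
    rintro ⟨rfl, u, hu, e1, e2⟩
    exact ⟨u, hu, hf.eqv _ _ _ u hu e1 e2⟩
  have h2 : ∀ z z' p p', z.1 ≠ 0 → f (z, p) = f (z', p') → p = p' ∧ z' = z := fun z z' p p' hz e => by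
    obtain ⟨k1, k2, k3⟩ := hf.orb z z' p p' 1 hz uni_one (by rw [e, act_one])
    exact ⟨Prod.ext (Subtype.ext (k2.trans (act_one _)).symm)
      (Circle.ext (k3.trans (one_mul _)).symm), k1⟩
  have h3 : ∀ z p x, z.1 ≠ 0 → π x = π (f (z, p)) → ∃ p', f (z, p') = x := fun z p x hz e =>
    hf.surj z x hz (by rw [← hβ, e, hβ, hf.nb]) (by rw [← hγ, e, hγ, hf.nc])
  obtain ⟨z₀, hz₀⟩ : ∃ z₀ : Zd ε t, z₀.1 ≠ 0 :=
    ⟨⟨(ε / 2, 0), by positivity, le_rfl, by simp only; nlinarith, by simpa using ht⟩,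
      fun e => (half_pos hε).ne' (congrArg Prod.fst e)⟩
  have c1 : Continuous fun p => f (z₀, p) := hf.cont.comp (by fun_prop)
  have h4 := oq_range hπ (c1.isClosedEmbedding fun p p' e => (h2 _ _ _ _ hz₀ e).1).isEmbedding
    fun x p => h3 _ p x hz₀
  have h5 : ∀ w : (KK T b c r μ × Circle) × Qd ε t,
      (β (π (f (inclusion hQ w.2, w.1))), γ (π (f (inclusion hQ w.2, w.1)))) = w.2 := fun w => by
    rw [hβ, hγ, hf.nb, hf.nc]
  have c2 : Continuous fun x : XX T b c r μ t => (β (π x), γ (π x)) := by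
    simp only [hβ, hγ]
    exact (cnorm b).prodMk (cnorm c)
  obtain ⟨Θ, k1, k2⟩ := exists_emb hπ
    (f := fun w : (KK T b c r μ × Circle) × Qd ε t => f (inclusion hQ w.2, w.1))
    (emb_of_ultra (hf.cont.comp (((continuous_inclusion hQ).comp continuous_snd).prodMk
      continuous_fst)) (fun w w' e => Prod.ext (h2 _ _ _ _ w.2.2.2.2.1 e).1
        (inclusion_injective hQ (h2 _ _ _ _ w.2.2.2.2.1 e).2).symm) fun w U hU => by
      obtain ⟨y, -, hy⟩ := isCompact_univ.ultrafilter_le_nhds (U.map Prod.fst) (by simp)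
      refine ⟨(y, w.2), Tendsto.prodMk_nhds hy (tendsto_subtype_rng.2 ?_)⟩
      simpa only [comp_def, h5] using (c2.tendsto _).comp hU)
    (fun x w e => (h3 _ _ x w.2.2.2.2.1 e).elim fun p hp => ⟨(p, w.2), hp⟩)
    (h4.prodMap IsOpenQuotientMap.id) fun w w' => by
      rw [h1 _ _ _ _ w.2.2.2.2.1, Prod.ext_iff (x := Prod.map _ _ w), and_comm,
        Subtype.ext_iff (a1 := (Prod.map _ _ w).1)]
      exact and_congr (((h1 _ _ _ _ hz₀).trans (and_iff_right rfl)).symm)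
        ((inclusion_injective hQ).eq_iff.trans eq_comm)
  refine ⟨_, Θ, isCompact_range (hπ.continuous.comp c1), k1, fun e => ⟨?_, fun k => ?_⟩, fun w => ?_⟩
  · rintro ⟨w, rfl⟩
    obtain ⟨w, rfl⟩ := (h4.prodMap IsOpenQuotientMap.id).surjective w
    rw [k2, h5]
    exact w.2.2
  · obtain ⟨x, rfl⟩ := hπ.surjective e
    obtain ⟨p, hp⟩ := hf.surj ⟨_, hQ k⟩ x k.2.2.1 (hβ x).symm (hγ x).symm
    exact ⟨_, (k2 (p, ⟨_, k⟩)).trans (congrArg π hp)⟩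
  · obtain ⟨w, rfl⟩ := (h4.prodMap IsOpenQuotientMap.id).surjective w
    rw [k2, h5]
    rfl

theorem exists_disc (h : Dg T i b c r) (hε : 0 < ε) (ht : 0 ≤ t) :
    ∃ (W : Set E) (p : KK T b c r μ × (Fin 1 → ℂ) → W), IsOpenQuotientMap p ∧
      (∀ x y, p x = p y ↔ ∃ u, Uni u ∧ y.1.1 = T.act u x.1.1 ∧ y.2 = u i • x.2) ∧
      ∀ e, e ∈ W ↔ γ e = 0 ∧ β e < ε := by
  have r1 : ∀ v : ℂ, ε * ‖v‖ / (1 + ‖v‖) < ε := fun v => by
    rw [div_lt_iff₀ (by positivity)]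
    linarith
  have r2 : ∀ v v' : ℂ, ε * ‖v‖ / (1 + ‖v‖) < ε * ‖v'‖ / (1 + ‖v'‖) ↔ ‖v‖ < ‖v'‖ := fun v v' => by
    rw [div_lt_div_iff₀ (by positivity) (by positivity)]
    constructor <;> intro k <;> nlinarith
  obtain ⟨z, hz⟩ : ∃ z : ℂ → Zd ε t, ∀ v, (z v).1 = (ε * ‖v‖ / (1 + ‖v‖), 0) :=
    ⟨fun v => ⟨_, by positivity, le_rfl, by
      simpa using pow_lt_pow_left₀ (r1 v) (by positivity) two_ne_zero, by simpa using ht⟩,
      fun _ => rfl⟩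
  have z1 : Continuous z := IsInducing.subtypeVal.continuous_iff.2 (Continuous.congr
    (f := fun v : ℂ => (ε * ‖v‖ / (1 + ‖v‖), (0 : ℝ))) (Continuous.prodMk (Continuous.div
      (by fun_prop) (by fun_prop) fun v => by positivity) continuous_const) fun v => (hz v).symm)
  have z2 : ∀ v v', z v = z v' ↔ ‖v‖ = ‖v'‖ := fun v v' => by
    rw [Subtype.ext_iff, hz, hz]
    exact ⟨fun e => le_antisymm (not_lt.1 fun k => ((r2 _ _).2 k).ne' (congrArg Prod.fst e))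
      (not_lt.1 fun k => ((r2 _ _).2 k).ne (congrArg Prod.fst e)), fun e => by rw [e]⟩
  have z3 : ∀ v, (z v).1 = 0 ↔ v = 0 := fun v => by
    have : 1 + ‖v‖ ≠ 0 := by positivity
    simp [hz, hε.ne', this]
  have h1 : ∀ v k (φ : Circle), v = ‖v‖ * (φ : ℂ) → f (z v, k, dir v) = f (z v, k, φ) := by
    intro v k φ e
    by_cases hv : v = 0
    · exact Subtype.ext ((hf.zero (z v, k, _) ((z3 v).2 hv)).trans
        (hf.zero (z v, k, φ) ((z3 v).2 hv)).symm)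
    · rw [show dir v = φ from (congrArg dir e).trans (dir_eq (norm_pos_iff.2 hv) φ)]
  obtain ⟨F, hF⟩ : ∃ F : KK T b c r μ × (Fin 1 → ℂ) → XX T b c r μ t,
    ∀ w, F w = f (z (w.2 0), w.1, dir (w.2 0)) := ⟨_, fun _ => rfl⟩
  have h2 : ∀ w, ‖(F w).1 b‖ = ε * ‖w.2 0‖ / (1 + ‖w.2 0‖) ∧ ‖(F w).1 c‖ = 0 := fun w => by
    rw [hF, hf.nb, hf.nc, hz]
    exact ⟨rfl, rfl⟩
  have c0 : Continuous fun w : KK T b c r μ × (Fin 1 → ℂ) => w.2 0 := by fun_prop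
  have h3 : Continuous F := continuous_iff_ultrafilter.2 fun w U hU => by
    obtain ⟨φ, -, hφ⟩ := isCompact_univ.ultrafilter_le_nhds (U.map fun w => dir (w.2 0)) (by simp)
    have k1 := (c0.tendsto w).mono_left hU
    rw [hF w, h1 _ _ φ (tendsto_nhds_unique k1 ?_)]
    · exact ((hf.cont.tendsto _).comp (((z1.tendsto _).comp k1).prodMk_nhds
        (((continuous_fst.tendsto w).mono_left hU).prodMk_nhds hφ))).congr fun w => (hF w).symm
    · exact (((Complex.continuous_ofReal.tendsto _).comp k1.norm).mul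
        ((continuous_subtype_val.tendsto φ).comp hφ)).congr fun w => norm_mul_dir _
  have h4 : ∀ x y u, Uni u →
      ((F y).1 = T.act u (F x).1 ↔ y.1.1 = T.act u x.1.1 ∧ y.2 = u i • x.2) := by
    intro x y u hu
    refine ⟨fun e => ?_, fun ⟨e1, e2⟩ => ?_⟩
    · have k1 : z (y.2 0) = z (x.2 0) := Subtype.ext (by
        rw [hz, hz, ← (h2 y).1, ← (h2 x).1, e, norm_b h hu])
      rw [hF, hF] at e
      by_cases hv : x.2 0 = 0
      · have k2 := (z3 _).2 hv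
        rw [hf.zero (z (x.2 0), _) k2, hf.zero (z (y.2 0), _) (by rwa [k1])] at e
        exact ⟨e, funext fun j => by
          rw [Subsingleton.elim j 0, (z3 (y.2 0)).1 (by rwa [k1]), Pi.smul_apply, hv, smul_zero]⟩
      · obtain ⟨-, k2, k3⟩ := hf.orb _ _ _ _ u (mt (z3 _).1 hv) hu e
        refine ⟨k2, funext fun j => ?_⟩
        rw [Subsingleton.elim j 0, Pi.smul_apply, smul_eq_mul, ← norm_mul_dir (y.2 0),
          ← norm_mul_dir (x.2 0), (z2 _ _).1 k1, mul_left_comm]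
        exact congrArg _ k3
    · have k1 : ‖y.2 0‖ = ‖x.2 0‖ := by rw [e2, Pi.smul_apply, norm_smul, hu, one_mul]
      obtain ⟨s, hs⟩ : ∃ s : Circle, (s : ℂ) = u i := ⟨⟨u i, mem_sphere_zero_iff_norm.2 (hu i)⟩, rfl⟩
      rw [hF, hF, h1 _ _ (s * dir (x.2 0)) (by
        rw [k1, Circle.coe_mul, mul_left_comm, norm_mul_dir, e2, hs]; rfl), (z2 _ _).2 k1]
      exact hf.eqv _ _ _ u hu e1 (by rw [← hs]; rfl)
  have h5 : ∀ x, x ∈ range F ↔ γ (π x) = 0 ∧ β (π x) < ε := fun x => by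
    rw [hβ, hγ]
    refine ⟨?_, fun ⟨k1, k2⟩ => ?_⟩
    · rintro ⟨w, rfl⟩
      exact ⟨(h2 w).2, (h2 w).1.trans_lt (r1 _)⟩
    by_cases hb : x.1 b = 0
    · exact ⟨(⟨x.1, mem_KK.2 ⟨x.2.2, hb, norm_eq_zero.1 k1⟩⟩, 0),
        Subtype.ext (by rw [hF]; exact hf.zero _ ((z3 _).2 rfl))⟩
    have k3 : 0 < ε - ‖x.1 b‖ := sub_pos.2 k2
    have k4 : 0 < ‖x.1 b‖ / (ε - ‖x.1 b‖) := div_pos (norm_pos_iff.2 hb) k3
    obtain ⟨p, hp⟩ := hf.surj (z (‖x.1 b‖ / (ε - ‖x.1 b‖) : ℝ)) x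
      (mt (z3 _).1 (Complex.ofReal_ne_zero.2 k4.ne')) (by
        rw [hz, Complex.norm_of_nonneg k4.le]
        field_simp
        ring) (by rw [hz, k1])
    refine ⟨(p.1, fun _ => (‖x.1 b‖ / (ε - ‖x.1 b‖) : ℝ) * p.2), ?_⟩
    rw [hF, dir_eq k4, (z2 _ (‖x.1 b‖ / (ε - ‖x.1 b‖) : ℝ)).2 (by
      rw [norm_mul, Circle.norm_coe, mul_one])]
    exact hp
  refine ⟨_, _, oq_range hπ (emb_of_ultra h3 (fun w w' e => ?_) fun w U hU => ?_) fun x w e => ?_,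
    fun x y => Subtype.ext_iff.trans ((he _ _).trans
      (exists_congr fun u => and_congr_right (h4 x y u))), fun e => ?_⟩
  · obtain ⟨k1, k2⟩ := (h4 w w' 1 uni_one).1 (by rw [e, act_one])
    exact Prod.ext (Subtype.ext (k1.trans (act_one _)).symm) (k2.trans (one_smul _ _)).symm
  · have k2 := (((cnorm b).tendsto _).comp hU).eventually (gt_mem_nhds ((h2 w).1.trans_lt
      ((r2 (w.2 0) (‖w.2 0‖ + 1 : ℝ)).2 (by
        rw [Complex.norm_of_nonneg (by positivity)]; exact lt_add_one _))))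
    refine ((isCompact_univ.prod (isCompact_closedBall 0 ‖((‖w.2 0‖ + 1 : ℝ) : ℂ)‖)
      ).ultrafilter_le_nhds U (le_principal_iff.2 (k2.mono fun y hy => ⟨trivial, ?_⟩))).imp
      fun _ k => k.2
    rw [comp_apply, (h2 y).1, r2] at hy
    exact mem_closedBall_zero_iff.2 ((pi_norm_le_iff_of_nonneg (norm_nonneg _)).2 fun j =>
      Subsingleton.elim 0 j ▸ hy.le)
  · rw [h5, e, ← h5]
    exact mem_range_self w
  · obtain ⟨x, rfl⟩ := hπ.surjective e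
    refine ⟨?_, fun k => ((h5 x).2 k).elim fun w hw => ⟨w, congrArg π hw⟩⟩
    rintro ⟨w, e⟩
    rw [← e, comp_apply, ← h5]
    exact mem_range_self w

end Desc

theorem exists_iso (h : Dg T i b c r) (g : Gau T b c r O μ ε) {W : Type} [TopologicalSpace W]
    {p : KK T b c r μ × (Fin 1 → ℂ) → W} (hp : IsOpenQuotientMap p)
    (he : ∀ x y, p x = p y ↔ ∃ u, Uni u ∧ y.1.1 = T.act u x.1.1 ∧ y.2 = u i • x.2) :
    ∃ θ : Hc (Quo T.act (cut T {b, c})) ≃ₗ[ℂ] Hc W,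
      ∀ k, ∀ a ∈ Hc.deg (Quo T.act (cut T {b, c})) k, θ a ∈ Hc.deg W (k + 2) := by
  have hu : ∀ s : R → Circle, Uni fun l => (s l : ℂ) := fun s l => (s l).norm_coe
  let : MulAction (R → Circle) (KK T b c r μ) :=
    { smul := fun s k => ⟨T.act (fun l => s l) k.1, h.cut_act _ _ (hu s).unit _ k.2.1,
        lev_act h g (hu s) k.2.2⟩
      one_smul := fun k => Subtype.ext (act_one k.1)
      mul_smul := fun s s' k => Subtype.ext (act_mul (fun l => s l) (fun l => s' l) k.1) }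
  have : ContinuousSMul (R → Circle) (KK T b c r μ) := ⟨Continuous.subtype_mk
    (continuous_act.comp (continuous_fst.prodMk (continuous_subtype_val.comp continuous_snd))) _⟩
  have := compact_KK g
  obtain ⟨h1, h2, -⟩ := g.quo h (A := cut T {b, c}) ((cut_anti T (by simp)).trans
    (cut_left T b c (Metric.mem_closedBall_self h.pos.le))) (h.cut_act _)
  refine exists_thom_iso (G := R → Circle) ⟨inferInstance, properSMul_of_compact,
    ⟨inferInstance, inferInstance, inferInstance⟩, fun k => ?_⟩ (Pi.evalMonoidHom _ i)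
    (continuous_apply i) ⟨h1, fun x y => (h2 x y).trans (uni_iff.trans
      (exists_congr fun s => eq_comm.trans (Subtype.ext_iff (a1 := s • x)).symm))⟩ hp
    fun x y => (he x y).trans (uni_iff.trans (exists_congr fun s => and_congr
      (eq_comm.trans (Subtype.ext_iff (a1 := s • x.1)).symm) eq_comm))
  obtain ⟨N, τ, n1, n2, n3, -, n4, n5⟩ := h.exists_loc k.2.2.1
  have n6 : ∀ᶠ x : KK T b c r μ in 𝓝 k, x.1 ∈ N :=
    continuous_subtype_val.continuousAt.eventually (n1.mem_nhds n2)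
  refine ⟨fun x l => dir (τ x.1 l), n6.mono fun x hx => continuousAt_pi.2 fun l =>
    ContinuousAt.comp (g := dir) (continuousAt_dir (Pi.isUnit_iff.1 (n4 _ hx) l).ne_zero)
      ((continuousAt_pi.1 (n3 _ hx).continuousAt l).comp continuous_subtype_val.continuousAt),
    (continuousAt_snd.tendsto.eventually n6).mono fun y hy => funext fun l => ?_⟩
  exact (congrArg dir (congrFun (n5 _ (hu y.1).unit _ hy).2 l)).trans
    (dir_mul _ (Pi.isUnit_iff.1 (n4 _ hy) l).ne_zero)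

end DgT

open DgT

theorem Dg.top (h : Dg T i b c r) : ∀ᶠ t : ℝ in 𝓝[>] 0,
    Bijective (H.map (qinc T.act (ovr_mono T b c
      (singleton_subset_iff.2 (left_mem_segment ℝ (0 : ℂ) t))))) ∧
    ∃ (α : H (Quo T.act (cut T {b, c})) →ₗ[ℂ] H (Quo T.act (ovr T b c (segment ℝ 0 (t : ℂ)))))
      (ρ : H (Quo T.act (ovr T b c {(t : ℂ)})) →ₗ[ℂ] H (Quo T.act (cut T {b, c}))),
      (∀ k a, H.IsDeg k a → H.IsDeg (k + 2) (α a)) ∧ (∀ k a, H.IsDeg k a → H.IsDeg (k - 1) (ρ a)) ∧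
      Exact α (H.map (qinc T.act (ovr_mono T b c
        (singleton_subset_iff.2 (right_mem_segment ℝ (0 : ℂ) t))))) ∧
      Exact (H.map (qinc T.act (ovr_mono T b c
        (singleton_subset_iff.2 (right_mem_segment ℝ (0 : ℂ) t))))) ρ ∧ Exact ρ α := by
  obtain ⟨O, μ, ε, g⟩ := h.exists_gau
  have hε := g.pos
  filter_upwards [Ioo_mem_nhdsGT (by positivity : 0 < ε ^ 2 / 2)] with t ⟨ht, ht'⟩
  have h0 : segment ℝ 0 (t : ℂ) ⊆ Metric.closedBall 0 r := fun z hz => by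
    obtain ⟨s, hs, rfl⟩ := (mem_seg ht.le).1 hz
    rw [mem_closedBall_zero_iff, Complex.norm_of_nonneg hs.1]
    linarith [hs.2, g.le]
  have h1 : ∀ A ⊆ Metric.closedBall (0 : ℂ) r, IsClosed A →
      CompactSpace (Quo T.act (ovr T b c A)) ∧ MetrizableSpace (Quo T.act (ovr T b c A)) :=
    fun A hA hc => h.compact (C := (fun x => x b * x c) ⁻¹' A)
      (Set.ext fun x => ⟨fun k => ⟨⟨k.1, hA k.2⟩, k.2⟩, fun k => ⟨k.1.1, k.2⟩⟩)
      (hc.preimage (by fun_prop)) (h.ovr_act _)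
  obtain ⟨_, _⟩ := h1 _ h0 (by
    rw [show segment ℝ 0 (t : ℂ) = _ '' Icc 0 t from Set.ext fun _ => mem_seg ht.le]
    exact (isCompact_Icc.image Complex.continuous_ofReal).isClosed)
  obtain ⟨_, _⟩ := h.compact (A := cut T {b, c}) (C := {x | x b = 0} ∩ {x | x c = 0})
    (Set.ext fun x => ⟨fun k => ⟨⟨k.1, by simp [k.2 b (by simp), h.pos.le]⟩, k.2 b (by simp),
      k.2 c (by simp)⟩, fun k => ⟨k.1.1, by
        rintro j (rfl | rfl)
        exacts [k.2.1, k.2.2]⟩⟩)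
    ((isClosed_eq (by fun_prop) continuous_const).inter
      (isClosed_eq (by fun_prop) continuous_const)) (h.cut_act _)
  obtain ⟨hπ, he, -⟩ := g.quo h (ovr_mono T b c h0) (h.ovr_act _)
  have h2 : ∀ j, (∀ u, Uni u → ∀ x, ‖T.act u x j‖ = ‖x j‖) →
      ∃ β : Quo T.act (ovr T b c (segment ℝ 0 (t : ℂ))) → ℝ, Continuous β ∧
        ∀ x : XX T b c r μ t, β (Quo.mk T.act ⟨x.1, x.2.1⟩) = ‖x.1 j‖ := fun j hj => by
    have k : ∀ x : XX T b c r μ t, ‖(hπ.surjective (Quo.mk T.act ⟨x.1, x.2.1⟩)).choose.1 j‖ =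
        ‖x.1 j‖ := fun x => by
      obtain ⟨u, hu, e⟩ := (he _ _).1 (hπ.surjective (Quo.mk T.act ⟨x.1, x.2.1⟩)).choose_spec
      exact ((congrArg (‖· j‖) e).trans (hj u hu _)).symm
    exact ⟨fun e => ‖(hπ.surjective e).choose.1 j‖, hπ.continuous_comp_iff.1
      ((cnorm j).congr fun x => (k x).symm), k⟩
  obtain ⟨β, cβ, hβ⟩ := h2 b fun u hu => norm_b h hu
  obtain ⟨γ, cγ, hγ⟩ := h2 c fun u hu => norm_c h hu
  obtain ⟨f, hf⟩ := exists_tb h g ht.le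
  have := compact_KK g
  obtain ⟨S, Ψ, s1, s2, s3, s4⟩ := exists_psi hπ he hβ hγ h g ht.le (by linarith)
  obtain ⟨S', Θ, t1, t2, t3, t4⟩ := exists_theta hπ he hβ hγ hf hε ht.le
  obtain ⟨W, p, w1, w2, w3⟩ := exists_disc hπ he hβ hγ hf h hε ht.le
  obtain ⟨θ, hθ⟩ := exists_iso h g w1 w2
  have := isCompact_iff_compactSpace.1 s1
  have := isCompact_iff_compactSpace.1 t1
  have h3 : DTube ε t β γ Ψ Θ := ⟨ht, by linarith, hε, cβ, cγ,
    hπ.surjective.forall.2 fun x => hβ x ▸ norm_nonneg _,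
    hπ.surjective.forall.2 fun x => hγ x ▸ norm_nonneg _,
    hπ.surjective.forall.2 fun x => by rw [hβ, hγ]; exact (norm_XX ht.le x.2).2,
    s2.continuous, s2.injective, s3, s4, t2, t3, t4⟩
  have h4 : ∀ (z : ℂ) (s : ℝ) (hz : {z} ⊆ segment ℝ 0 (t : ℂ)), z = s →
      IsClosedEmbedding (qinc T.act (ovr_mono T b c hz)) ∧
        ∀ e, e ∈ range (qinc T.act (ovr_mono T b c hz)) ↔ β e * γ e = s := fun z s hz e => by
    obtain ⟨k1, k2⟩ := h.isEmbedding_qinc (ovr_mono T b c hz) (ovr_mono T b c h0) (h.ovr_act _)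
      (h.ovr_act _)
    have := (h1 _ (hz.trans h0) isClosed_singleton).1
    refine ⟨k1.continuous.isClosedEmbedding k1.injective, hπ.surjective.forall.2 fun x => ?_⟩
    rw [k2, hβ, hγ, ← Complex.ofReal_inj, ← (norm_XX ht.le x.2).1, ← e]
    exact and_iff_right x.2.1.1
  obtain ⟨k1, k2⟩ := h4 0 0 (singleton_subset_iff.2 (left_mem_segment ..)) rfl
  obtain ⟨k3, k4⟩ := h4 t t (singleton_subset_iff.2 (right_mem_segment ..)) rfl
  exact ⟨h3.bij k1 k2, h3.les k3 k4 IsEmbedding.subtypeVal (by simpa using w3) θ hθ⟩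

end Vale.Agent.P269.Mono
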