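import Vale.Agent.P269.Mono.DgIntA

set_option linter.unusedSectionVars false
set_option linter.style.haveILetI false

/-!
# P269, degenerations `b c = t`: the pieces are orbifolds, and the integral over the general fibre
is the sum of the integrals over the two components
-/

namespace Vale.Agent.P269.Mono

open Set Topology Filter Module Function TopologicalSpace Vale.Agent.P291Z MvPolynomial
  Vale.Agent.P269.Holo Vale.Agent.P269.Orb
open scoped ContDiff ComplexConjugate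

variable {R J K : Type} [Fintype R] [Fintype J] [Fintype K] [DecidableEq R] {T : Tgt R J K} {i : R}
  {b c : J} {r ε : ℝ} {O : Set (J → ℂ)} {μ : (J → ℂ) → R → ℝ} {n : ℕ}

namespace DgI

theorem properSMul_of_tendsto {A W : Type} [NormedRing A] [NormedAlgebra ℂ A] [CompleteSpace A]
    [NormedAddCommGroup W] [NormedSpace ℂ W] {act : A → W → W} {S : Set W} [IsAct act S]
    (h : ∀ F : Ultrafilter (Aˣ × Sp act S), ∀ x₁ ∈ S, ∀ x₂ ∈ S,
      Tendsto (fun u : Aˣ × Sp act S => act u.1 u.2.val) F (𝓝 x₁) →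
      Tendsto (fun u : Aˣ × Sp act S => u.2.val) F (𝓝 x₂) →
        ∃ t, IsUnit t ∧ Tendsto (fun u : Aˣ × Sp act S => (u.1 : A)) F (𝓝 t)) :
    ProperSMul Aˣ (Sp act S) :=
  properSMul_iff_continuousSMul_ultrafilter_tendsto_t2.2 ⟨inferInstance, fun F x₁ x₂ hx => by
    obtain ⟨t, k1, k2⟩ := h F _ x₁.val_mem _ x₂.val_mem
      ((Sp.continuous_val.tendsto _).comp ((continuous_fst.tendsto _).comp hx))
      ((Sp.continuous_val.tendsto _).comp ((continuous_snd.tendsto _).comp hx))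
    exact ⟨k1.unit, Units.isOpenEmbedding_val.isInducing.tendsto_nhds_iff.2 k2⟩⟩

theorem ne_zero {t : R → ℂ} (ht : IsUnit t) (l : R) : t l ≠ 0 := (ht.apply l).ne_zero

theorem zpow_sum {z : ℂ} (hz : z ≠ 0) (s : Finset J) (e : J → ℤ) :
    z ^ ∑ j ∈ s, e j = ∏ j ∈ s, z ^ e j := by
  classical
  induction s using Finset.induction_on with
  | empty => simp
  | insert a s ha ih => rw [Finset.sum_insert ha, Finset.prod_insert ha, zpow_add₀ hz, ih]

theorem mono_act (T : Tgt R J K) {t : R → ℂ} (ht : IsUnit t) (x : J → ℂ) {α : J → ℕ} {e : R → ℤ}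
    (h : ∀ l, ∑ j, α j * T.w j l = e l) :
    ∏ j, T.act t x j ^ α j = (∏ l, t l ^ e l) * ∏ j, x j ^ α j := by
  simp only [Tgt.act, mul_pow, Finset.prod_mul_distrib, ← Finset.prod_pow, ← h,
    zpow_sum (ne_zero ht _)]
  rw [Finset.prod_comm]
  refine congrArg (· * _) (Finset.prod_congr rfl fun l _ => Finset.prod_congr rfl fun j _ => ?_)
  rw [mul_comm, zpow_mul, zpow_natCast]

theorem prod_single (t : R → ℂ) (l : R) : ∏ l', t l' ^ (Pi.single l 1 : R → ℤ) l' = t l := by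
  rw [Finset.prod_eq_single l (fun l' _ h => by rw [Pi.single_eq_of_ne h, zpow_zero])
    (fun h => absurd (Finset.mem_univ l) h), Pi.single_eq_same, zpow_one]

theorem prod_add_single {t : R → ℂ} (ht : IsUnit t) (θ : R → ℤ) (l : R) :
    ∏ l', t l' ^ (θ + Pi.single l 1 : R → ℤ) l' = (∏ l', t l' ^ θ l') * t l := by
  simp only [Pi.add_apply, zpow_add₀ (ne_zero ht _), Finset.prod_mul_distrib, prod_single]

theorem fderiv_eval (f : MvPolynomial J ℂ) (x v : J → ℂ) :
    fderiv ℂ (fun y : J → ℂ => eval y f) x v = ∑ j, v j * eval x (pderiv j f) := by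
  classical
  have an : ∀ f : MvPolynomial J ℂ, HasFDerivAt (fun y : J → ℂ => eval y f)
      (fderiv ℂ (fun y : J → ℂ => eval y f) x) x := fun f =>
    (AnalyticOnNhd.eval_mvPolynomial f x trivial).differentiableAt.hasFDerivAt
  induction f using MvPolynomial.induction_on with
  | C a => simp
  | add p q hp hq =>
    simp only [map_add, mul_add, Finset.sum_add_distrib, ← hp, ← hq]
    exact DFunLike.congr_fun ((an p).add (an q)).fderiv v
  | mul_X p j hp =>
    have h := DFunLike.congr_fun ((an p).mul (hasFDerivAt_apply (𝕜 := ℂ) j x)).fderiv v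
    simp only [map_mul, eval_X]
    refine h.trans ?_
    simp [hp, Derivation.leibniz, pderiv_X, Pi.single_apply, mul_add, Finset.sum_add_distrib,
      Finset.mul_sum, apply_ite, mul_comm, mul_left_comm]

theorem an_F (T : Tgt R J K) (x : J → ℂ) : AnalyticAt ℂ (fun (y : J → ℂ) k => eval y (T.F k)) x :=
  analyticAt_pi_iff.2 fun k => AnalyticOnNhd.eval_mvPolynomial (T.F k) x trivial

theorem an_bc (b c : J) (x : J → ℂ) : AnalyticAt ℂ (fun y : J → ℂ => (y b, y c)) x :=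
  ((ContinuousLinearMap.proj b).prod (ContinuousLinearMap.proj c) : (J → ℂ) →L[ℂ] ℂ × ℂ).analyticAt x

theorem hasFDerivAt_mul (u : ℂ × ℂ) (s : ℂ) : HasFDerivAt (fun u : ℂ × ℂ => u.1 * u.2 - s)
    (u.1 • ContinuousLinearMap.snd ℂ ℂ ℂ + u.2 • ContinuousLinearMap.fst ℂ ℂ ℂ) u :=
  (hasFDerivAt_fst.mul hasFDerivAt_snd).sub_const s

theorem exists_lin {u : ℂ × ℂ} (h : ¬(u.1 = 0 ∧ u.2 = 0)) (z : ℂ) :
    ∃ v : ℂ × ℂ, u.1 * v.2 + u.2 * v.1 = z := by
  by_cases h1 : u.1 = 0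
  · exact ⟨(z / u.2, 0), by rw [mul_zero, zero_add, mul_div_cancel₀ _ fun e => h ⟨h1, e⟩]⟩
  · exact ⟨(0, z / u.1), by rw [mul_zero, add_zero, mul_div_cancel₀ _ h1]⟩

end DgI

open DgI

namespace Dg

variable (h : Dg T i b c r)
include h

theorem i_act_b (t : R → ℂ) (x : J → ℂ) : T.act t x b = t i * x b := by
  rw [Tgt.act, h.wb, prod_single]

theorem i_act_c (t : R → ℂ) (x : J → ℂ) : T.act t x c = (t i)⁻¹ * x c := by
  simp only [Tgt.act, h.wc, Pi.neg_apply, zpow_neg, Finset.prod_inv_distrib, prod_single]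

theorem i_act_bc {t : R → ℂ} (ht : IsUnit t) (x : J → ℂ) : T.act t x b * T.act t x c = x b * x c := by
  rw [h.i_act_b, h.i_act_c, mul_mul_mul_comm, mul_inv_cancel₀ (ne_zero ht i), one_mul]

theorem i_act_cone {t : R → ℂ} (ht : IsUnit t) {x : J → ℂ} (hx : x ∈ T.cone) : T.act t x ∈ T.cone := by
  obtain ⟨χ, hχ⟩ := h.hom
  refine ⟨h.invU t ht x hx.1, fun k => ?_⟩
  rw [← mul_zero (∏ l, t l ^ χ k l), ← hx.2 k, eval_eq', eval_eq', Finset.mul_sum]
  exact Finset.sum_congr rfl fun α hα => by rw [mono_act T ht x (hχ k α hα), mul_left_comm]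

theorem i_act_ovr (A : Set ℂ) (t : R → ℂ) (ht : IsUnit t) (x : J → ℂ) (hx : x ∈ ovr T b c A) :
    T.act t x ∈ ovr T b c A := ⟨h.i_act_cone ht hx.1, by rw [h.i_act_bc ht]; exact hx.2⟩

theorem i_act_cut (Z : Set J) (t : R → ℂ) (ht : IsUnit t) (x : J → ℂ) (hx : x ∈ cut T Z) :
    T.act t x ∈ cut T Z := ⟨h.i_act_cone ht hx.1, fun j hj => by rw [Tgt.act, hx.2 j hj, mul_zero]⟩

theorem i_isLocallyClosed_cone : IsLocallyClosed T.cone :=
  ⟨T.U, {x | ∀ k, eval x (T.F k) = 0}, h.openU, by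
    rw [ofPred_forall]
    exact isClosed_iInter fun k => isClosed_eq (MvPolynomial.continuous_eval _) continuous_const,
    rfl⟩

theorem i_isLocallyClosed_ovr {A : Set ℂ} (hA : IsLocallyClosed A) : IsLocallyClosed (ovr T b c A) :=
  h.i_isLocallyClosed_cone.inter (hA.preimage (f := fun x : J → ℂ => x b * x c) (by fun_prop))

omit h in
theorem i_isClosed_zero (Z : Set J) : IsClosed {x : J → ℂ | ∀ j ∈ Z, x j = 0} := by
  simp only [ofPred_forall]
  exact isClosed_iInter fun j => isClosed_iInter fun _ => isClosed_eq (by fun_prop) continuous_const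

theorem i_isLocallyClosed_cut (Z : Set J) : IsLocallyClosed (cut T Z) :=
  h.i_isLocallyClosed_cone.inter (i_isClosed_zero Z).isLocallyClosed

theorem i_isAct_cone : IsAct T.act T.cone where
  one x _ := funext fun j => by simp [Tgt.act]
  mul s t _ _ x _ := funext fun j => by
    simp only [Tgt.act, Pi.mul_apply, mul_zpow, Finset.prod_mul_distrib, mul_assoc]
  mem t ht x hx := h.i_act_cone ht hx
  an t ht x _ := analyticAt_pi_iff.2 fun j => AnalyticAt.mul
    (Finset.analyticAt_fun_prod _ fun l _ => AnalyticAt.zpow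
      (f := fun p : (R → ℂ) × (J → ℂ) => p.1 l) (analyticAt_pi_iff.1 analyticAt_fst l)
      (ne_zero ht l)) (analyticAt_pi_iff.1 analyticAt_snd j)

theorem i_exists_tendsto {α : Type} {F : Filter α} [F.NeBot] {g : α → R → ℂ} {y : α → J → ℂ}
    (hg : ∀ u, IsUnit (g u)) {x₁ x₂ : J → ℂ} (h₁ : x₁ ∈ ovr T b c (Metric.closedBall 0 r))
    (h₂ : x₂ ∈ ovr T b c (Metric.closedBall 0 r)) (t1 : Tendsto (fun u => T.act (g u) (y u)) F (𝓝 x₁))
    (t2 : Tendsto y F (𝓝 x₂)) : ∃ t, IsUnit t ∧ Tendsto g F (𝓝 t) := by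
  obtain ⟨θ, hθ⟩ := h.amp
  have cm : ∀ (α : J → ℕ) (x : J → ℂ), Tendsto (fun x : J → ℂ => ∏ j, x j ^ α j) (𝓝 x)
      (𝓝 (∏ j, x j ^ α j)) := fun α x => Continuous.tendsto (by fun_prop) x
  have key : ∀ e : R → ℤ, (e = θ ∨ ∃ l, e = θ + Pi.single l 1) → ∃ z ≠ 0,
      Tendsto (fun u => ∏ l, g u l ^ e l) F (𝓝 z) := fun e he => by
    obtain ⟨α₁, k1, k2⟩ := hθ e he _ h₁
    obtain ⟨α₂, k3, k4⟩ := hθ e he _ h₂
    have k5 : Tendsto (fun u => ∏ l, g u l ^ e l) F
        (𝓝 ((∏ j, x₁ j ^ α₂ j) / ∏ j, x₂ j ^ α₂ j)) := by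
      refine (((cm α₂ _).comp t1).div ((cm α₂ _).comp t2) k4).congr' ?_
      filter_upwards [((cm α₂ _).comp t2).eventually_ne k4] with u hu
      simp only [Pi.div_apply, comp_apply] at hu ⊢
      rw [mono_act T (hg u) (y u) k3, mul_div_cancel_right₀ _ hu]
    refine ⟨_, fun e0 => k2 ?_, k5⟩
    have k6 := tendsto_nhds_unique ((k5.mul ((cm α₁ _).comp t2)).congr fun u =>
      (mono_act T (hg u) (y u) k1).symm) ((cm α₁ _).comp t1)
    rw [← k6, e0, zero_mul]
  obtain ⟨z, z0, hz⟩ := key θ (Or.inl rfl)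
  choose w w0 hw using fun l => key _ (Or.inr ⟨l, rfl⟩)
  refine ⟨fun l => w l / z, Pi.isUnit_iff.2 fun l => (div_ne_zero (w0 l) z0).isUnit,
    tendsto_pi_nhds.2 fun l => ((hw l).div hz z0).congr fun u => ?_⟩
  rw [Pi.div_apply, prod_add_single (hg u), mul_div_cancel_left₀ _ (Finset.prod_ne_zero_iff.2
    fun l _ => zpow_ne_zero _ (ne_zero (hg u) l))]

/-- the torus acts freely and properly over the closed disc -/
theorem fp : FP T.act (ovr T b c (Metric.closedBall 0 r)) := by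
  haveI k := h.i_isAct_cone.mono (S := ovr T b c (Metric.closedBall 0 r)) (fun _ hx => hx.1)
    (h.i_act_ovr _)
  obtain ⟨θ, hθ⟩ := h.amp
  refine { k with
    proper := properSMul_of_tendsto fun F _ k1 _ k2 k3 k4 =>
      h.i_exists_tendsto (fun u => u.1.isUnit) k1 k2 k3 k4
    lc := (h.i_isLocallyClosed_ovr Metric.isClosed_closedBall.isLocallyClosed).locallyCompactSpace
    free := fun x g e => ?_ }
  have key : ∀ e : R → ℤ, (e = θ ∨ ∃ l, e = θ + Pi.single l 1) → ∏ l, g.1 l ^ e l = 1 :=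
    fun e' he => by
      obtain ⟨α, k1, k2⟩ := hθ e' he _ x.val_mem
      have k3 := mono_act T g.isUnit x.val k1
      rw [show T.act g x.val = x.val from congrArg Sp.val e] at k3
      exact (mul_eq_right₀ k2).1 k3.symm
  refine Units.ext (_root_.funext fun l => ?_)
  have k := key _ (Or.inr ⟨l, rfl⟩)
  rwa [prod_add_single g.isUnit, key θ (Or.inl rfl), one_mul] at k

theorem fp_ovr {A : Set ℂ} (hA : A ⊆ Metric.closedBall 0 r) (hl : IsLocallyClosed A) :
    FP T.act (ovr T b c A) :=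
  h.fp.mono (ovr_mono T b c hA) (h.i_act_ovr A) (h.i_isLocallyClosed_ovr hl)

theorem i_cut_subset {Z : Set J} (hZ : b ∈ Z ∨ c ∈ Z) :
    cut T Z ⊆ ovr T b c (Metric.closedBall 0 r) := fun x hx => ⟨hx.1, by
  rw [mul_eq_zero.2 (hZ.imp (hx.2 b) (hx.2 c))]
  exact Metric.mem_closedBall_self h.pos.le⟩

theorem fp_cut {Z : Set J} (hZ : b ∈ Z ∨ c ∈ Z) : FP T.act (cut T Z) :=
  h.fp.mono (h.i_cut_subset hZ) (h.i_act_cut Z) (h.i_isLocallyClosed_cut Z)

theorem fp_ball : FP T.act (ovr T b c (Metric.ball 0 r)) :=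
  h.fp_ovr Metric.ball_subset_closedBall Metric.isOpen_ball.isLocallyClosed

theorem fp_fib {t : ℂ} (ht : ‖t‖ ≤ r) : FP T.act (ovr T b c {t}) :=
  h.fp_ovr (singleton_subset_iff.2 (mem_closedBall_zero_iff.2 ht))
    isClosed_singleton.isLocallyClosed

theorem i_seg_subset {t : ℂ} (ht : ‖t‖ ≤ r) : segment ℝ 0 t ⊆ Metric.closedBall 0 r :=
  (convex_closedBall 0 r).segment_subset (Metric.mem_closedBall_self h.pos.le)
    (mem_closedBall_zero_iff.2 ht)

theorem fp_seg {t : ℂ} (ht : ‖t‖ ≤ r) : FP T.act (ovr T b c (segment ℝ 0 t)) :=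
  h.fp_ovr (h.i_seg_subset ht) (isCompact_seg t).isClosed.isLocallyClosed

theorem fp_left : FP T.act (cut T {b}) := h.fp_cut (Or.inl rfl)

theorem fp_right : FP T.act (cut T {c}) := h.fp_cut (Or.inr rfl)

theorem fp_div : FP T.act (cut T {b, c}) := h.fp_cut (Or.inl (Or.inl rfl))

theorem i_compactSpace_ovr {A : Set ℂ} (hA : A ⊆ Metric.closedBall 0 r) (hc : IsClosed A) :
    CompactSpace (Quo T.act (ovr T b c A)) := by
  haveI := h.fp_ovr hA hc.isLocallyClosed
  obtain ⟨C, h1, h2, h3⟩ := h.cpt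
  have h4 : IsCompact (Sp.val ⁻¹' (C ∩ {x | x b * x c ∈ A}) : Set (Sp T.act (ovr T b c A))) :=
    Sp.isEmbedding_val.isInducing.isCompact_preimage' (h2.inter_right
      (hc.preimage (f := fun x : J → ℂ => x b * x c) (by fun_prop))) fun x hx => by
        rw [Sp.range_val]
        exact ⟨h1 hx.1, hx.2⟩
  refine ⟨(h4.image Sp.continuous_mk).of_isClosed_subset isClosed_univ fun y _ => ?_⟩
  obtain ⟨y, rfl⟩ := Sp.surjective_mk y
  obtain ⟨t, k1, k2⟩ := h3 _ (ovr_mono T b c hA y.val_mem)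
  exact ⟨k1.unit • y, ⟨k2, (k1.unit • y).val_mem.2⟩, Sp.mk_smul _ _⟩

theorem i_surj {x : J → ℂ} (hx : x ∈ ovr T b c (Metric.closedBall 0 r)) (y : K → ℂ) (u : ℂ × ℂ) :
    ∃ v : J → ℂ, (v b, v c) = u ∧ fderiv ℂ (fun (y : J → ℂ) k => eval y (T.F k)) x v = y := by
  classical
  let v₀ : J → ℂ := Pi.single b u.1 + Pi.single c u.2
  obtain ⟨v, h1, h2, h3⟩ := h.reg x hx (y - fderiv ℂ (fun (y : J → ℂ) k => eval y (T.F k)) x v₀)
  refine ⟨v + v₀, by simp [v₀, h1, h2, h.ne, h.ne.symm], ?_⟩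
  rw [map_add, ← eq_sub_iff_add_eq]
  rw [fderiv_pi fun k =>
    (AnalyticOnNhd.eval_mvPolynomial (T.F k) x trivial).differentiableAt] at h3 ⊢
  exact _root_.funext fun k => (fderiv_eval _ _ _).trans (h3 k)

/-- the pieces are manifolds -/
theorem exists_isMfd {S : Set (J → ℂ)} {B : Type} [NormedAddCommGroup B] [NormedSpace ℂ B]
    [FiniteDimensional ℂ B] (x : Sp T.act S) (hx : x.val ∈ ovr T b c (Metric.closedBall 0 r))
    {g : ℂ × ℂ → B} {L : ℂ × ℂ →L[ℂ] B} (hg : AnalyticAt ℂ g (x.val b, x.val c))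
    (hL : HasFDerivAt g L (x.val b, x.val c)) (hs : Surjective L)
    (hS : ∀ᶠ y in 𝓝 x.val, y ∈ S ↔ y ∈ T.cone ∧ g (y b, y c) = 0) :
    ∃ m, m + (Fintype.card K + finrank ℂ B) = Fintype.card J ∧
      IsMfd (Sp.val : Sp T.act S → J → ℂ) m x ∧ ∀ v, L (v b, v c) = 0 →
        fderiv ℂ (fun (y : J → ℂ) k => eval y (T.F k)) x.val v = 0 → v ∈ tan Sp.val x := by
  have h1 := (an_F T x.val).differentiableAt.hasFDerivAt.prodMk (hL.comp x.val
    ((ContinuousLinearMap.proj b).prod (ContinuousLinearMap.proj c) :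
      (J → ℂ) →L[ℂ] ℂ × ℂ).hasFDerivAt)
  have h2 : Surjective (fderiv ℂ (fun y : J → ℂ => (fun k => eval y (T.F k), g (y b, y c)))
      x.val) := fun z => by
    obtain ⟨u, hu⟩ := hs z.2
    obtain ⟨v, k1, k2⟩ := h.i_surj hx z.1 u
    refine ⟨v, (DFunLike.congr_fun h1.fderiv v).trans (Prod.ext k2 ?_)⟩
    rw [← hu, ← k1]
    rfl
  obtain ⟨m, hm⟩ := Nat.exists_eq_add_of_le' (LinearMap.finrank_le_finrank_of_surjective
    (f := (fderiv ℂ (fun y : J → ℂ => (fun k => eval y (T.F k), g (y b, y c))) x.val :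
      (J → ℂ) →ₗ[ℂ] (K → ℂ) × B)) h2)
  obtain ⟨k1, k2⟩ := IsMfd.zeroSet Sp.isEmbedding_val (z := x)
    ((an_F T x.val).prod (hg.comp_of_eq (an_bc b c x.val) rfl)) h2 (by
      filter_upwards [hS, h.openU.mem_nhds hx.1.1] with y e1 e2
      rw [Sp.range_val, e1, Prod.mk_eq_zero, funext_iff]
      exact and_congr_left fun _ => and_iff_right e2) hm.symm
  refine ⟨m, by simpa using hm.symm, k1, fun v e1 e2 => ?_⟩
  rw [k2]
  exact (DFunLike.congr_fun h1.fderiv v).trans (Prod.ext e2 e1)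

theorem mfd_ball (x : Sp T.act (ovr T b c (Metric.ball 0 r))) :
    ∃ m, m + Fintype.card K = Fintype.card J ∧ IsMfd Sp.val m x ∧ ∀ v,
      fderiv ℂ (fun (y : J → ℂ) k => eval y (T.F k)) x.val v = 0 → v ∈ tan Sp.val x := by
  obtain ⟨m, h1, h2, h3⟩ := h.exists_isMfd x (ovr_mono T b c Metric.ball_subset_closedBall
    x.val_mem) (B := Fin 0 → ℂ) (g := fun _ => 0) (L := 0) analyticAt_const (hasFDerivAt_const _ _)
    (fun z => ⟨0, Subsingleton.elim _ _⟩) (mem_of_superset ((Metric.isOpen_ball.preimage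
      (f := fun x : J → ℂ => x b * x c) (by fun_prop)).mem_nhds x.val_mem.2) fun y hy =>
        and_congr_right fun _ => iff_of_true hy rfl)
  exact ⟨m, by simpa using h1, h2, fun v => h3 v rfl⟩

theorem mfd_fib {t : ℂ} (ht : ‖t‖ ≤ r) (x : Sp T.act (ovr T b c {t}))
    (h0 : ¬(x.val b = 0 ∧ x.val c = 0)) :
    ∃ m, m + (Fintype.card K + 1) = Fintype.card J ∧ IsMfd Sp.val m x := by
  obtain ⟨m, h1, h2, -⟩ := h.exists_isMfd x (ovr_mono T b c (singleton_subset_iff.2
    (mem_closedBall_zero_iff.2 ht)) x.val_mem) (g := fun u => u.1 * u.2 - t) (by fun_prop)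
    (hasFDerivAt_mul _ t) (exists_lin h0) (Eventually.of_forall fun y =>
      and_congr_right fun _ => sub_eq_zero.symm)
  exact ⟨m, by simpa using h1, h2⟩

theorem mfd_left (x : Sp T.act (cut T {b})) :
    ∃ m, m + (Fintype.card K + 1) = Fintype.card J ∧ IsMfd Sp.val m x := by
  obtain ⟨m, h1, h2, -⟩ := h.exists_isMfd x (h.i_cut_subset (Z := {b}) (Or.inl rfl) x.val_mem)
    (g := Prod.fst)
    analyticAt_fst hasFDerivAt_fst Prod.fst_surjective (Eventually.of_forall fun y =>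
      and_congr_right fun _ => forall_eq)
  exact ⟨m, by simpa using h1, h2⟩

theorem mfd_right (x : Sp T.act (cut T {c})) :
    ∃ m, m + (Fintype.card K + 1) = Fintype.card J ∧ IsMfd Sp.val m x := by
  obtain ⟨m, h1, h2, -⟩ := h.exists_isMfd x (h.i_cut_subset (Z := {c}) (Or.inr rfl) x.val_mem)
    (g := Prod.snd)
    analyticAt_snd hasFDerivAt_snd Prod.snd_surjective (Eventually.of_forall fun y =>
      and_congr_right fun _ => forall_eq)
  exact ⟨m, by simpa using h1, h2⟩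

theorem mfd_div (x : Sp T.act (cut T {b, c})) :
    ∃ m, m + (Fintype.card K + 2) = Fintype.card J ∧ IsMfd Sp.val m x := by
  obtain ⟨m, h1, h2, -⟩ := h.exists_isMfd x (h.i_cut_subset (Or.inl (Or.inl rfl)) x.val_mem)
    (g := id) analyticAt_id (hasFDerivAt_id _) surjective_id (Eventually.of_forall fun y =>
      and_congr_right fun _ => by simp)
  exact ⟨m, by simpa using h1, h2⟩

theorem div_le {x : J → ℂ} (hx : x ∈ cut T {b, c}) :
    Fintype.card R + 2 + Fintype.card K ≤ Fintype.card J := by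
  haveI := h.fp_div
  obtain ⟨m, h1, h2⟩ := h.mfd_div (Sp.of _ x hx)
  have h3 := FP.finrank_le h2
  rw [finrank_fintype_fun_eq_card] at h3
  omega

/-- the dimension of the fibres -/
theorem exists_dim {x : J → ℂ} (hx : x ∈ ovr T b c (Metric.closedBall 0 r)) :
    ∃ n, Fintype.card R + n + 1 + Fintype.card K = Fintype.card J := by
  refine ⟨Fintype.card J - Fintype.card K - 1 - Fintype.card R, ?_⟩
  by_cases h0 : x b = 0 ∧ x c = 0
  · have := h.div_le (x := x) ⟨hx.1, by simpa using h0⟩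
    omega
  · have ht := mem_closedBall_zero_iff.1 hx.2
    haveI := h.fp_fib ht
    obtain ⟨m, h1, h2⟩ := h.mfd_fib ht (Sp.of _ x ⟨hx.1, rfl⟩) h0
    have h3 := FP.finrank_le h2
    rw [finrank_fintype_fun_eq_card] at h3
    omega

variable (hn : Fintype.card R + n + 1 + Fintype.card K = Fintype.card J)
include hn

theorem isMfd_ball (x : Sp T.act (ovr T b c (Metric.ball 0 r))) :
    IsMfd Sp.val (finrank ℂ (R → ℂ) + (n + 1)) x := by
  obtain ⟨m, h1, h2, -⟩ := h.mfd_ball x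
  rwa [finrank_fintype_fun_eq_card, show Fintype.card R + (n + 1) = m by omega]

theorem holOrb_ball [IsAct T.act (ovr T b c (Metric.ball 0 r))] :
    HolOrb (R → ℂ)ˣ (Sp.val : Sp T.act (ovr T b c (Metric.ball 0 r)) → J → ℂ) (n + 1) :=
  haveI := h.fp_ball
  FP.holOrb (h.isMfd_ball hn)

theorem holOrb_fib {t : ℂ} (ht : ‖t‖ ≤ r) (h0 : t ≠ 0) [IsAct T.act (ovr T b c {t})] :
    HolOrb (R → ℂ)ˣ (Sp.val : Sp T.act (ovr T b c {t}) → J → ℂ) n :=
  haveI := h.fp_fib ht
  FP.holOrb fun x => by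
    obtain ⟨m, h1, h2⟩ := h.mfd_fib ht x fun e => h0 (by
      rw [← mem_singleton_iff.1 x.val_mem.2, e.1, zero_mul])
    rwa [finrank_fintype_fun_eq_card, show Fintype.card R + n = m by omega]

theorem holOrb_left [IsAct T.act (cut T {b})] :
    HolOrb (R → ℂ)ˣ (Sp.val : Sp T.act (cut T {b}) → J → ℂ) n :=
  haveI := h.fp_left
  FP.holOrb fun x => by
    obtain ⟨m, h1, h2⟩ := h.mfd_left x
    rwa [finrank_fintype_fun_eq_card, show Fintype.card R + n = m by omega]

theorem holOrb_right [IsAct T.act (cut T {c})] :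
    HolOrb (R → ℂ)ˣ (Sp.val : Sp T.act (cut T {c}) → J → ℂ) n :=
  haveI := h.fp_right
  FP.holOrb fun x => by
    obtain ⟨m, h1, h2⟩ := h.mfd_right x
    rwa [finrank_fintype_fun_eq_card, show Fintype.card R + n = m by omega]

theorem holOrb_div [IsAct T.act (cut T {b, c})] :
    HolOrb (R → ℂ)ˣ (Sp.val : Sp T.act (cut T {b, c}) → J → ℂ) (n - 1) :=
  haveI := h.fp_div
  FP.holOrb fun x => by
    obtain ⟨m, h1, h2⟩ := h.mfd_div x
    have h3 := h.div_le x.val_mem
    rwa [finrank_fintype_fun_eq_card, show Fintype.card R + (n - 1) = m by omega]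

theorem top_div : Top (Quo T.act (cut T {b, c})) (2 * n - 2) := by
  haveI := h.fp_div
  rcases isEmpty_or_nonempty (Sp T.act (cut T {b, c})) with h0 | ⟨⟨x⟩⟩
  · haveI := (Sp.surjective_mk (act := T.act) (S := cut T {b, c})).isEmpty
    intro _ _ z _
    obtain ⟨a, -, rfl⟩ := cls_surj z
    rw [Subsingleton.elim a 0, cls_zero]
  · have h3 := h.div_le x.val_mem
    exact ((h.holOrb_div hn).top isQuo_sp).mono (by omega)

theorem push_fund {t : ℂ} (ht : ‖t‖ < r) (h0 : t ≠ 0)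
    {β : BM (Quo T.act (ovr T b c {t}))} {β₁ : BM (Quo T.act (cut T {b}))}
    {β₂ : BM (Quo T.act (cut T {c}))} (hβ : IsFund T.act _ β) (h₁ : IsFund T.act _ β₁)
    (h₂ : IsFund T.act _ β₂) :
    push (qinc T.act (ovr_mono T b c (singleton_subset_iff.2 (right_mem_segment ℝ 0 t)))) β =
      push (qinc T.act (cut_left T b c (left_mem_segment ℝ 0 t))) β₁ +
        push (qinc T.act (cut_right T b c (left_mem_segment ℝ 0 t))) β₂ := by
  haveI := h.fp_ball
  haveI := h.fp_seg ht.le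
  haveI := h.fp_fib ht.le
  haveI := h.fp_left
  haveI := h.fp_right
  haveI := h.fp_div
  have hb : segment ℝ 0 t ⊆ Metric.ball 0 r := (convex_ball 0 r).segment_subset
    (Metric.mem_ball_self h.pos) (mem_ball_zero_iff.2 ht)
  have hd : ∀ x : J → ℂ, HasFDerivAt (fun x : J → ℂ => x b * x c)
      (x b • ContinuousLinearMap.proj c + x c • ContinuousLinearMap.proj b : (J → ℂ) →L[ℂ] ℂ) x :=
    fun x => (hasFDerivAt_apply b x).mul (hasFDerivAt_apply c x)
  refine push_eq_add (D := cut T {b, c}) (E := ovr T b c (segment ℝ 0 t))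
    (Xt := ovr T b c {t}) (t := t)
    (h.isMfd_ball hn) (f := fun x => x b * x c)
    (fun x => (analyticAt_fst.mul analyticAt_snd).comp (an_bc b c x)) (fun a u x _ => h.i_act_bc u x)
    (fun x => ⟨fun k => ⟨⟨k.1, hb k.2⟩, k.2⟩, fun k => ⟨k.1.1, k.2⟩⟩)
    (fun x => ⟨fun k => ⟨⟨k.1, k.2.symm ▸ mem_ball_zero_iff.2 ht⟩, k.2⟩, fun k => ⟨k.1.1, k.2⟩⟩)
    (fun x => ⟨fun k => ⟨k.elim (fun k => cut_left T b c (Metric.mem_ball_self h.pos) k)
      fun k => cut_right T b c (Metric.mem_ball_self h.pos) k,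
      mul_eq_zero.2 (k.imp (·.2 b rfl) (·.2 c rfl))⟩, fun k => (mul_eq_zero.1 k.2).imp
        (fun e => ⟨k.1.1, forall_eq.2 e⟩) fun e => ⟨k.1.1, forall_eq.2 e⟩⟩)
    (fun x => ⟨fun k => ⟨cut_anti T (by simp) k, cut_anti T (by simp) k⟩,
      fun k => ⟨k.1.1, by simpa using ⟨k.1.2 b rfl, k.2.2 c rfl⟩⟩⟩)
    (i_isClosed_zero {b}) (i_isClosed_zero {c}) (fun x hx => and_iff_right hx.1)
    (fun x hx => and_iff_right hx.1) (h.i_isLocallyClosed_ovr Metric.isOpen_ball.isLocallyClosed)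
    (fun x hx => ?_) ((h.top_div hn).mono (by omega)) hβ h₁ h₂
    (FP.eq_fundQ (h.holOrb_left hn) h₁ ▸ (h.holOrb_left hn).deg isQuo_sp)
    (FP.eq_fundQ (h.holOrb_right hn) h₂ ▸ (h.holOrb_right hn).deg isQuo_sp) _ _ _
  obtain ⟨u, hu⟩ := exists_lin (u := (x.val b, x.val c)) (fun e => hx.elim
    (fun k => h0 ((mem_singleton_iff.1 k.2).symm.trans (mul_eq_zero_of_left e.1 _)))
    fun k => k.2 ⟨x.val_mem.1, by simpa using e⟩) 1
  obtain ⟨v, k1, k2⟩ := h.i_surj (ovr_mono T b c Metric.ball_subset_closedBall x.val_mem) 0 u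
  obtain ⟨-, -, -, k3⟩ := h.mfd_ball x
  refine ⟨v, k3 v k2, (DFunLike.congr_fun (hd _).fderiv v).trans ?_⟩
  rw [← hu, ← k1]
  rfl

end Dg

theorem Dg.int (h : Dg T i b c r) {t : ℂ} (ht : ‖t‖ < r) (h0 : t ≠ 0)
    {β : BM (Quo T.act (ovr T b c {t}))} {β₁ : BM (Quo T.act (cut T {b}))}
    {β₂ : BM (Quo T.act (cut T {c}))} (hβ : IsFund T.act _ β) (h₁ : IsFund T.act _ β₁)
    (h₂ : IsFund T.act _ β₂) (e : H (Quo T.act (ovr T b c (segment ℝ 0 t)))) :
    ev β (rep (H.map (qinc T.act (ovr_mono T b c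
        (singleton_subset_iff.2 (right_mem_segment ℝ 0 t)))) e)) =
      ev β₁ (rep (H.map (qinc T.act (cut_left T b c (left_mem_segment ℝ 0 t))) e)) +
        ev β₂ (rep (H.map (qinc T.act (cut_right T b c (left_mem_segment ℝ 0 t))) e)) := by
  haveI := h.fp_seg ht.le
  haveI := h.fp_fib ht.le
  haveI := h.fp_left
  haveI := h.fp_right
  haveI := h.i_compactSpace_ovr (h.i_seg_subset ht.le) (isCompact_seg t).isClosed
  have c₀ := isClosedEmbedding_qinc (act := T.act) (ovr_mono T b c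
    (singleton_subset_iff.2 (right_mem_segment ℝ 0 t))) (by
      convert ((isClosed_singleton (x := t)).preimage (f := fun x : J → ℂ => x b * x c)
        (by fun_prop)).preimage continuous_subtype_val using 1
      exact Set.ext fun x => and_iff_right x.2.1)
  have c₁ := isClosedEmbedding_qinc (act := T.act) (cut_left T b c (left_mem_segment ℝ 0 t)) (by
    convert (Dg.i_isClosed_zero {b}).preimage continuous_subtype_val using 1
    exact Set.ext fun x => and_iff_right x.2.1)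
  have c₂ := isClosedEmbedding_qinc (act := T.act) (cut_right T b c (left_mem_segment ℝ 0 t)) (by
    convert (Dg.i_isClosed_zero {c}).preimage continuous_subtype_val using 1
    exact Set.ext fun x => and_iff_right x.2.1)
  haveI := c₀.compactSpace
  haveI := c₁.compactSpace
  haveI := c₂.compactSpace
  rw [ev_rep (.of_isClosedEmbedding c₀), ev_rep (.of_isClosedEmbedding c₁),
    ev_rep (.of_isClosedEmbedding c₂), ← add_ev]
  rcases isEmpty_or_nonempty (Sp T.act (ovr T b c (segment ℝ 0 t))) with k | ⟨⟨x⟩⟩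
  · haveI := (Sp.surjective_mk (act := T.act) (S := ovr T b c (segment ℝ 0 t))).isEmpty
    exact congrArg (ev · _) (BM_eq_of_isEmpty _ _)
  · obtain ⟨n, hn⟩ := h.exists_dim (ovr_mono T b c (h.i_seg_subset ht.le) x.val_mem)
    rw [h.push_fund hn ht h0 hβ h₁ h₂]

end Vale.Agent.P269.Mono
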