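import Vale.Agent.P269.Mono.Proj
import Vale.Agent.P269.Orb.Ori
import Vale.Agent.P269.Inv.Dens

set_option linter.unusedSectionVars false

/-!
# P269, monodromy: the cohomology of a complete intersection (helper19)
-/

namespace Vale.Agent.P269.Mono

open Set Topology Filter Module Function TopologicalSpace Vale.Agent.P291Z Vale.Agent.P291Z.Fl
open Matrix
open scoped ContDiff

section Graded

variable {X Y : Type} [TopologicalSpace X] [TopologicalSpace Y]

theorem isDeg_pow {h : H X} (hh : H.IsDeg 2 h) (j : ℕ) : H.IsDeg (2 * j) (h ^ j) := by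
  induction j with
  | zero => simpa using H.isDeg_one
  | succ j ih =>
    rw [pow_succ]
    convert ih.mul hh using 1
    push_cast
    ring

theorem mem_span_deg {ι : Type*} {f : ι → H X} {d : ι → ℤ} (hf : ∀ j, H.IsDeg (d j) (f j)) {k : ℤ}
    {x : H X} (hx : x ∈ Submodule.span ℂ (range f)) :
    H.comp k x ∈ Submodule.span ℂ (f '' {j | d j = k}) := by
  induction hx using Submodule.span_induction with
  | mem x hx =>
    obtain ⟨j, rfl⟩ := hx
    rcases eq_or_ne k (d j) with rfl | h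
    · rw [(hf j).comp_eq]
      exact Submodule.subset_span ⟨j, rfl, rfl⟩
    · rw [(hf j).comp_ne h]
      exact zero_mem _
  | zero => simp
  | add x y _ _ hx hy => simpa using add_mem hx hy
  | smul c x _ hx => simpa using Submodule.smul_mem _ c hx

theorem li_of_deg {ι : Type*} {f : ι → H X} {d : ι → ℤ} (hf : ∀ j, H.IsDeg (d j) (f j))
    (hd : Injective d) (h0 : ∀ j, f j ≠ 0) : LinearIndependent ℂ f := by
  classical
  refine linearIndependent_iff'.2 fun s g h j hj => ?_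
  have := congrArg (H.comp (d j)) h
  rw [map_sum, map_zero, Finset.sum_eq_single j (fun i _ hi => by
    rw [map_smul, (hf i).comp_ne (hd.ne hi.symm), smul_zero]) (fun h => absurd hj h), map_smul,
    (hf j).comp_eq] at this
  exact (smul_eq_zero.1 this).resolve_right (h0 j)

/-- the span of the powers of `h` -/
noncomputable def amb (h : H X) : Submodule ℂ (H X) := Submodule.span ℂ (range fun j : ℕ => h ^ j)

theorem pow_mem_amb (h : H X) (j : ℕ) : h ^ j ∈ amb h := Submodule.subset_span ⟨j, rfl⟩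

theorem amb_deg {h : H X} (hh : H.IsDeg 2 h) {k : ℤ} {x : H X} (hx : x ∈ amb h)
    (hk : H.IsDeg k x) : x = 0 ∨ ∃ (j : ℕ) (c : ℂ), 2 * j = k ∧ x = c • h ^ j := by
  have := mem_span_deg (isDeg_pow hh) (k := k) hx
  rw [hk.comp_eq] at this
  rcases eq_empty_or_nonempty {j : ℕ | 2 * (j : ℤ) = k} with e | ⟨j, hj⟩
  · simpa [e] using Or.inl this
  · rw [show {j : ℕ | 2 * (j : ℤ) = k} = {j} from Set.ext fun i =>
      ⟨fun hi => by simp only [mem_ofPred_eq, mem_singleton_iff] at *; omega,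
        by rintro rfl; exact hj⟩, image_singleton, Submodule.mem_span_singleton] at this
    obtain ⟨c, hc⟩ := this
    exact Or.inr ⟨j, c, hj, hc.symm⟩

theorem map_amb (f : C(X, Y)) {h x : H Y} (hx : x ∈ amb h) : H.map f x ∈ amb (H.map f h) := by
  have : (amb h).map (H.mapA f).toLinearMap ≤ amb (H.map f h) := by
    rw [amb, Submodule.map_span_le]
    rintro _ ⟨j, rfl⟩
    exact Submodule.subset_span ⟨j, (map_pow (H.map f) h j).symm⟩
  exact this ⟨x, hx, rfl⟩

theorem amb_le_range (f : C(X, Y)) (h : H Y) :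
    amb (H.map f h) ≤ LinearMap.range (H.mapA f).toLinearMap := by
  rw [amb, Submodule.span_le]
  rintro _ ⟨j, rfl⟩
  exact ⟨h ^ j, map_pow (H.map f) h j⟩

/-- the cohomology ring of a Lefschetz manifold of dimension `n` -/
structure Lef (n : ℕ) (h : H X) (ι : H X →ₗ[ℂ] ℂ) : Prop where
  pos : 1 ≤ n
  hdeg : H.IsDeg 2 h
  deg : ∀ k : ℤ, k ≠ 2 * n → ∀ x, H.IsDeg k x → ι x = 0
  norm : ι (h ^ n) = 1
  nondeg : ∀ x, (∀ y, ι (y * x) = 0) → x = 0
  amb : ∀ k : ℤ, k ≠ n → ∀ x, H.IsDeg k x → x ∈ amb h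
  fin : FiniteDimensional ℂ (H X)

/-- the intersection form -/
noncomputable def bil (ι : H X →ₗ[ℂ] ℂ) : H X →ₗ[ℂ] H X →ₗ[ℂ] ℂ := (LinearMap.mul ℂ (H X)).compr₂ ι

/-- the primitive cohomology -/
noncomputable def van (h : H X) (ι : H X →ₗ[ℂ] ℂ) : Submodule ℂ (H X) :=
  LinearMap.BilinForm.orthogonal (bil ι) (amb h)

theorem bil_apply (ι : H X →ₗ[ℂ] ℂ) (x y : H X) : bil ι x y = ι (x * y) := rfl

theorem mem_van {h x : H X} {ι : H X →ₗ[ℂ] ℂ} : x ∈ van h ι ↔ ∀ j : ℕ, ι (h ^ j * x) = 0 := by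
  refine ⟨fun hx j => hx _ (pow_mem_amb h j), fun hx a ha => ?_⟩
  have : amb h ≤ LinearMap.ker ((bil ι).flip x) := Submodule.span_le.2 (by
    rintro _ ⟨j, rfl⟩
    exact hx j)
  exact this ha

theorem exists_lef [Nice X] [CompactSpace X] {n : ℕ} (hn : 1 ≤ n) {h : H X} (hh : H.IsDeg 2 h)
    (h0 : h ^ n ≠ 0) (wl : ∀ k : ℤ, k < n → ∀ x, H.IsDeg k x → x ∈ amb h) {β : BM X}
    (hβ : Orb.Ori (2 * n) β) : ∃ (ι : H X →ₗ[ℂ] ℂ) (c : ℂ), Lef n h ι ∧ c ≠ 0 ∧
      ∀ a, β a = c * ι (toH a) := by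
  let e := LinearEquiv.ofBijective (toH : Hc X →ₗ[ℂ] H X) toH_bijective
  let ι : H X →ₗ[ℂ] ℂ := β ∘ₗ e.symm
  have h1 : ∀ a, ι (toH a) = β a := fun a => congrArg β (e.symm_apply_apply a)
  have h2 : ∀ k : ℤ, k ≠ 2 * n → ∀ x, H.IsDeg k x → ι x = 0 := fun k hk x hx => by
    obtain ⟨c, hc, rfl⟩ := exists_toH_deg hx
    rw [h1, BM.isDeg_iff.1 hβ.deg k hk c hc]
  have h3 : ∀ k : ℤ, ∀ x, H.IsDeg k x → (∀ y, H.IsDeg (2 * n - k) y → ι (y * x) = 0) → x = 0 :=
    fun k x hx h => hβ.pd_bijective.1 (by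
      rw [map_zero]
      refine LinearMap.ext fun a => ?_
      rw [pd_apply, ← h1, toH_act, LinearMap.zero_apply]
      refine H.induction_deg (P := fun y => ι (y * x) = 0) (toH a) (by simp)
        (fun a b ha hb => by rw [add_mul, map_add, ha, hb, add_zero]) fun j => ?_
      rcases eq_or_ne j (2 * n - k) with rfl | hj
      · exact h _ (H.isDeg_comp _ _)
      · exact h2 _ (by omega) _ ((H.isDeg_comp _ _).mul hx))
  have h4 : ι (h ^ n) ≠ 0 := fun h4 => h0 (h3 _ _ (isDeg_pow hh n) fun y hy => by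
    rcases amb_deg hh (wl _ (by omega) y hy) hy with rfl | ⟨j, c, hj, rfl⟩
    · simp
    · rw [show j = 0 by omega, pow_zero, smul_mul_assoc, one_mul, map_smul, h4, smul_zero])
  refine ⟨(ι (h ^ n))⁻¹ • ι, ι (h ^ n), ⟨hn, hh, fun k hk x hx => by simp [h2 k hk x hx],
    by simp [h4], fun x hx => hβ.pd_bijective.1 ?_, fun k hk x hx => ?_, ?_⟩, h4,
    fun a => by simp [h1, h4]⟩
  · rw [map_zero]
    refine LinearMap.ext fun a => ?_
    rw [pd_apply, ← h1, toH_act, LinearMap.zero_apply]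
    simpa [h4] using hx (toH a)
  · rcases hk.lt_or_gt with hk | hk
    · exact wl k hk x hx
    by_cases h5 : ∃ i j : ℕ, i + j = n ∧ 2 * j = k
    · obtain ⟨i, j, rfl, rfl⟩ := h5
      have := h3 _ (x - (ι (h ^ i * x) / ι (h ^ (i + j))) • h ^ j)
        ((H.deg X _).sub_mem hx ((H.deg X _).smul_mem _ (isDeg_pow hh j))) fun y hy => by
          rcases amb_deg hh (wl _ (by omega) y hy) hy with rfl | ⟨l, c, hl, rfl⟩
          · simp
          · obtain rfl : l = i := by push_cast at hl; omega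
            rw [smul_mul_assoc, map_smul, mul_sub, mul_smul_comm, ← pow_add, map_sub, map_smul,
              smul_eq_mul (_ / _), div_mul_cancel₀ _ h4, sub_self, smul_zero]
      rw [sub_eq_zero.1 this]
      exact Submodule.smul_mem _ _ (pow_mem_amb h j)
    · rw [h3 k x hx fun y hy => ?_]
      · exact zero_mem _
      rcases amb_deg hh (wl _ (by omega) y hy) hy with rfl | ⟨l, c, hl, rfl⟩
      · simp
      · by_cases h6 : k < 0
        · omega
        · exact absurd ⟨l, n - l, by omega, by omega⟩ h5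
  · exact Basis.linearEquiv_dual_iff_finiteDimensional.1
      ⟨(LinearEquiv.ofBijective _ hβ.pd_bijective).trans e.symm.dualMap⟩

namespace Lef

variable {n : ℕ} {h : H X} {ι : H X →ₗ[ℂ] ℂ} (L : Lef n h ι)
include L

theorem unique {ι' : H X →ₗ[ℂ] ℂ} (h1 : ∀ k : ℤ, k ≠ 2 * n → ∀ x, H.IsDeg k x → ι' x = 0)
    (h2 : ι' (h ^ n) = 1) : ι' = ι := by
  ext x
  refine H.induction_deg (P := fun y => ι' y = ι y) x (by simp)
    (fun a b ha hb => by rw [map_add, map_add, ha, hb]) fun k => ?_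
  have hx := H.isDeg_comp k x
  rcases eq_or_ne k (2 * n) with rfl | hk
  · rcases amb_deg L.hdeg (L.amb _ (by have := L.pos; omega) _ hx) hx with e | ⟨j, c, hj, e⟩
    · simp [e]
    · obtain rfl : j = n := by omega
      rw [e, map_smul, map_smul, h2, L.norm]
  · rw [h1 k hk _ hx, L.deg k hk _ hx]

theorem mul_comp {k : ℤ} {y : H X} (hy : H.IsDeg k y) (x : H X) :
    ι (y * H.comp (2 * n - k) x) = ι (y * x) := by
  refine H.induction_deg (P := fun x => ι (y * H.comp (2 * n - k) x) = ι (y * x)) x (by simp)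
    (fun a b ha hb => by rw [map_add, mul_add, mul_add, map_add, map_add, ha, hb]) fun j => ?_
  rcases eq_or_ne (2 * n - k) j with rfl | hj
  · rw [(H.isDeg_comp _ _).comp_eq]
  · rw [(H.isDeg_comp _ _).comp_ne hj, mul_zero, map_zero,
      L.deg _ (by omega) _ (hy.mul (H.isDeg_comp _ _))]

theorem pow_eq_zero {j : ℕ} (hj : n < j) : h ^ j = 0 := L.nondeg _ fun y => by
  refine H.induction_deg (P := fun y => ι (y * h ^ j) = 0) y (by simp)
    (fun a b ha hb => by rw [add_mul, map_add, ha, hb, add_zero]) fun k => ?_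
  rcases lt_or_ge k 0 with hk | hk
  · rw [(H.isDeg_comp k y).eq_zero hk, zero_mul, map_zero]
  · exact L.deg _ (by omega) _ ((H.isDeg_comp k y).mul (isDeg_pow L.hdeg j))

theorem comp_eq_zero {x : H X} (hx : x ∈ van h ι) {k : ℤ} (hk : H.comp k x ∈ Mono.amb h) :
    H.comp k x = 0 := by
  rcases amb_deg L.hdeg hk (H.isDeg_comp k x) with e | ⟨j, c, rfl, e⟩
  · exact e
  rcases lt_or_ge n j with hj | hj
  · rw [e, L.pow_eq_zero hj, smul_zero]
  obtain ⟨i, rfl⟩ := Nat.exists_eq_add_of_le' hj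
  have := L.mul_comp (isDeg_pow L.hdeg i) x
  rw [mem_van.1 hx, show (2 * ((i + j : ℕ) : ℤ) - 2 * i) = 2 * j by push_cast; ring, e,
    mul_smul_comm, ← pow_add, map_smul, L.norm, smul_eq_mul, mul_one] at this
  rw [e, this, zero_smul]

theorem van_deg {x : H X} (hx : x ∈ van h ι) : H.IsDeg n x := by
  rw [show x = H.comp n x from H.ext_comp fun k => ?_]
  · exact H.isDeg_comp _ _
  rcases eq_or_ne k n with rfl | hk
  · rw [(H.isDeg_comp _ _).comp_eq]
  · rw [(H.isDeg_comp _ _).comp_ne hk, L.comp_eq_zero hx (L.amb k hk _ (H.isDeg_comp _ _))]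

theorem isCompl : IsCompl (Mono.amb h) (van h ι) := by
  constructor
  · refine Submodule.disjoint_def.2 fun x h1 h2 => ?_
    rw [← (L.van_deg h2).comp_eq]
    exact L.comp_eq_zero h2 (by rwa [(L.van_deg h2).comp_eq])
  · refine codisjoint_iff.2 (eq_top_iff.2 fun x _ => ?_)
    refine H.induction_deg (P := fun x => x ∈ Mono.amb h ⊔ van h ι) x (zero_mem _)
      (fun a b => add_mem) fun k => ?_
    have hx := H.isDeg_comp k x
    generalize H.comp k x = y at hx
    rcases eq_or_ne k n with rfl | hk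
    · by_cases h1 : ∃ j, j + j = n
      · obtain ⟨j, rfl⟩ := h1
        rw [← add_sub_cancel (ι (h ^ j * y) • h ^ j) y]
        refine Submodule.add_mem_sup (Submodule.smul_mem _ _ (pow_mem_amb h j))
          (mem_van.2 fun i => ?_)
        rcases eq_or_ne i j with rfl | hi
        · rw [mul_sub, mul_smul_comm, ← pow_add, map_sub, map_smul, L.norm, smul_eq_mul, mul_one,
            sub_self]
        · refine L.deg _ ?_ _ ((isDeg_pow L.hdeg i).mul ((H.deg X _).sub_mem hx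
            ((H.deg X _).smul_mem _ ?_)))
          · push_cast
            omega
          · rw [show ((j + j : ℕ) : ℤ) = 2 * j by push_cast; ring]
            exact isDeg_pow L.hdeg j
      · exact Submodule.mem_sup_right (mem_van.2 fun i =>
          L.deg _ (fun e => h1 ⟨i, by omega⟩) _ ((isDeg_pow L.hdeg i).mul hx))
    · exact Submodule.mem_sup_left (L.amb k hk y hx)

theorem symm {u v : H X} (hu : H.IsDeg n u) (hv : H.IsDeg n v) :
    bil ι u v = (-1) ^ n * bil ι v u := by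
  rw [bil_apply, bil_apply, hu.comm hv, map_smul, smul_eq_mul]
  congr 1
  rw [← Nat.cast_mul, zpow_natCast]
  rcases Nat.even_or_odd n with e | e
  · rw [e.neg_one_pow, (e.mul_right n).neg_one_pow]
  · rw [e.neg_one_pow, (e.mul e).neg_one_pow]

theorem isForm : Inv.IsForm (bil ι) (van h ι) ((-1) ^ n) := by
  refine ⟨by rw [← mul_pow]; simp, fun u hu v hv => L.symm (L.van_deg hu) (L.van_deg hv),
    fun u hu h0 => L.nondeg u fun y => ?_⟩
  obtain ⟨a, ha, v, hv, rfl⟩ := Submodule.mem_sup.1 (L.isCompl.sup_eq_top ▸ Submodule.mem_top :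
    y ∈ Mono.amb h ⊔ van h ι)
  rw [add_mul, map_add, ← bil_apply, ← bil_apply, h0 v hv, hu a ha, add_zero]

end Lef

end Graded

theorem low_slice {X Y : Type} [TopologicalSpace X] [TopologicalSpace Y] [MetrizableSpace X]
    [LocallyCompactSpace X] (Φ : ℝ → X → X) (hΦ : Continuous fun p : ℝ × X => Φ p.1 p.2)
    (h0 : ∀ x, Φ 0 x = x) (hadd : ∀ t x, Φ (-t) (Φ t x) = x) {f : X → ℝ} (hf : Continuous f)
    (hc : ∀ t x, f (Φ t x) = f x + t) {i : Y → X} (hi : IsEmbedding i)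
    (hr : ∀ x, x ∈ range i ↔ f x = 0) {q : ℤ} (h : Low X q) : Low Y (q - 1) := by
  have h1 := Hc.subsingleton_of_action Φ hΦ h0 hadd hf hc
  have h2 := Hc.subsingleton_of_action (fun t => Φ (-t))
    (hΦ.comp (continuous_fst.neg.prodMk continuous_snd)) (by simpa using h0) (fun t => hadd (-t))
    hf.neg fun t x => by simp [hc, add_comm]
  have c1 : IsClosed {x | 0 ≤ f x} := isClosed_le continuous_const hf
  have c2 : IsClosed {x | 0 ≤ -f x} := isClosed_le continuous_const hf.neg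
  have o1 : IsOpen {x | 0 < f x} := isOpen_lt continuous_const hf
  have := c1.locallyCompactSpace
  let i' : Y → {x | 0 ≤ f x} := fun y => ⟨i y, ((hr _).1 ⟨y, rfl⟩).ge⟩
  have e1 : range i' = {x | f x.1 = 0} := Set.ext fun x =>
    ⟨by rintro ⟨y, rfl⟩; exact (hr _).1 ⟨y, rfl⟩, fun hx => ((hr _).2 hx).imp fun _ => Subtype.ext⟩
  have hi' : IsClosedEmbedding i' := ⟨IsEmbedding.subtypeVal.of_comp_iff.1 hi,
    e1 ▸ isClosed_eq (by fun_prop) continuous_const⟩
  have hs : {x | 0 < f x} ⊆ {x | 0 ≤ f x} := fun x (hx : 0 < f x) => hx.le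
  have hj := isOpenEmbedding_incl hs o1
  have e2 : range (inclusion hs) = (range i')ᶜ := by
    rw [e1, range_inclusion]
    exact Set.ext fun x => ⟨fun h => ne_of_gt h, fun h => lt_of_le_of_ne x.2 (Ne.symm h)⟩
  intro k hk c hc
  apply (Hc.conn_bijective_of_subsingleton hi' hj e2 h1).1
  apply (Hc.push_bijective_of_subsingleton c2.isClosedEmbedding_subtypeVal
    o1.isOpenEmbedding_subtypeVal (by ext x; simp) h2).1
  rw [map_zero, map_zero]
  exact h _ (by omega) _ (Hc.push_deg _ (Hc.conn_deg hi' hj e2 hc))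

namespace CI

variable {M m κ B : Type} [NormedAddCommGroup M] [NormedSpace ℂ M] [FiniteDimensional ℂ M]
  [Fintype m] [Fintype κ] (S : CI M m κ) [TopologicalSpace B]

theorem map_inc_mem (u : M) (x : H (PV (⊤ : Submodule ℂ (m → ℂ)))) :
    H.map (S.inc u) x ∈ amb (S.h u) := by
  rw [← S.map_inc]
  refine map_amb _ (Submodule.span_mono ?_ ((isBasis_PV ⊤ rfl).span Submodule.mem_top))
  rintro _ ⟨j, rfl⟩
  exact ⟨j, rfl⟩

/-- the complement of the family -/
def Om (γ : B → M) : Set (B × PV (⊤ : Submodule ℂ (m → ℂ))) := {p | p.2.1 ∉ S.X (γ p.1)}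

theorem isOpen_Om {γ : B → M} (hγ : Continuous γ) : IsOpen (S.Om γ) :=
  (S.isClosed_mem (hγ.comp continuous_fst) (by fun_prop)).isOpen_compl

theorem range_incl_compl (γ : B → M) : range (Subtype.val : S.Om γ → _) = (range (S.incl γ))ᶜ := by
  rw [range_incl, Subtype.range_coe]
  rfl

theorem fib_mem_of_low [MetrizableSpace B] [CompactSpace B] {γ : B → M} (hγ : Continuous γ)
    {q k : ℤ} (h : Low (S.Om γ) q) (hk : k + 1 < q) {y : H (S.XX γ)} (hy : H.IsDeg k y) (b : B) :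
    H.map (S.fib γ b) y ∈ amb (S.h (γ b)) := by
  obtain ⟨x, -, rfl⟩ := surj_of_low (S.isClosedEmbedding_incl hγ)
    (S.isOpen_Om hγ).isOpenEmbedding_subtypeVal (S.range_incl_compl γ) h hk hy
  rw [H.map_map, show (S.incl γ).comp (S.fib γ b) =
    (ContinuousMap.prodMk (.const _ b) (.id _)).comp (S.inc (γ b)) from rfl, ← H.map_map]
  exact S.map_inc_mem _ _

theorem low_Om [MetrizableSpace B] [LocallyCompactSpace B] [SecondCountableTopology B] {γ : B → M}
    (hγ : Continuous γ) {q : ℤ} (h : Low {p : B × (m → ℂ) | S.ev (γ p.1) p.2 ≠ 0} q) :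
    Low (S.Om γ) (q - 1) := by
  have := (S.isOpen_Om hγ).locallyCompactSpace
  have h0 : ∀ p : {p : B × (m → ℂ) | S.ev (γ p.1) p.2 ≠ 0}, p.1.2 ≠ 0 := fun p h =>
    p.2 (by rw [h, ev_zero])
  have hc : Continuous fun p : {p : B × (m → ℂ) | S.ev (γ p.1) p.2 ≠ 0} => prj p.1.2 :=
    continuous_iff_continuousAt.2 fun p => continuousAt_prj (by fun_prop) (h0 p)
  let j : {p : B × (m → ℂ) | S.ev (γ p.1) p.2 ≠ 0} → S.Om γ × (m → ℂ) := fun p =>
    (⟨(p.1.1, ⟨prj p.1.2, prj_mem (h0 p)⟩), mt (S.prj_mem_X (h0 p)).1 p.2⟩, p.1.2)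
  have hj : Continuous j :=
    ((continuous_subtype_val.fst.prodMk (hc.subtype_mk _)).subtype_mk _).prodMk
      continuous_subtype_val.snd
  refine low_quot (g := fun p : S.Om γ => p.1.2.1) (by fun_prop) (fun p => p.1.2.2) (j := j)
    (isEmbedding_of_left (ψ := fun w => (w.1.1.1, w.2)) IsEmbedding.subtypeVal hj
      (fun _ => by fun_prop) fun _ => rfl) (fun w => ?_) h
  refine ⟨by rintro ⟨p, rfl⟩; exact ⟨prj_self (h0 p), h0 p⟩, fun h => ?_⟩
  have e := PV.eq_prj w.1.1.2.2 h.1 h.2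
  exact ⟨⟨(w.1.1.1, w.2), fun h' => w.1.2 (e ▸ (S.prj_mem_X h.2).2 h')⟩,
    Prod.ext (Subtype.ext (Prod.ext rfl (Subtype.ext e.symm))) rfl⟩

theorem low_compl {T : Type} [NormedAddCommGroup T] [NormedSpace ℂ T] [FiniteDimensional ℂ T]
    {γ : T → M} (hγ : ContDiff ℂ ∞ γ) {q : ℕ}
    (hq : q + Fintype.card κ ≤ finrank ℂ T + Fintype.card m) : Low (S.Om γ) q := by
  have h1 : ContDiff ℂ ∞ fun p : T × (m → ℂ) => S.ev (γ p.1) p.2 :=
    ContDiff.comp (g := fun p : M × (m → ℂ) => S.ev p.1 p.2)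
      (f := fun p : T × (m → ℂ) => (γ p.1, p.2))
      S.contDiff_ev ((hγ.comp contDiff_fst).prodMk contDiff_snd)
  have := FiniteDimensional.proper ℂ T
  simpa using S.low_Om hγ.continuous (low_ne_zero h1 (q := q + 1) (by simp; omega))

theorem low_sphere {T : Type} [NormedAddCommGroup T] [NormedSpace ℂ T] [FiniteDimensional ℂ T]
    (ℓ : T →L[ℂ] M) {q : ℤ} (h1 : Low (S.Om ℓ) q) :
    Low (S.Om fun s : Metric.sphere (0 : T) 1 => ℓ s) (q - 1) := by
  have := FiniteDimensional.proper ℂ T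
  have := (S.isOpen_Om ℓ.continuous).locallyCompactSpace
  have h4 : ∀ (t : ℝ) (u : T) A, A ∉ S.X (ℓ u) → A ∉ S.X (ℓ (Real.exp t • u)) :=
    fun t u A h ⟨x, a1, a2, a3⟩ => h ⟨x, a1, by
      rw [← Complex.coe_smul, map_smul, ev_smul] at a2
      exact (smul_eq_zero.1 a2).resolve_left (by simp), a3⟩
  have h5 : ∀ p : S.Om ℓ, p.1.1 ≠ 0 := fun p h => p.2 (S.mem_X.2 ⟨p.1.2.2, fun e => by
    rw [h, map_zero, ← zero_smul ℂ (0 : M), ev_smul, zero_smul]⟩)
  let Φ : ℝ → S.Om ℓ → S.Om ℓ := fun t p => ⟨(Real.exp t • p.1.1, p.1.2), h4 t _ _ p.2⟩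
  let i : S.Om (fun s : Metric.sphere (0 : T) 1 => ℓ s) → S.Om ℓ := fun p => ⟨(p.1.1, p.1.2), p.2⟩
  refine low_slice Φ (Continuous.subtype_mk (by fun_prop) _)
    (fun p => Subtype.ext (Prod.ext (by simp [Φ]) rfl))
    (fun t p => Subtype.ext (Prod.ext (by simp [Φ, smul_smul, ← Real.exp_add]) rfl))
    (f := fun p => Real.log ‖p.1.1‖)
    (Continuous.log (by fun_prop) fun p => norm_ne_zero_iff.2 (h5 p)) (fun t p => ?_) (i := i)
    (IsEmbedding.subtypeVal.of_comp_iff.1
      ((IsEmbedding.subtypeVal.prodMap IsEmbedding.id).comp IsEmbedding.subtypeVal))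
    (fun p => ⟨?_, fun h => ?_⟩) h1
  · simp only [Φ, norm_smul, Real.norm_eq_abs, Real.abs_exp]
    rw [Real.log_mul (Real.exp_ne_zero t) (norm_ne_zero_iff.2 (h5 p)), Real.log_exp, add_comm]
  · rintro ⟨p, rfl⟩
    simp [i]
  · have := Real.eq_one_of_pos_of_log_eq_zero (norm_pos_iff.2 (h5 p)) h
    exact ⟨⟨(⟨p.1.1, by simpa using this⟩, p.1.2), p.2⟩, rfl⟩

variable {n : ℕ} (hn : Fintype.card m = n + Fintype.card κ + 1)
include hn

/-- **The weak Lefschetz theorem.** -/
theorem wl (u : M) (k : ℤ) (hk : k < n) (y : H (S.X u)) (hy : H.IsDeg k y) : y ∈ amb (S.h u) := by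
  have h1 := S.low_compl (T := PUnit) (γ := fun _ => u) contDiff_const (q := n + 1) (by omega)
  let j : S.Om (fun _ : PUnit => u) → PV (⊤ : Submodule ℂ (m → ℂ)) := fun p => p.1.2
  have e : range j = (range (S.inc u))ᶜ := by
    rw [range_inc]
    exact Set.ext fun A => ⟨by rintro ⟨p, rfl⟩; exact p.2, fun h => ⟨⟨((), A), h⟩, rfl⟩⟩
  obtain ⟨x, -, rfl⟩ := surj_of_low (S.isClosedEmbedding_inc u) (j := j)
    ⟨(Homeomorph.punitProd _).isEmbedding.comp IsEmbedding.subtypeVal,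
      e ▸ (S.isClosedEmbedding_inc u).isClosed_range.isOpen_compl⟩ e h1 (by push_cast; omega) hy
  exact S.map_inc_mem u x

theorem exists_lef (h1 : 1 ≤ n) {u : M} {β : BM (S.X u)} (hβ : Orb.Ori (2 * n) β) :
    ∃ (ι : H (S.X u) →ₗ[ℂ] ℂ) (c : ℂ), Lef n (S.h u) ι ∧ c ≠ 0 ∧ ∀ a, β a = c * ι (toH a) :=
  haveI : Nice (S.X u) := ⟨inferInstance, inferInstance, inferInstance⟩
  Mono.exists_lef h1 (S.h_deg u) (S.h_pow_ne_zero hn u) (S.wl hn u) hβ

/-- **The weak Lefschetz theorem** for the family over the unit sphere of a pencil. -/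
theorem wl_sphere {T : Type} [NormedAddCommGroup T] [NormedSpace ℂ T] [FiniteDimensional ℂ T]
    (hT : 2 ≤ finrank ℂ T) (ℓ : T →L[ℂ] M) {y : H (S.XX fun s : Metric.sphere (0 : T) 1 => ℓ s)}
    (hy : H.IsDeg n y) (b : Metric.sphere (0 : T) 1) : H.map (S.fib _ b) y ∈ amb (S.h (ℓ b)) := by
  have := FiniteDimensional.proper ℂ T
  have hγ : Continuous fun s : Metric.sphere (0 : T) 1 => ℓ s := by fun_prop
  exact S.fib_mem_of_low hγ (S.low_sphere ℓ (S.low_compl ℓ.contDiff (q := n + 3) (by omega)))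
    (by push_cast; omega) hy b

theorem lh_injective [MetrizableSpace B] [CompactSpace B] {γ : B → M} (hγ : Continuous γ) {r : ℕ}
    (hr : r ≤ n + 1) : Injective (H.lh (S.pr γ) fun j : Fin r => S.hh γ ^ (j : ℕ)) := by
  refine (injective_iff_map_eq_zero _).2 fun a ha => ?_
  let g : B × PV (⊤ : Submodule ℂ (m → ℂ)) → Matrix m m ℂ := fun p => p.2.1
  have hg : Continuous g := by fun_prop
  have hP : ∀ p, g p ∈ PV ⊤ := fun p => p.2.2
  obtain ⟨t, h1, h2, c, h3, h4⟩ := S.exists_supp (hγ.comp continuous_fst) hg hP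
  have h5 := mul_eq_zero_of_supp (S.isClosedEmbedding_incl hγ) h1 (S.range_incl γ ▸ h2)
    (x := H.lh ContinuousMap.fst (fun j : Fin r => xc g ^ (j : ℕ)) a) (by
      rw [← ha, H.lh_apply, H.lh_apply, map_sum]
      refine Finset.sum_congr rfl fun j _ => ?_
      rw [map_mul, map_pow, map_xc _ hg hP, H.map_map]
      rfl)
  rw [h4, mul_smul_comm, smul_eq_zero, or_iff_right h3] at h5
  let e : Fin r → Fin (n + Fintype.card κ + 1) := fun j => ⟨j + Fintype.card κ, by omega⟩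
  have he : Injective e := fun i j h => Fin.ext (by simpa [e] using h)
  have h6 := (lh_bijective (p := (ContinuousMap.fst : C(B × PV (⊤ : Submodule ℂ (m → ℂ)), B)))
    (i := fun b => ContinuousMap.prodMk (.const _ b) (.id _)) isPr_fst (fun b => isFib_fst b)
    (T := fun j : Fin (n + Fintype.card κ + 1) => xc g ^ (j : ℕ))
    (fun j => isDeg_pow (xc_deg g) j) (fun j => by positivity) fun b => by
      simp only [map_pow, map_xc _ hg hP]
      exact isBasis_PV ⊤ (by simp [hn])).1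
  apply Finsupp.mapDomain_injective he
  apply h6
  rw [Finsupp.mapDomain_zero, map_zero, ← h5, H.lh_apply _ _ a, Finset.sum_mul, Finsupp.mapDomain,
    Finsupp.sum, map_sum]
  exact Finset.sum_congr rfl fun j _ => by rw [H.lh_single, mul_assoc, ← pow_add]

end CI

end Vale.Agent.P269.Mono
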