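import Vale.Agent.P269.Mono.Fam0
import Vale.Agent.P269.Mono.Ehr
import Vale.Agent.P269.Mono.Disc

/-!
# P269, monodromy: topological triviality of the outer part of a family (helper23)
-/

namespace Vale.Agent.P269.Mono

open Set Topology Filter Module Function TopologicalSpace Vale.Agent.P291Z Vale.Agent.P291Z.Fl
open scoped ContDiff

namespace Triv

set_option linter.unusedSectionVars false

theorem exists_diag {ι : Type} [Fintype ι] (a : ι → ℂ) (ha : ∀ k, a k ≠ 0) :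
    ∃ g : (ι → ℂ) ≃L[ℝ] (ι → ℂ), ∀ x k, g x k = a k * x k :=
  ⟨LinearEquiv.toContinuousLinearEquiv
    { toFun := fun x k => a k * x k
      invFun := fun x k => (a k)⁻¹ * x k
      map_add' := fun x y => funext fun k => mul_add _ _ _
      map_smul' := fun c x => funext fun k => by simp [mul_left_comm]
      left_inv := fun x => funext fun k => inv_mul_cancel_left₀ (ha k) _
      right_inv := fun x => funext fun k => mul_inv_cancel_left₀ (ha k) _ }, fun _ _ => rfl⟩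

theorem exists_sgn {c : ℝ} (hc : c ≠ 0) : ∃ g : ℝ ≃L[ℝ] ℝ, ∀ x, g x = c * x :=
  ⟨LinearEquiv.toContinuousLinearEquiv
    { toFun := fun x => c * x
      invFun := fun x => c⁻¹ * x
      map_add' := fun x y => mul_add _ _ _
      map_smul' := fun a x => by simp [mul_left_comm]
      left_inv := fun x => inv_mul_cancel_left₀ hc _
      right_inv := fun x => mul_inv_cancel_left₀ hc _ }, fun _ => rfl⟩

variable {m : Type} [Fintype m]

theorem real_smul (t : ℝ) (x : m → ℂ) : t • x = (t : ℂ) • x := funext fun i => by simp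

theorem re_ip_comm (x y : m → ℂ) : (ip x y).re = (ip y x).re := by
  rw [← star_ip y x]; simp

theorem exists_b0 : ∃ b : (m → ℂ) →L[ℝ] (m → ℂ) →L[ℝ] ℝ, ∀ x y, b x y = (ip x y).re :=
  ⟨LinearMap.toContinuousLinearMap
    ((LinearMap.toContinuousLinearMap : ((m → ℂ) →ₗ[ℝ] ℝ) ≃ₗ[ℝ] ((m → ℂ) →L[ℝ] ℝ)).toLinearMap ∘ₗ
      LinearMap.mk₂ ℝ (fun x y => (ip x y).re)
        (fun x x' y => by
          rw [re_ip_comm, ip_add, Complex.add_re, re_ip_comm y x, re_ip_comm y x'])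
        (fun c x y => by rw [re_ip_comm, real_smul, ip_smul, re_ip_comm x y]; simp)
        (fun x y y' => by rw [ip_add, Complex.add_re])
        (fun c x y => by rw [real_smul, ip_smul]; simp)), fun _ _ => rfl⟩

theorem ip_eq_one {x : m → ℂ} (h : (ip x x).re = 1) : ip x x = 1 := by
  rw [ip_self] at h ⊢
  rw [Complex.ofReal_re] at h
  rw [h, Complex.ofReal_one]

theorem exists_b : ∃ b : ((m → ℂ) × ℝ) →L[ℝ] ((m → ℂ) × ℝ) →L[ℝ] ℝ,
    (∀ v w, b v w = (ip v.1 w.1).re + v.2 * w.2) ∧ ∀ v, b v v = 0 → v = 0 := by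
  obtain ⟨b0, h0⟩ := exists_b0 (m := m)
  refine ⟨b0.bilinearComp (ContinuousLinearMap.fst ℝ _ _) (ContinuousLinearMap.fst ℝ _ _) +
    (ContinuousLinearMap.mul ℝ ℝ).bilinearComp (ContinuousLinearMap.snd ℝ _ _)
      (ContinuousLinearMap.snd ℝ _ _), fun v w => by simp [h0], fun v hv => ?_⟩
  have h1 : (ip v.1 v.1).re + v.2 * v.2 = 0 := by simpa [h0] using hv
  have h2 : 0 ≤ (ip v.1 v.1).re := by rw [ip_self, Complex.ofReal_re]; positivity
  have h3 : v.2 = 0 := by nlinarith [mul_self_nonneg v.2]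
  refine Prod.ext ?_ h3
  by_contra h4
  refine ip_self_ne h4 ?_
  have h5 : (ip v.1 v.1).re = 0 := by simpa [h3] using h1
  rw [ip_self] at h5 ⊢
  rw [Complex.ofReal_re] at h5
  rw [h5, Complex.ofReal_zero]

variable {M κ : Type} [NormedAddCommGroup M] [NormedSpace ℂ M] [FiniteDimensional ℂ M]
  [Fintype κ] (S : CI M m κ)

/-- the equations of the double of the outer part -/
noncomputable def GG (ρ : M × (m → ℂ) → ℝ) (z : M × (m → ℂ) × ℝ) : (κ → ℂ) × ℝ × ℝ :=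
  (S.ev z.1 z.2.1, (ip z.2.1 z.2.1).re - 1, ρ (z.1, z.2.1) - z.2.2 ^ 2)

/-- the domain -/
def OO (m : Type) (N : Set M) : Set (M × (m → ℂ) × ℝ) := {z | z.1 ∈ N ∧ z.2.1 ≠ 0}

variable {S} {N : Set M} {ρ : M × (m → ℂ) → ℝ}

theorem mem_zer {u : M} {e : (m → ℂ) × ℝ} : (u, e) ∈ zer (GG S ρ) (OO m N) ↔
    u ∈ N ∧ S.ev u e.1 = 0 ∧ ip e.1 e.1 = 1 ∧ ρ (u, e.1) = e.2 ^ 2 := by
  simp only [zer, OO, GG, mem_ofPred_eq, Prod.mk_eq_zero, sub_eq_zero]
  exact ⟨fun h => ⟨h.1.1, h.2.1, ip_eq_one h.2.2.1, h.2.2.2⟩, fun h =>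
    ⟨⟨h.1, ne_zero_of_unit h.2.2.1⟩, h.2.1, by rw [h.2.2.1, Complex.one_re], h.2.2.2⟩⟩

theorem sub (hN : IsOpen N) (hρ : ContDiffOn ℝ ∞ ρ (N ×ˢ {x | x ≠ 0}))
    (hinv : ∀ u ∈ N, ∀ x, x ≠ 0 → ∀ c : ℂ, c ≠ 0 → ρ (u, c • x) = ρ (u, x))
    (hs : ∀ u ∈ N, ∀ x, x ≠ 0 → S.ev u x = 0 → 0 ≤ ρ (u, x) → Surjective (fderiv ℂ (S.ev u) x))
    (hb : ∀ u ∈ N, ∀ x, x ≠ 0 → S.ev u x = 0 → ρ (u, x) = 0 →
      ∃ v, fderiv ℂ (S.ev u) x v = 0 ∧ fderiv ℝ (fun y => ρ (u, y)) x v ≠ 0) :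
    Sub (GG S ρ) (OO m N) N := by
  obtain ⟨b0, h0⟩ := exists_b0 (m := m)
  have hO : IsOpen (OO m N) :=
    (hN.preimage continuous_fst).inter (isOpen_ne_fun continuous_snd.fst continuous_const)
  have hsm : ContDiffOn ℝ ∞ (GG S ρ) (OO m N) := by
    have c1 : ContDiff ℝ ∞ fun z : M × (m → ℂ) × ℝ => (z.1, z.2.1) :=
      contDiff_fst.prodMk contDiff_snd.fst
    refine ContDiffOn.prodMk
      (((S.contDiff_ev (n := ∞)).restrict_scalars ℝ).comp c1).contDiffOn (ContDiffOn.prodMk ?_ ?_)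
    · simp only [← h0]
      exact (((b0.contDiff.comp contDiff_snd.fst).clm_apply contDiff_snd.fst).sub
        contDiff_const).contDiffOn
    · exact (hρ.comp c1.contDiffOn fun z hz => hz).sub (contDiff_snd.snd.pow 2).contDiffOn
  refine ⟨hO, hN, hsm, ?_, fun C hCN hC => ?_⟩
  · rintro ⟨u, x, s⟩ hz -
    obtain ⟨hu, h1, h2, h3⟩ := mem_zer.1 hz
    have hx : x ≠ 0 := ne_zero_of_unit h2
    dsimp only at h1 h2 h3
    set A := (fderiv ℂ (S.ev u) x).restrictScalars ℝ with hA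
    set R := fderiv ℝ (fun y => ρ (u, y)) x with hR
    have d1 : HasFDerivAt (S.ev u) A x := (S.diff_ev u x).hasFDerivAt.restrictScalars ℝ
    have d3 : HasFDerivAt (fun y => ρ (u, y)) R x :=
      (((hρ.contDiffAt ((hN.prod isOpen_ne).mem_nhds (show (u, x) ∈ _ from ⟨hu, hx⟩))).comp x
        (contDiffAt_const.prodMk contDiffAt_id)).differentiableAt (by simp)).hasFDerivAt
    have d2 := (b0.hasFDerivAt (x := x)).clm_apply (hasFDerivAt_id x)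
    have df := hasFDerivAt_fst (𝕜 := ℝ) (p := (x, s))
    have ds := hasFDerivAt_snd (𝕜 := ℝ) (p := (x, s))
    have d4 := (d1.comp (x, s) df).prodMk (((d2.comp (x, s) df).sub_const 1).prodMk
      ((d3.comp (x, s) df).sub (ds.pow 2)))
    have d5 := ((hsm.contDiffAt (hO.mem_nhds hz.1)).differentiableAt (by simp)).hasFDerivAt.comp
      (x, s) (hasFDerivAt_prodMk_right u (x, s))
    have e1 := d5.unique (d4.congr_of_eventuallyEq (Eventually.of_forall fun e => by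
      simp only [comp_apply, GG, h0, id, Pi.sub_apply]))
    have e2 : ∀ v a, dx (GG S ρ) (u, x, s) (v, a) = (A v, 2 * b0 x v, R v - 2 * s * a) := by
      intro v a
      rw [dx, e1]
      simp [h0, re_ip_comm v x, two_mul]
    have hAx : A x = 0 := S.euler h1
    have hRx : R x = 0 := by
      have a1 := HasFDerivAt.comp_hasDerivAt_of_eq (1 : ℝ) d3
        ((hasDerivAt_id (1 : ℝ)).smul_const x) (by simp)
      have a2 : ((fun y => ρ (u, y)) ∘ fun t : ℝ => id t • x) =ᶠ[𝓝 1] fun _ => ρ (u, x) := by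
        filter_upwards [isOpen_ne.mem_nhds (one_ne_zero : (1 : ℝ) ≠ 0)] with t ht
        simp only [comp_apply, id, real_smul]
        exact hinv u hu x hx _ (Complex.ofReal_ne_zero.2 ht)
      simpa using a1.unique ((hasDerivAt_const _ _).congr_of_eventuallyEq a2)
    have hbx : b0 x x = 1 := by rw [h0, h2, Complex.one_re]
    rintro ⟨y1, y2, y3⟩
    have key : ∀ v a, A v = y1 → R v - 2 * s * a = y3 →
        ∃ p, dx (GG S ρ) (u, x, s) p = (y1, y2, y3) := fun v a hv ha =>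
      ⟨(v + (y2 / 2 - b0 x v) • x, a), by
        rw [e2, map_add, map_add, map_add, map_smul, map_smul, map_smul, hAx, hRx, hbx, hv]
        simp only [smul_zero, add_zero, smul_eq_mul, Prod.mk.injEq, true_and]
        exact ⟨by ring, by linarith⟩⟩
    obtain ⟨v, hv⟩ := hs u hu x hx h1 (by rw [h3]; positivity) y1
    by_cases hs0 : s = 0
    · obtain ⟨w, hw1, hw2⟩ := hb u hu x hx h1 (by rw [h3, hs0]; simp)
      have hw3 : A w = 0 := hw1
      refine key (v + ((y3 - R v) / R w) • w) 0 ?_ ?_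
      · rw [map_add, map_smul, hw3, smul_zero, add_zero]; exact hv
      · rw [map_add, map_smul, smul_eq_mul, div_mul_cancel₀ _ hw2]; ring
    · exact key v ((R v - y3) / (2 * s)) hv (by field_simp; ring)
  · have hK := hC.prod (isCompact_unit (m := m))
    obtain ⟨R, hR⟩ := hK.exists_bound_of_continuousOn (hρ.continuousOn.mono
      fun p hp => ⟨hCN hp.1, ne_zero_of_unit hp.2⟩)
    have hT := hC.prod ((isCompact_unit (m := m)).prod (isCompact_Icc (a := -(R + 1)) (b := R + 1)))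
    have hTO : C ×ˢ {u : m → ℂ | ip u u = 1} ×ˢ Icc (-(R + 1)) (R + 1) ⊆ OO m N :=
      fun p hp => ⟨hCN hp.1, ne_zero_of_unit hp.2.1⟩
    have hcl := (hsm.continuousOn.mono hTO).preimage_isClosed_of_isClosed hT.isClosed
      (isClosed_singleton (x := 0))
    convert hT.of_isClosed_subset hcl inter_subset_left using 1
    ext ⟨u, e⟩
    refine ⟨fun h => ⟨⟨h.2, (mem_zer.1 h.1).2.2.1, abs_le.1 ?_⟩, h.1.2⟩,
      fun h => ⟨⟨hTO h.1, h.2⟩, h.1.1⟩⟩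
    have h1 := hR (u, e.1) ⟨h.2, (mem_zer.1 h.1).2.2.1⟩
    rw [(mem_zer.1 h.1).2.2.2, Real.norm_eq_abs, abs_pow] at h1
    change |e.2| ≤ R + 1
    nlinarith [sq_nonneg (|e.2| - 1)]

theorem exists_lift {u : M} (hu : u ∈ N)
    (hinv : ∀ x, x ≠ 0 → ∀ c : ℂ, c ≠ 0 → ρ (u, c • x) = ρ (u, x)) {A : Matrix m m ℂ}
    (hA : A ∈ S.Out ρ u) : ∃ e, (u, e) ∈ zer (GG S ρ) (OO m N) ∧ prj e.1 = A := by
  obtain ⟨x, h0, h1, h2, rfl⟩ := hA
  obtain ⟨c, hc, h3⟩ := exists_unit h0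
  exact ⟨(c • x, Real.sqrt (ρ (u, x))), mem_zer.2 ⟨hu, (S.ev_smul_eq_zero hc).2 h1, h3, by
    rw [Real.sq_sqrt h2]; exact hinv x h0 c hc⟩, prj_smul hc x⟩

theorem mem_Out {u : M} {e : (m → ℂ) × ℝ} (h : (u, e) ∈ zer (GG S ρ) (OO m N)) :
    prj e.1 ∈ S.Out ρ u :=
  ⟨e.1, h.1.2, (mem_zer.1 h).2.1, by rw [(mem_zer.1 h).2.2.2]; positivity, rfl⟩

theorem mem_Bd {u : M} (hinv : ∀ x, x ≠ 0 → ∀ c : ℂ, c ≠ 0 → ρ (u, c • x) = ρ (u, x))
    {e : (m → ℂ) × ℝ} (h : (u, e) ∈ zer (GG S ρ) (OO m N)) : prj e.1 ∈ S.Bd ρ u ↔ e.2 = 0 := by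
  have h3 := (mem_zer.1 h).2.2.2
  refine ⟨?_, fun h0 => ⟨e.1, h.1.2, (mem_zer.1 h).2.1, by rw [h3, h0]; simp, rfl⟩⟩
  rintro ⟨x, h0, -, h2, h4⟩
  obtain ⟨c, hc⟩ := exists_smul_of_prj h.1.2 h4.symm
  have hc0 : c ≠ 0 := by
    rintro rfl
    exact h.1.2 (by rw [zero_smul] at hc; exact hc)
  change e.1 = c • x at hc
  rw [hc, hinv x h0 c hc0, h2] at h3
  exact pow_eq_zero_iff two_ne_zero |>.1 h3.symm

end Triv

open Triv

variable {M m κ : Type} [NormedAddCommGroup M] [NormedSpace ℂ M] [FiniteDimensional ℂ M]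
  [Fintype m] [Fintype κ] (S : CI M m κ)

theorem CI.isCompact_Out {ρ : M × (m → ℂ) → ℝ} {u : M}
    (hρ : ContinuousOn (fun x => ρ (u, x)) {x | x ≠ 0})
    (hinv : ∀ x, x ≠ 0 → ∀ c : ℂ, c ≠ 0 → ρ (u, c • x) = ρ (u, x)) : IsCompact (S.Out ρ u) := by
  have h1 : IsCompact ({x : m → ℂ | ip x x = 1} ∩ {x | S.ev u x = 0}) :=
    isCompact_unit.inter_right (isClosed_eq (S.diff_ev u).continuous continuous_const)
  have h2 := h1.of_isClosed_subset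
    ((hρ.mono fun x hx => ne_zero_of_unit hx.1).preimage_isClosed_of_isClosed
      h1.isClosed (isClosed_Ici (a := (0 : ℝ)))) inter_subset_left
  convert h2.image_of_continuousOn (f := prj) fun x hx =>
    (continuousAt_prj continuousAt_id (ne_zero_of_unit hx.1.1)).continuousWithinAt using 1
  ext A
  constructor
  · rintro ⟨x, h0, h3, h4, rfl⟩
    obtain ⟨c, hc, h5⟩ := exists_unit h0
    exact ⟨c • x, ⟨⟨h5, (S.ev_smul_eq_zero hc).2 h3⟩, h4.trans_eq (hinv x h0 c hc).symm⟩, prj_smul hc x⟩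
  · rintro ⟨x, ⟨⟨h3, h4⟩, h5⟩, rfl⟩
    exact ⟨x, ne_zero_of_unit h3, h4, h5, rfl⟩

theorem CI.exists_triv {N : Set M} (hN : IsOpen N) {ρ : M × (m → ℂ) → ℝ}
    (hρ : ContDiffOn ℝ ∞ ρ (N ×ˢ {x | x ≠ 0}))
    (hinv : ∀ u ∈ N, ∀ x, x ≠ 0 → ∀ c : ℂ, c ≠ 0 → ρ (u, c • x) = ρ (u, x))
    (hs : ∀ u ∈ N, ∀ x, x ≠ 0 → S.ev u x = 0 → 0 ≤ ρ (u, x) → Surjective (fderiv ℂ (S.ev u) x))
    (hb : ∀ u ∈ N, ∀ x, x ≠ 0 → S.ev u x = 0 → ρ (u, x) = 0 →
      ∃ v, fderiv ℂ (S.ev u) x v = 0 ∧ fderiv ℝ (fun y => ρ (u, y)) x v ≠ 0)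
    {B : Type} [TopologicalSpace B] [MetrizableSpace B] [CompactSpace B] {γ : B → M}
    (hγ : Continuous γ) {u₀ : M} (hu₀ : u₀ ∈ N) (hseg : ∀ b, segment ℝ u₀ (γ b) ⊆ N) :
    ∃ Ψ : B × S.Out ρ u₀ → S.XX γ, Continuous Ψ ∧ Injective Ψ ∧ (∀ w, (Ψ w).1.1 = w.1) ∧
      (∀ e, e ∈ range Ψ ↔ e.1.2 ∈ S.Out ρ (γ e.1.1)) ∧
      (∀ w, (Ψ w).1.2 ∈ S.Bd ρ (γ w.1) ↔ w.2.1 ∈ S.Bd ρ u₀) ∧
      ∀ w, γ w.1 = u₀ → (Ψ w).1.2 = w.2.1 := by
  have hS := Triv.sub hN hρ hinv hs hb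
  obtain ⟨b, hb1, hb2⟩ := exists_b (m := m)
  obtain ⟨Φ, h1, h2, h3, h4⟩ := hS.exists_transport hb2
  have heq : ∀ (a : ℂ) (c : ℝ), star a * a = 1 → c * c = 1 → ∀ u v e, segment ℝ u v ⊆ N →
      (u, e) ∈ zer (GG S ρ) (OO m N) →
      Φ u v (a • e.1, c * e.2) = (a • (Φ u v e).1, c * (Φ u v e).2) := by
    intro a c ha hc u v e hsg he
    have ha0 : a ≠ 0 := right_ne_zero_of_mul_eq_one ha
    obtain ⟨g1, hg1⟩ := exists_diag (fun _ : m => a) fun _ => ha0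
    obtain ⟨g2, hg2⟩ := exists_sgn (right_ne_zero_of_mul_eq_one hc)
    obtain ⟨g3, hg3⟩ := exists_diag (fun k => a ^ S.d k) fun k => pow_ne_zero _ ha0
    have e1 : ∀ p : (m → ℂ) × ℝ, g1.prodCongr g2 p = (a • p.1, c * p.2) := fun p =>
      Prod.ext (funext fun i => hg1 _ i) (hg2 _)
    have e2 : ∀ x y : m → ℂ, ip (a • x) (a • y) = ip x y := fun x y => by
      rw [smul_ip, ip_smul, ← mul_assoc, ha, one_mul]
    rw [← e1, ← e1]
    refine h4 _ (g3.prodCongr (ContinuousLinearEquiv.refl ℝ (ℝ × ℝ))) (fun v w => ?_)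
      (fun z hz => ?_) (fun z hz => ?_) u v e hsg he
    · rw [hb1, hb1, e1, e1, e2]
      linear_combination (v.2 * w.2) * hc
    · rw [e1]
      exact ⟨hz.1, smul_ne_zero ha0 hz.2⟩
    · rw [e1]
      refine Prod.ext (funext fun k => (S.ev_hom _ _ _ k).trans (hg3 _ k).symm) ?_
      change (_, _) = (_, _)
      dsimp only
      rw [e2, hinv _ hz.1 _ hz.2 a ha0, mul_pow, sq c, hc, one_mul]
  have hwd : ∀ u v e e', segment ℝ u v ⊆ N → (u, e) ∈ zer (GG S ρ) (OO m N) →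
      (u, e') ∈ zer (GG S ρ) (OO m N) → prj e.1 = prj e'.1 →
      prj (Φ u v e).1 = prj (Φ u v e').1 := by
    intro u v e e' hsg he he' hp
    obtain ⟨a, ha⟩ := exists_smul_of_prj he'.1.2 hp
    change e'.1 = a • e.1 at ha
    obtain ⟨hu, -, a1, a2⟩ := mem_zer.1 he
    obtain ⟨-, -, a3, a4⟩ := mem_zer.1 he'
    have ha1 : star a * a = 1 := by
      rwa [ha, smul_ip, ip_smul, a1, mul_one] at a3
    have ha0 : a ≠ 0 := right_ne_zero_of_mul_eq_one ha1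
    rw [ha, hinv u hu _ he.1.2 a ha0, a2] at a4
    obtain ⟨c, hc, hc'⟩ : ∃ c : ℝ, c * c = 1 ∧ e'.2 = c * e.2 := by
      rcases sq_eq_sq_iff_eq_or_eq_neg.1 a4.symm with h | h
      exacts [⟨1, by simp, by simp [h]⟩, ⟨-1, by simp, by simp [h]⟩]
    rw [show e' = (a • e.1, c * e.2) from Prod.ext ha hc', heq a c ha1 hc u v e hsg he,
      prj_smul ha0]
  have hz : ∀ u v e, segment ℝ u v ⊆ N → (u, e) ∈ zer (GG S ρ) (OO m N) → e.2 = 0 →
      (Φ u v e).2 = 0 := by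
    intro u v e hsg he h0
    have := heq 1 (-1) (by simp) (by simp) u v e hsg he
    rw [show ((1 : ℂ) • e.1, -1 * e.2) = e from Prod.ext (one_smul _ _) (by simp [h0])] at this
    have h5 : (Φ u v e).2 = -1 * (Φ u v e).2 := congrArg Prod.snd this
    linarith
  have hsg' : ∀ p, segment ℝ (γ p) u₀ ⊆ N := fun p => by rw [segment_symm]; exact hseg p
  have hγN : ∀ p, γ p ∈ N := fun p => hseg p (right_mem_segment ℝ _ _)
  choose σ hσ1 hσ2 using fun A : S.Out ρ u₀ => exists_lift hu₀ (hinv u₀ hu₀) A.2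
  have hX : ∀ p e, (u₀, e) ∈ zer (GG S ρ) (OO m N) → (p, prj (Φ u₀ (γ p) e).1) ∈ S.XX γ :=
    fun p e he => ⟨_, (h1 _ _ _ (hseg p) he).1.1.2, (mem_zer.1 (h1 _ _ _ (hseg p) he).1).2.1, rfl⟩
  refine ⟨fun w => ⟨(w.1, prj (Φ u₀ (γ w.1) (σ w.2)).1), hX _ _ (hσ1 _)⟩, ?_, ?_, fun _ => rfl,
    fun e => ⟨?_, fun he => ?_⟩, fun w => ?_, fun w hw => ?_⟩
  · let Z : Set ((m → ℂ) × ℝ) := {e | (u₀, e) ∈ zer (GG S ρ) (OO m N)}
    have hZ : IsCompact Z := by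
      have e0 : Z = Prod.snd '' (zer (GG S ρ) (OO m N) ∩ Prod.fst ⁻¹' {u₀}) := by
        ext e
        refine ⟨fun he => ⟨(u₀, e), ⟨he, rfl⟩, rfl⟩, ?_⟩
        rintro ⟨⟨u, e⟩, ⟨he, rfl⟩, rfl⟩
        exact he
      rw [e0]
      exact (hS.prop {u₀} (singleton_subset_iff.2 hu₀) isCompact_singleton).image continuous_snd
    have : CompactSpace Z := isCompact_iff_compactSpace.1 hZ
    let π : B × Z → B × S.Out ρ u₀ := fun p => (p.1, ⟨prj p.2.1.1, mem_Out p.2.2⟩)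
    have hπ : Continuous π := continuous_fst.prodMk (Continuous.subtype_mk
      (continuous_iff_continuousAt.2 fun p => continuousAt_prj
        (f := fun p : B × Z => p.2.1.1) (by fun_prop) p.2.2.1.2) _)
    have hsur : Surjective π := fun w => ⟨(w.1, ⟨σ w.2, hσ1 _⟩), Prod.ext rfl (Subtype.ext (hσ2 _))⟩
    refine (IsQuotientMap.of_surjective_continuous hsur hπ).continuous_iff.2 ?_
    have hc : Continuous fun p : B × Z => Φ u₀ (γ p.1) p.2.1 :=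
      h3.comp_continuous (f := fun p : B × Z => (u₀, γ p.1, p.2.1)) (by fun_prop)
        fun p => ⟨hseg p.1, p.2.2⟩
    refine Continuous.subtype_mk (continuous_fst.prodMk ?_) _
    refine (continuous_iff_continuousAt.2 fun p => continuousAt_prj
      (f := fun p : B × Z => (Φ u₀ (γ p.1) p.2.1).1) hc.fst.continuousAt
      (h1 _ _ _ (hseg p.1) p.2.2).1.1.2).congr fun p => ?_
    exact hwd _ _ _ _ (hseg p.1) p.2.2 (hσ1 _) (hσ2 (π p).2).symm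
  · rintro ⟨p, A⟩ ⟨p', A'⟩ h
    obtain rfl : p = p' := congrArg (fun e : S.XX γ => e.1.1) h
    have h5 : prj (Φ u₀ (γ p) (σ A)).1 = prj (Φ u₀ (γ p) (σ A')).1 :=
      congrArg (fun e : S.XX γ => e.1.2) h
    have h6 := hwd _ _ _ _ (hsg' p) (h1 _ _ _ (hseg p) (hσ1 A)).1 (h1 _ _ _ (hseg p) (hσ1 A')).1 h5
    rw [(h1 _ _ _ (hseg p) (hσ1 A)).2, (h1 _ _ _ (hseg p) (hσ1 A')).2, hσ2, hσ2] at h6
    exact Prod.ext rfl (Subtype.ext h6)
  · rintro ⟨w, rfl⟩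
    exact mem_Out (h1 _ _ _ (hseg w.1) (hσ1 _)).1
  · obtain ⟨e', h5, h6⟩ := exists_lift (hγN e.1.1) (hinv _ (hγN _)) he
    obtain ⟨h7, h8⟩ := h1 _ _ _ (hsg' e.1.1) h5
    refine ⟨(e.1.1, ⟨_, mem_Out h7⟩), Subtype.ext (Prod.ext rfl ?_)⟩
    have := hwd _ _ _ _ (hseg e.1.1) (hσ1 ⟨_, mem_Out h7⟩) h7 (hσ2 _)
    rw [h8, h6] at this
    exact this
  · obtain ⟨h5, h6⟩ := h1 _ _ _ (hseg w.1) (hσ1 w.2)
    rw [← hσ2 w.2, mem_Bd (hinv _ hu₀) (hσ1 w.2)]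
    refine (mem_Bd (hinv _ (hγN _)) h5).trans ⟨fun h => ?_, hz _ _ _ (hseg w.1) (hσ1 _)⟩
    rw [← h6]
    exact hz _ _ _ (hsg' w.1) h5 h
  · change prj (Φ u₀ (γ w.1) (σ w.2)).1 = _
    rw [hw, h2 u₀ hu₀ _ (hσ1 _), hσ2]

end Vale.Agent.P269.Mono
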