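import Vale.Agent.P269.Mono.Sys
import Vale.Agent.P269.Mono.Disc
import Vale.Agent.P269.Mono.Triv

/-!
# P269, monodromy: transports in the universal family (helper23)
-/

namespace Vale.Agent.P269.Mono

open Set Topology Filter Module Function TopologicalSpace Vale.Agent.P291Z Vale.Agent.P291Z.Fl

variable {M m κ : Type} [NormedAddCommGroup M] [NormedSpace ℂ M] [FiniteDimensional ℂ M]
  [Fintype m] [Fintype κ] (S : CI M m κ)

/-- the family over a compact convex set of smooth members is trivial -/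
theorem CI.exists_homeo {C : Set M} (hC : IsCompact C) (hc : Convex ℝ C) (hU : C ⊆ S.U) (u : M)
    (hu : u ∈ C) : ∃ e : (C × S.X u) ≃ₜ S.XS C, (∀ w, (e w).1.1 = w.1) ∧
      ∀ A, e (⟨u, hu⟩, A) = S.rs C u hu A := by
  have hO : ∀ v, S.Out (fun _ => 1) v = S.X v := fun v => Set.ext fun A =>
    ⟨fun ⟨x, h1, h2, _, h3⟩ => ⟨x, h1, h2, h3⟩, fun ⟨x, h1, h2, h3⟩ => ⟨x, h1, h2, zero_le_one, h3⟩⟩
  have : CompactSpace C := isCompact_iff_compactSpace.1 hC
  have key := S.exists_triv S.isOpen_U' (ρ := fun _ => 1) contDiffOn_const (fun _ _ _ _ _ _ => rfl)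
    (fun v hv x hx h0 _ => not_not.1 fun h => hv x ⟨hx, h0, h⟩)
    (fun _ _ _ _ _ h => absurd h one_ne_zero) (B := C) continuous_subtype_val (hU hu)
    fun b => (hc.segment_subset hu b.2).trans hU
  rw [hO u] at key
  obtain ⟨Ψ, h1, h2, h3, h4, -, h5⟩ := key
  refine ⟨Continuous.homeoOfEquivCompactToT2 (f := Equiv.ofBijective Ψ ⟨h2, fun e => ?_⟩) h1, h3,
    fun A => Subtype.ext (Prod.ext (h3 _) (h5 _ rfl))⟩
  exact (h4 e).2 ((hO _).symm ▸ e.2)

theorem CI.bij_rs {C : Set M} (hC : IsCompact C) (hc : Convex ℝ C) (hU : C ⊆ S.U) (u : M)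
    (hu : u ∈ C) : Bijective (H.map (S.rs C u hu)) := by
  obtain ⟨e, -, he⟩ := S.exists_homeo hC hc hU u hu
  have : CompactSpace C := isCompact_iff_compactSpace.1 hC
  let i : C(S.X u, C × S.X u) := ⟨fun A => (⟨u, hu⟩, A), by fun_prop⟩
  have hi : Bijective (H.map i) := H.map_bijective_of_retract i ContinuousMap.snd (fun _ => rfl)
    ⟨⟨⟨fun p => (⟨u + (p.1 : ℝ) • (p.2.1.1 - u), hc.add_smul_sub_mem hu p.2.1.2 p.1.2⟩, p.2.2),
      by fun_prop⟩, fun p => by simp [i], fun p => by simp⟩⟩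
  have e1 : ⇑(H.map (S.rs C u hu)) = H.map i ∘ H.map (e : C(C × S.X u, S.XS C)) := by
    funext x
    rw [comp_apply, H.map_map]
    congr 2
    exact ContinuousMap.ext fun A => (he A).symm
  rw [e1]
  exact hi.comp (H.map_bijective_of_homeomorph e)

theorem CI.exists_tau : ∃ τ, S.Tau τ := by
  have hb : ∀ {u v : M}, segment ℝ u v ⊆ S.U → ∀ w (hw : w ∈ segment ℝ u v),
      Bijective (H.map (S.rs _ w hw)) := fun h =>
    S.bij_rs (isCompact_segment _ _) (convex_segment _ _) h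
  have h1 : ∀ u v : M, ∃ τ : H (S.X u) →ₗ[ℂ] H (S.X v), segment ℝ u v ⊆ S.U →
      ∀ e, τ (H.map (S.rs _ u (left_mem_segment ℝ u v)) e) =
        H.map (S.rs _ v (right_mem_segment ℝ u v)) e := fun u v => by
    by_cases h : segment ℝ u v ⊆ S.U
    · let a := LinearEquiv.ofBijective (H.mapA (S.rs _ u (left_mem_segment ℝ u v))).toLinearMap
        (hb h u (left_mem_segment ℝ u v))
      exact ⟨(H.mapA (S.rs _ v (right_mem_segment ℝ u v))).toLinearMap ∘ₗ a.symm.toLinearMap,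
        fun _ e => congrArg (H.map (S.rs _ v (right_mem_segment ℝ u v))) (a.symm_apply_apply e)⟩
    · exact ⟨0, fun h' => absurd h' h⟩
  choose τ hτ using h1
  have spec : ∀ (N : Set M) (u v : M) (hu : u ∈ N) (hv : v ∈ N), segment ℝ u v ⊆ N ∩ S.U →
      ∀ e, τ u v (H.map (S.rs N u hu) e) = H.map (S.rs N v hv) e := by
    intro N u v hu hv h e
    have h2 := S.map_fib_toS (continuous_subtype_val (p := (· ∈ segment ℝ u v))) N
      fun b => (h b.2).1
    exact ((congrArg (τ u v) (h2 ⟨u, left_mem_segment ℝ u v⟩ e)).symm.trans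
      (hτ u v (fun x hx => (h hx).2) _)).trans (h2 ⟨v, right_mem_segment ℝ u v⟩ e)
  refine ⟨τ, ⟨S.isOpen_U', fun u hu x => ?_, fun C hc hU u hu v hv w hw x => ?_⟩, spec,
    fun C => S.bij_rs⟩
  · have h : segment ℝ u u ⊆ S.U := by simpa using hu
    obtain ⟨e, rfl⟩ := (hb h u (left_mem_segment ℝ u u)).2 x
    exact hτ u u h e
  · have hs : convexHull ℝ {u, v, w} ⊆ S.U :=
      (convexHull_min (by simp [insert_subset_iff, hu, hv, hw]) hc).trans hU
    have hcv := convex_convexHull ℝ ({u, v, w} : Set M)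
    have mu : u ∈ convexHull ℝ ({u, v, w} : Set M) := subset_convexHull ℝ _ (by simp)
    have mv : v ∈ convexHull ℝ ({u, v, w} : Set M) := subset_convexHull ℝ _ (by simp)
    have mw : w ∈ convexHull ℝ ({u, v, w} : Set M) := subset_convexHull ℝ _ (by simp)
    have hk : ∀ {a b : M}, a ∈ convexHull ℝ ({u, v, w} : Set M) →
        b ∈ convexHull ℝ ({u, v, w} : Set M) →
        segment ℝ a b ⊆ convexHull ℝ ({u, v, w} : Set M) ∩ S.U := fun ha hb =>
      subset_inter (hcv.segment_subset ha hb) ((hcv.segment_subset ha hb).trans hs)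
    obtain ⟨e, rfl⟩ := (S.bij_rs ((toFinite _).isCompact_convexHull ℝ) hcv hs u mu).2 x
    change τ v w (τ u v _) = τ u w _
    rw [spec _ u v mu mv (hk mu mv), spec _ v w mv mw (hk mv mw), spec _ u w mu mw (hk mu mw)]

theorem CI.homeomorph_of_segment {u v : M} (h : segment ℝ u v ⊆ S.U) :
    Nonempty (S.X u ≃ₜ S.X v) := by
  obtain ⟨e, he, -⟩ := S.exists_homeo (isCompact_segment u v) (convex_segment u v) h u
    (left_mem_segment ℝ u v)
  let b : segment ℝ u v := ⟨v, right_mem_segment ℝ u v⟩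
  have hm : ∀ A, (e (b, A)).1.2 ∈ S.X v := fun A => by
    have h1 : (e (b, A)).1.2 ∈ S.X ((e (b, A)).1.1 : M) := (e (b, A)).2
    rwa [he] at h1
  let f : S.X u → S.X v := fun A => ⟨_, hm A⟩
  refine ⟨Continuous.homeoOfEquivCompactToT2 (f := Equiv.ofBijective f ⟨fun A A' hA => ?_,
    fun A => ?_⟩) (show Continuous f by fun_prop)⟩
  · exact congrArg Prod.snd (e.injective (Subtype.ext (Prod.ext
      ((he (b, A)).trans (he (b, A')).symm) (congrArg Subtype.val hA))))
  · obtain ⟨⟨c, A'⟩, h1⟩ := e.surjective ⟨(b, A.1), A.2⟩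
    have h2 := he (c, A')
    rw [h1] at h2
    obtain rfl : b = c := h2
    exact ⟨A', Subtype.ext (congrArg (fun p : S.XS _ => p.1.2) h1)⟩

theorem CI.nonempty_homeomorph {u v : M} (hu : u ∈ S.U) (hv : v ∈ S.U) :
    Nonempty (S.X u ≃ₜ S.X v) := by
  classical
  by_cases h : finrank ℂ M = 0
  · have := Module.finrank_zero_iff.1 h
    obtain rfl := Subsingleton.elim u v
    exact ⟨Homeomorph.refl _⟩
  have h2 := finrank_real M
  obtain ⟨c, h3, h4⟩ := (S.small_disc (k := finrank ℝ M - 2) (by omega)).exists_mid (by omega)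
    isOpen_univ convex_univ ⟨trivial, not_not.2 hu⟩ ⟨trivial, not_not.2 hv⟩
  obtain ⟨e⟩ := S.homeomorph_of_segment fun x hx => not_not.1 (h3 hx).2
  obtain ⟨e'⟩ := S.homeomorph_of_segment fun x hx => not_not.1 (h4 hx).2
  exact ⟨e.trans e'⟩

theorem CI.exists_ori {k : ℤ} {u v : M} (hu : u ∈ S.U) (hv : v ∈ S.U) {β : BM (S.X u)}
    (hβ : Orb.Ori k β) : ∃ β' : BM (S.X v), Orb.Ori k β' := by
  obtain ⟨e⟩ := S.nonempty_homeomorph hu hv
  have : Nice (S.X u) := ⟨inferInstance, inferInstance, inferInstance⟩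
  have : Nice (S.X v) := ⟨inferInstance, inferInstance, inferInstance⟩
  exact ⟨_, hβ.push e.isHomeomorph⟩

end Vale.Agent.P269.Mono
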