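import Vale.Agent.P269.Mono.Sys

set_option linter.unusedSectionVars false

/-!
# P269, monodromy: the vanishing cycles span and act irreducibly (helper92)
-/

namespace Vale.Agent.P269.Mono

open Set Topology Filter Module Function TopologicalSpace Vale.Agent.P291Z Vale.Agent.P291Z.Fl

namespace IrrP

section Lin

variable {H : Type} [AddCommGroup H] [Module ℂ H] {B : H →ₗ[ℂ] H →ₗ[ℂ] ℂ} {V : Submodule ℂ H}
  {ε : ℂ} (h : Inv.IsForm B V ε)
include h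

theorem rep [FiniteDimensional ℂ H] (φ : H →ₗ[ℂ] ℂ) : ∃ d ∈ V, ∀ x ∈ V, φ x = B x d := by
  let f : V →ₗ[ℂ] Module.Dual ℂ V := (B.domRestrict₁₂ V V).flip
  have hi : Injective f := by
    rw [injective_iff_map_eq_zero]
    intro d hd
    exact Subtype.ext (h.nondeg d d.2 fun v hv => LinearMap.congr_fun hd ⟨v, hv⟩)
  obtain ⟨d, hd⟩ := (LinearMap.injective_iff_surjective_of_finrank_eq_finrank
    Subspace.dual_finrank_eq.symm).1 hi (φ.domRestrict V)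
  exact ⟨d, d.2, fun x hx => (LinearMap.congr_fun hd ⟨x, hx⟩).symm⟩

theorem eq_of_perp [FiniteDimensional ℂ H] {W : Submodule ℂ H} (hW : W ≤ V)
    (h0 : ∀ x ∈ V, (∀ w ∈ W, B x w = 0) → x = 0) : W = V := by
  refine le_antisymm hW fun v hv => by_contra fun hv' => ?_
  obtain ⟨φ, h1, h2⟩ := W.exists_dual_map_eq_bot_of_notMem hv' inferInstance
  obtain ⟨d, hd, e⟩ := rep h φ
  refine h1 ?_
  rw [e v hv, h0 d hd fun w hw => ?_, map_zero]
  have h3 : φ w ∈ W.map φ := W.mem_map_of_mem hw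
  rw [h2, Submodule.mem_bot] at h3
  rw [h.symm d hd w (hW hw), ← e w (hW hw), h3, mul_zero]

theorem prop {d d' : H} (hd : d ∈ V) (hd' : d' ∈ V) (h0 : ∀ x ∈ V, B x d = 0 → B x d' = 0) :
    ∃ c : ℂ, d' = c • d := by
  by_cases h1 : ∀ x ∈ V, B x d = 0
  · exact ⟨0, by rw [zero_smul]; exact h.nondeg d' hd' fun x hx => h0 x hx (h1 x hx)⟩
  push Not at h1
  obtain ⟨y, hy, h1⟩ := h1
  refine ⟨B y d' / B y d, sub_eq_zero.1 (h.nondeg _ (V.sub_mem hd' (V.smul_mem _ hd))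
    fun x hx => ?_)⟩
  have := h0 (B y d • x - B x d • y) (V.sub_mem (V.smul_mem _ hx) (V.smul_mem _ hy))
    (by simp [mul_comm])
  simp only [map_sub, map_smul, LinearMap.sub_apply, LinearMap.smul_apply, smul_eq_mul] at this ⊢
  field_simp
  linear_combination this

end Lin

variable {M : Type} [NormedAddCommGroup M] [NormedSpace ℝ M] [FiniteDimensional ℝ M]

/-- the covering theorem for sub systems -/
theorem sub {Q : M → Type} {U Z : Set M} {τ : ∀ u v : M, Q u → Q v} (L : LocSys U τ)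
    (hU : ∃ k, Small k Uᶜ ∧ k + 2 ≤ finrank ℝ M) (hZ : ∃ k, Small k Z ∧ k + 3 ≤ finrank ℝ M)
    (hd : Disjoint U Z) (S : ∀ u, Set (Q u)) (z : ∀ u, S u)
    (hS : ∀ u v, segment ℝ u v ⊆ U → ∀ x ∈ S u, τ u v x ∈ S v)
    (hl : ∀ p, p ∉ U → p ∉ Z → ∃ N ∈ 𝓝 p, ∀ u ∈ N ∩ U, ∀ x ∈ S u, ∀ y,
      Tr τ (N ∩ U) ⟨u, x⟩ ⟨u, y⟩ → x = y)
    {u : M} (hu : u ∈ U) {x y : Q u} (hx : x ∈ S u) (h : Tr τ U ⟨u, x⟩ ⟨u, y⟩) : x = y := by
  classical
  let τ' : ∀ u v : M, S u → S v := fun u v x =>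
    if h : segment ℝ u v ⊆ U then ⟨τ u v x, hS u v h x x.2⟩ else z v
  have e : ∀ u v, segment ℝ u v ⊆ U → ∀ x, (τ' u v x : Q v) = τ u v x := fun u v h x => by
    simp only [τ', dif_pos h]
  have L' : LocSys U τ' := ⟨L.isOpen, fun u hu x => Subtype.ext (by
      rw [e u u (by simpa using hu), L.self u hu]),
    fun C hC hCU u hu v hv w hw x => Subtype.ext (by
      rw [e v w ((hC.segment_subset hv hw).trans hCU), e u v ((hC.segment_subset hu hv).trans hCU),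
        e u w ((hC.segment_subset hu hw).trans hCU), L.tri C hC hCU u hu v hv w hw])⟩
  have h1 : ∀ O ⊆ U, ∀ a b, Tr τ' O a b → Tr τ O ⟨a.1, a.2⟩ ⟨b.1, b.2⟩ := by
    intro O hO a b hab
    induction hab with
    | refl => exact Relation.ReflTransGen.refl
    | tail _ h2 ih => exact ih.tail ⟨h2.1, by rw [← h2.2, e _ _ (h2.1.trans hO)]⟩
  have h2 : ∀ b, Tr τ U ⟨u, x⟩ b → ∃ hb : b.2 ∈ S b.1, Tr τ' U ⟨u, x, hx⟩ ⟨b.1, b.2, hb⟩ := by
    intro b hb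
    induction hb with
    | refl => exact ⟨hx, Relation.ReflTransGen.refl⟩
    | tail _ h2 ih =>
      obtain ⟨hb, ih⟩ := ih
      exact ⟨h2.2 ▸ hS _ _ h2.1 _ hb, ih.tail ⟨h2.1, Subtype.ext ((e _ _ h2.1 _).trans h2.2)⟩⟩
  obtain ⟨k, hk, hk'⟩ := hU
  obtain ⟨l, hl1, hl2⟩ := hZ
  obtain ⟨hy, h3⟩ := h2 _ h
  refine congrArg Subtype.val (L'.cover hk hk' (fun p hp hp' => ?_) hl1 hl2 hd hu h3)
  obtain ⟨N, hN, h4⟩ := hl p hp hp'
  refine ⟨N, hN, fun u x y hxy => ?_⟩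
  rcases Relation.ReflTransGen.cases_head hxy with e | ⟨c, hc, -⟩
  · exact eq_of_heq (Sigma.mk.inj e).2
  · exact Subtype.ext (h4 u (hc.1 (left_mem_segment ℝ _ _)) x x.2 y
      (h1 _ inter_subset_right _ _ hxy))

variable {Q : M → Type} [∀ u, AddCommGroup (Q u)] [∀ u, Module ℂ (Q u)] {U Z : Set M}
  {τ : ∀ u v : M, Q u →ₗ[ℂ] Q v} {B : ∀ u, Q u →ₗ[ℂ] Q u →ₗ[ℂ] ℂ} {V : ∀ u, Submodule ℂ (Q u)}
  {ε : ℂ} {O N : Set M} {u v : M} {g : Q u →ₗ[ℂ] Q v}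

theorem step (h : segment ℝ u v ⊆ O) : Pth τ O u v (τ u v) := Pth.refl.step h

variable (τ V O) in
/-- the local invariants -/
def J (u : M) : Submodule ℂ (Q u) where
  carrier := {x | x ∈ V u ∧ ∀ g, Pth τ O u u g → g x = x}
  add_mem' := fun ha hb => ⟨add_mem ha.1 hb.1, fun g hg => by rw [map_add, ha.2 g hg, hb.2 g hg]⟩
  zero_mem' := ⟨zero_mem _, fun g _ => map_zero g⟩
  smul_mem' := fun c _ ha => ⟨(V u).smul_mem c ha.1, fun g hg => by rw [map_smul, ha.2 g hg]⟩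

variable (τ V U) in
/-- the neighbourhoods of the nodes -/
structure Node (N : Set M) : Prop where
  op : IsOpen N
  cv : Convex ℝ N
  one : ∃ u ∈ N ∩ U, ∃ φ : Q u →ₗ[ℂ] ℂ, ∀ x ∈ V u, φ x = 0 →
    ∃ s, Flat (fun a b => τ a b) (N ∩ U) s ∧ s u = x
  loc : ∀ y' ∈ N, y' ∉ U → ∀ O, IsOpen O → y' ∈ O → ∀ σ, Flat (fun a b => τ a b) (O ∩ U) σ →
    (∀ u ∈ O ∩ U, σ u ∈ V u) →
      ∃ u ∈ O ∩ N ∩ U, ∃ s, Flat (fun a b => τ a b) (N ∩ U) s ∧ s u = σ u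

variable (P : PLSys U Z τ B V ε)
include P

theorem node {y : M} (h : y ∉ U) (h' : y ∉ Z) : ∃ N, Node U τ V N ∧ y ∈ N := by
  obtain ⟨N, h1, h2, h3, h4, h5⟩ := P.node y h h'
  exact ⟨N, ⟨h1, h2, h4, h5⟩, h3⟩

theorem pth_B (hO : O ⊆ U) (h : Pth τ O u v g) (x y : Q u) : B v (g x) (g y) = B u x y := by
  induction h with
  | refl => rfl
  | step _ h ih => exact (P.map_B _ _ (h.trans hO) _ _).trans ih

theorem pth_V (hO : O ⊆ U) (h : Pth τ O u v g) {x : Q u} (hx : x ∈ V u) : g x ∈ V v := by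
  induction h with
  | refl => exact hx
  | step _ h ih => exact P.map_V _ _ (h.trans hO) _ ih

theorem pth_inv (hO : O ⊆ U) (h : Pth τ O u v g) :
    ∃ g', Pth τ O v u g' ∧ (∀ x, g' (g x) = x) ∧ ∀ y, g (g' y) = y := by
  induction h with
  | refl => exact ⟨_, Pth.refl, fun _ => rfl, fun _ => rfl⟩
  | @step v w g _ h ih =>
    obtain ⟨g', h1, h2, h3⟩ := ih
    have h' : segment ℝ w v ⊆ O := by rwa [segment_symm]
    refine ⟨_, (step h').trans h1, fun x => ?_, fun y => ?_⟩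
    · exact (congrArg g' (P.loc.inv (h.trans hO) _)).trans (h2 x)
    · exact (congrArg (τ v w) (h3 _)).trans (P.loc.inv (h'.trans hO) y)

theorem exists_pth (hO : IsOpen O) (hc : Convex ℝ O) (hu : u ∈ O ∩ U) (hv : v ∈ O ∩ U) :
    ∃ g, Pth τ (O ∩ U) u v g := by
  obtain ⟨k, hk, hk'⟩ := P.small
  obtain ⟨c, h1, h2⟩ := hk.exists_mid hk' hO hc (a := u) (b := v) (by rwa [sdiff_compl])
    (by rwa [sdiff_compl])
  rw [sdiff_compl] at h1 h2
  exact ⟨_, (step h1).step h2⟩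

theorem del_pth (h : Pth τ U u v g) {d : Q u} (hd : d ∈ Del τ U B V u) :
    g d ∈ Del τ U B V v := by
  obtain ⟨h1, h2, c, hc, h3⟩ := hd
  obtain ⟨g', a1, a2, a3⟩ := pth_inv P Subset.rfl h
  refine ⟨pth_V P Subset.rfl h h1, fun e => h2 (by rw [← a2 d, e, map_zero]), c, hc, ?_⟩
  convert (a1.trans h3).trans h using 1
  ext y
  simp [a3, ← pth_B P Subset.rfl h (g' y) d]

theorem J_pth (hO : O ⊆ U) (h : Pth τ O u v g) {x : Q u} (hx : x ∈ J τ V O u) :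
    g x ∈ J τ V O v := by
  obtain ⟨g', a1, -, a3⟩ := pth_inv P hO h
  refine ⟨pth_V P hO h hx.1, fun l hl => ?_⟩
  rw [← a3 (l (g x))]
  exact congrArg g (hx.2 _ ((h.trans hl).trans a1))

theorem flat_of_J (hO : IsOpen O) (hc : Convex ℝ O) (hu : u ∈ O ∩ U) {x : Q u}
    (hx : x ∈ J τ V (O ∩ U) u) :
    ∃ s, Flat (fun a b => τ a b) (O ∩ U) s ∧ s u = x ∧ ∀ v ∈ O ∩ U, s v ∈ V v := by
  have h1 : ∀ v, ∃ g : Q u →ₗ[ℂ] Q v, v ∈ O ∩ U → Pth τ (O ∩ U) u v g := fun v => by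
    by_cases hv : v ∈ O ∩ U
    · exact (exists_pth P hO hc hu hv).imp fun _ h _ => h
    · exact ⟨0, fun h => absurd h hv⟩
  choose G hG using h1
  refine ⟨fun v => G v x, fun v w h => ?_, hx.2 _ (hG u hu),
    fun v hv => pth_V P inter_subset_right (hG v hv) hx.1⟩
  obtain ⟨g', a1, -, a3⟩ := pth_inv P inter_subset_right (hG w (h (right_mem_segment ℝ _ _)))
  exact (a3 _).symm.trans
    (congrArg (G w) (hx.2 _ (((hG v (h (left_mem_segment ℝ _ _))).step h).trans a1)))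

theorem J_eq (hN : Node U τ V N) (hO : IsOpen O) (hc : Convex ℝ O) (hON : O ⊆ N) {y : M}
    (hy : y ∈ O) (hy' : y ∉ U) (hu : u ∈ O ∩ U) : J τ V (O ∩ U) u = J τ V (N ∩ U) u := by
  refine le_antisymm (fun x hx => ?_) fun x hx =>
    ⟨hx.1, fun g hg => hx.2 g (hg.mono (inter_subset_inter_left _ hON))⟩
  obtain ⟨σ, h1, rfl, h3⟩ := flat_of_J P hO hc hu hx
  obtain ⟨u', hu', s, h4, h5⟩ := hN.loc y (hON hy) hy' O hO hy σ h1 h3
  have hu'' : u' ∈ O ∩ U := ⟨hu'.1.1, hu'.2⟩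
  obtain ⟨g, hg⟩ := exists_pth P hO hc hu'' hu
  rw [← h1.pth hg]
  exact J_pth P inter_subset_right (hg.mono (inter_subset_inter_left _ hON))
    ⟨h3 u' hu'', fun l hl => by rw [← h5, h4.pth hl]⟩

theorem exists_d (hN : Node U τ V N) (hu : u ∈ N ∩ U) :
    ∃ d ∈ V u, ∀ x ∈ V u, x ∈ J τ V (N ∩ U) u ↔ B u x d = 0 := by
  by_cases h : ∀ x ∈ V u, x ∈ J τ V (N ∩ U) u
  · exact ⟨0, zero_mem _, fun x hx => iff_of_true (h x hx) (map_zero _)⟩
  obtain ⟨u', hu', φ, hφ⟩ := hN.one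
  obtain ⟨g, hg⟩ := exists_pth P hN.op hN.cv hu hu'
  obtain ⟨g', a1, a2, -⟩ := pth_inv P inter_subset_right hg
  have := P.fin u hu.2
  obtain ⟨d, hd, e⟩ := rep (P.form u hu.2) (φ ∘ₗ g)
  have h1 : ∀ x ∈ V u, B u x d = 0 → x ∈ J τ V (N ∩ U) u := fun x hx h0 => by
    have h2 := pth_V P inter_subset_right hg hx
    obtain ⟨s, h3, h4⟩ := hφ _ h2 ((e x hx).trans h0)
    rw [← a2 x]
    exact J_pth P inter_subset_right a1 ⟨h2, fun l hl => by rw [← h4, h3.pth hl]⟩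
  refine ⟨d, hd, fun x hx => ⟨fun hJ => by_contra fun h0 => h fun y hy => ?_, h1 x hx⟩⟩
  have h2 := h1 (y - (B u y d / B u x d) • x) (sub_mem hy ((V u).smul_mem _ hx))
    (by simp [div_mul_cancel₀ _ h0])
  simpa using add_mem h2 (Submodule.smul_mem _ (B u y d / B u x d) hJ)

/-- the local Picard-Lefschetz formula -/
theorem pl (hN : Node U τ V N) (hu : u ∈ N ∩ U) : ∃ d ∈ V u,
    (∀ x ∈ V u, x ∈ J τ V (N ∩ U) u ↔ B u x d = 0) ∧ (d = 0 ∨ d ∈ Del τ U B V u) ∧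
      ∀ g, Pth τ (N ∩ U) u u g → ∃ c : ℂ, ∀ x, g x = x + (c * B u x d) • d := by
  obtain ⟨d, hd, e⟩ := exists_d P hN hu
  have F := P.form u hu.2
  have key : ∀ g, Pth τ (N ∩ U) u u g → ∃ c : ℂ, ∀ x, g x = x + (c * B u x d) • d := by
    intro g hg
    suffices ∃ c : ℂ, ∀ x ∈ V u, g x = x + (c * B u x d) • d by
      obtain ⟨c, hc⟩ := this
      refine ⟨c, fun x => ?_⟩
      obtain ⟨s, h1, h2, h3⟩ := P.amb u hu.2 x
      have := hc _ h2
      rw [map_sub, h1.pth (hg.mono inter_subset_right), map_sub, LinearMap.sub_apply, h3 d hd,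
        sub_zero, sub_eq_iff_eq_add] at this
      rw [this]
      abel
    by_cases h0 : ∀ x ∈ V u, B u x d = 0
    · exact ⟨0, fun x hx => by simpa using ((e x hx).2 (h0 x hx)).2 g hg⟩
    push Not at h0
    obtain ⟨y, hy, h0⟩ := h0
    obtain ⟨c, hc⟩ := prop F hd (sub_mem (pth_V P inter_subset_right hg hy) hy) fun x hx h1 => by
      rw [map_sub, ← pth_B P inter_subset_right hg x y, ((e x hx).2 h1).2 g hg, sub_self]
    refine ⟨c / B u y d, fun x hx => ?_⟩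
    have h2 := ((e (x - (B u x d / B u y d) • y) (sub_mem hx ((V u).smul_mem _ hy))).2
      (by simp [div_mul_cancel₀ _ h0])).2 g hg
    rw [map_sub, map_smul, sub_eq_iff_eq_add.1 hc, sub_eq_iff_eq_add] at h2
    rw [h2]
    match_scalars <;> ring
  refine ⟨d, hd, e, or_iff_not_imp_left.2 fun h0 => ⟨hd, h0, by_contra fun h1 => h0 ?_⟩, key⟩
  refine F.nondeg d hd fun x hx => (e x hx).1 ⟨hx, fun g hg => ?_⟩
  obtain ⟨c, hc⟩ := key g hg
  have h2 : c = 0 := by_contra fun h2 => h1 ⟨c, h2, by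
    convert hg.mono inter_subset_right using 1
    ext x
    simp [hc, smul_smul]⟩
  simp [hc, h2]

/-- a locally trivial sub system of `V` vanishes -/
theorem kl (W : ∀ u, Submodule ℂ (Q u)) (hV : ∀ u ∈ U, W u ≤ V u)
    (hW : ∀ u v, segment ℝ u v ⊆ U → ∀ x ∈ W u, τ u v x ∈ W v)
    (hl : ∀ p, p ∉ U → p ∉ Z → ∃ N ∈ 𝓝 p, ∀ u ∈ N ∩ U, ∀ x ∈ W u, ∀ g,
      Pth τ (N ∩ U) u u g → g x = x) (hu : u ∈ U) {x : Q u} (hx : x ∈ W u) : x = 0 := by
  obtain ⟨s, h1, rfl, h3⟩ := flat_of_J P isOpen_univ convex_univ ⟨trivial, hu⟩ (x := x)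
    ⟨hV u hu hx, fun g hg => (sub P.loc P.small P.small' P.disj (fun u => W u)
      (fun u => ⟨0, zero_mem _⟩) hW (fun p hp hp' => (hl p hp hp').imp fun N hN =>
        ⟨hN.1, fun u hu x hx y h => by
          obtain ⟨g, hg, e⟩ := h.pth
          exact (hN.2 u hu x hx g hg).symm.trans e⟩) hu hx
      ((hg.mono inter_subset_right).tr x)).symm⟩
  rw [univ_inter] at h1 h3
  exact P.kl s h1 h3 u hu

theorem span (hu : u ∈ U) : Submodule.span ℂ (Del τ U B V u) = V u := by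
  have := P.fin u hu
  refine eq_of_perp (P.form u hu) (Submodule.span_le.2 fun d hd => hd.1) fun x hx h => ?_
  refine kl P (fun u => V u ⊓ ⨅ d ∈ Del τ U B V u, LinearMap.ker ((B u).flip d))
    (fun _ _ => inf_le_left) (fun u v h x hx => ⟨P.map_V u v h x hx.1, ?_⟩) (fun p hp hp' => ?_)
    hu ⟨hx, by simpa using fun d hd => h d (Submodule.subset_span hd)⟩
  · obtain ⟨g', a1, -, a3⟩ := pth_inv P Subset.rfl (step h)
    have h2 : ∀ d ∈ Del τ U B V u, B u x d = 0 := by simpa using hx.2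
    have h3 : ∀ d ∈ Del τ U B V v, B v (τ u v x) d = 0 := fun d hd => by
      rw [← a3 d, P.map_B u v h, h2 _ (del_pth P a1 hd)]
    simpa using h3
  · obtain ⟨N, hN, hp⟩ := node P hp hp'
    refine ⟨N, hN.op.mem_nhds hp, fun u hu x hx g hg => ?_⟩
    obtain ⟨d, -, -, h1, h2⟩ := pl P hN hu
    obtain ⟨c, hc⟩ := h2 g hg
    have h2 : ∀ d ∈ Del τ U B V u, B u x d = 0 := by simpa using hx.2
    rcases h1 with rfl | h1
    · simp [hc]
    · simp [hc, h2 d h1]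

variable (τ U B V) in
/-- the invariant subspaces -/
def Sb (u : M) : Set (Submodule ℂ (Q u)) :=
  {W | W ≤ V u ∧ ∀ d ∈ Del τ U B V u, d ∈ W ∨ ∀ w ∈ W, B u w d = 0}

theorem Sb_pth (h : Pth τ U u v g) {W : Submodule ℂ (Q u)} (hW : W ∈ Sb U τ B V u) :
    W.map g ∈ Sb U τ B V v := by
  obtain ⟨g', a1, -, a3⟩ := pth_inv P Subset.rfl h
  refine ⟨?_, fun d hd => (hW.2 _ (del_pth P a1 hd)).imp (fun h => ⟨_, h, a3 d⟩) fun h' => ?_⟩
  · rintro _ ⟨w, hw, rfl⟩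
    exact pth_V P Subset.rfl h (hW.1 hw)
  · rintro _ ⟨w, hw, rfl⟩
    rw [← a3 d, pth_B P Subset.rfl h, h' w hw]

theorem Sb_loop (hu : u ∈ U) {W : Submodule ℂ (Q u)} (hW : W ∈ Sb U τ B V u) {g : Q u →ₗ[ℂ] Q u}
    (h : Pth τ U u u g) : W.map g = W := by
  have h1 : ∀ {u v : M} {g : Q u →ₗ[ℂ] Q v} (W : Submodule ℂ (Q u)), Pth τ U u v g →
      Tr (Q := fun u => Submodule ℂ (Q u)) (fun a b W => W.map (τ a b)) U ⟨u, W⟩ ⟨v, W.map g⟩ := by
    intro u v g W h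
    induction h with
    | refl => rw [Submodule.map_id]; exact Relation.ReflTransGen.refl
    | step _ h ih => exact ih.tail ⟨h, (Submodule.map_comp _ _ _).symm⟩
  have h2 : ∀ (O : Set M) (u : M) (W : Submodule ℂ (Q u)) b,
      Tr (Q := fun u => Submodule ℂ (Q u)) (fun a b W => W.map (τ a b)) O ⟨u, W⟩ b →
        ∃ g, Pth τ O u b.1 g ∧ W.map g = b.2 := by
    intro O u W b h
    induction h with
    | refl => exact ⟨_, Pth.refl, W.map_id⟩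
    | tail _ h ih =>
      obtain ⟨g, hg, e⟩ := ih
      exact ⟨_, hg.step h.1, by rw [Submodule.map_comp, e]; exact h.2⟩
  refine (sub (Q := fun u => Submodule ℂ (Q u)) (τ := fun a b W => W.map (τ a b))
    ⟨P.loc.isOpen, fun u hu W => ?_, fun C hC hU u hu v hv w hw W => ?_⟩ P.small P.small' P.disj
    (Sb U τ B V) (fun u => ⟨⊥, bot_le, fun d _ => Or.inr (by simp)⟩)
    (fun u v h W hW => Sb_pth P (step h) hW) (fun p hp hp' => ?_) hu hW (h1 W h)).symm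
  · rw [show τ u u = LinearMap.id from LinearMap.ext (P.loc.self u hu), Submodule.map_id]
  · rw [← Submodule.map_comp,
      show τ v w ∘ₗ τ u v = τ u w from LinearMap.ext (P.loc.tri C hC hU u hu v hv w hw)]
  obtain ⟨N, hN, hp⟩ := node P hp hp'
  refine ⟨N, hN.op.mem_nhds hp, fun u hu W hW W' h => ?_⟩
  obtain ⟨g, hg, rfl⟩ : ∃ g, Pth τ (N ∩ U) u u g ∧ W.map g = W' := h2 _ _ _ _ h
  obtain ⟨d, -, -, h3, h4⟩ := pl P hN hu
  have h5 : ∀ g, Pth τ (N ∩ U) u u g → ∀ w ∈ W, g w ∈ W := fun g hg w hw => by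
    obtain ⟨c, hc⟩ := h4 g hg
    rw [hc]
    rcases h3 with rfl | h3
    · simpa using hw
    rcases hW.2 d h3 with h | h
    · exact add_mem hw (W.smul_mem _ h)
    · simpa [h w hw] using hw
  obtain ⟨g', a1, -, a3⟩ := pth_inv P inter_subset_right hg
  refine le_antisymm (fun w hw => ⟨_, h5 g' a1 w hw, a3 w⟩) ?_
  rintro _ ⟨w, hw, rfl⟩
  exact h5 g hg w hw

theorem irr (hu : u ∈ U) {W₀ : Submodule ℂ (Q u)} (h₀ : W₀ ∈ Sb U τ B V u) :
    W₀ = ⊥ ∨ W₀ = V u := by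
  have h1 : ∀ v, ∃ g : Q u →ₗ[ℂ] Q v, v ∈ U → Pth τ U u v g := fun v => by
    by_cases hv : v ∈ U
    · exact (exists_pth P isOpen_univ convex_univ ⟨trivial, hu⟩ ⟨trivial, hv⟩).imp
        fun _ h _ => h.mono inter_subset_right
    · exact ⟨0, fun h => absurd h hv⟩
  choose G hG using h1
  obtain ⟨W, hWu, hS, hW⟩ : ∃ W : ∀ v, Submodule ℂ (Q v), W u = W₀ ∧
      (∀ v ∈ U, W v ∈ Sb U τ B V v) ∧ ∀ v ∈ U, ∀ w g, Pth τ U v w g → (W v).map g = W w := by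
    refine ⟨fun v => W₀.map (G v), Sb_loop P hu h₀ (hG u hu),
      fun v hv => Sb_pth P (hG v hv) h₀, fun v hv w g hg => ?_⟩
    obtain ⟨g', a1, -, a3⟩ := pth_inv P Subset.rfl (hG w (hg.mem hv))
    refine Eq.trans ?_ (congrArg (Submodule.map (G w))
      (Sb_loop P hu h₀ (((hG v hv).trans hg).trans a1)))
    rw [← Submodule.map_comp, ← Submodule.map_comp]
    congr 1
    exact LinearMap.ext fun x => (a3 _).symm
  subst hWu
  let a : Set M → M → Prop := fun N v =>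
    ∀ d ∈ V v, (∀ x ∈ J τ V (N ∩ U) v, B v x d = 0) → d ∈ W v
  have ha : ∀ N, Node U τ V N → ∀ v ∈ N ∩ U, ∀ w ∈ N ∩ U, a N v → a N w := by
    intro N hN v hv w hw h d hd h'
    obtain ⟨g, hg⟩ := exists_pth P hN.op hN.cv hv hw
    obtain ⟨g', a1, -, a3⟩ := pth_inv P inter_subset_right hg
    rw [← hW v hv.2 w g (hg.mono inter_subset_right)]
    refine ⟨g' d, h _ (pth_V P inter_subset_right a1 hd) fun x hx => ?_, a3 d⟩
    rw [← pth_B P inter_subset_right hg, a3, h' _ (J_pth P inter_subset_right hg hx)]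
  have hs : ∀ v w, segment ℝ v w ⊆ U → (W v).map (τ v w) = W w := fun v w h =>
    hW v (h (left_mem_segment ℝ _ _)) w _ (step h)
  rcases isPreconnected_iff_subset_of_disjoint.1 P.conn
    (⋃₀ {N | Node U τ V N ∧ ∀ v ∈ N ∩ U, ¬a N v}) (⋃₀ {N | Node U τ V N ∧ ∀ v ∈ N ∩ U, a N v})
    (isOpen_sUnion fun N hN => hN.1.op) (isOpen_sUnion fun N hN => hN.1.op) (fun y hy => by
      obtain ⟨N, hN, hy⟩ := node P hy.1 hy.2
      by_cases h : ∀ v ∈ N ∩ U, ¬a N v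
      · exact Or.inl ⟨N, ⟨hN, h⟩, hy⟩
      push Not at h
      obtain ⟨v, hv, h⟩ := h
      exact Or.inr ⟨N, ⟨hN, fun w hw => ha N hN v hv w hw h⟩, hy⟩)
    (eq_empty_of_forall_notMem (by
      rintro y ⟨hy, ⟨N, ⟨hN, h⟩, hyN⟩, N', ⟨hN', h'⟩, hyN'⟩
      obtain ⟨k, hk, hk'⟩ := P.small
      have hO := hN.op.inter hN'.op
      obtain ⟨v, hv, hv'⟩ := hk.exists_notMem (by omega) (hO.mem_nhds ⟨hyN, hyN'⟩)
      have hvU : v ∈ U := not_not.1 hv'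
      refine h v ⟨hv.1, hvU⟩ fun d hd h2 => h' v ⟨hv.2, hvU⟩ d hd ?_
      rwa [← J_eq P hN' hO (hN.cv.inter hN'.cv) inter_subset_right ⟨hyN, hyN'⟩ hy.1 ⟨hv, hvU⟩,
        J_eq P hN hO (hN.cv.inter hN'.cv) inter_subset_left ⟨hyN, hyN'⟩ hy.1 ⟨hv, hvU⟩])) with
    h | h
  · refine Or.inl (eq_bot_iff.2 fun x hx => kl P W (fun v hv => (hS v hv).1)
      (fun v w h x hx => hs v w h ▸ Submodule.mem_map_of_mem hx) (fun p hp hp' => ?_) hu hx)
    obtain ⟨N, ⟨hN, h2⟩, hp⟩ := h ⟨hp, hp'⟩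
    refine ⟨N, hN.op.mem_nhds hp, fun v hv x hx g hg => ?_⟩
    obtain ⟨d, hd, h3, h4, h5⟩ := pl P hN hv
    obtain ⟨c, hc⟩ := h5 g hg
    have h6 : d ∉ W v := fun h6 => h2 v hv fun d' hd' h7 => by
      obtain ⟨c, rfl⟩ := prop (P.form v hv.2) hd hd' fun x hx h8 => h7 x ((h3 x hx).2 h8)
      exact (W v).smul_mem c h6
    rw [hc, (((hS v hv.2).2 d (h4.resolve_left fun e => h6 (e ▸ zero_mem _))).resolve_left h6) x hx,
      mul_zero, zero_smul, add_zero]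
  · have := P.fin u hu
    refine Or.inr (eq_of_perp (P.form u hu) h₀.1 fun x hx h1 => ?_)
    refine kl P (fun v => V v ⊓ ⨅ d ∈ W v, LinearMap.ker ((B v).flip d))
      (fun _ _ => inf_le_left) (fun v w h x hx => ⟨P.map_V v w h x hx.1, ?_⟩) (fun p hp hp' => ?_)
      hu ⟨hx, by simpa using h1⟩
    · have h2 : ∀ d ∈ W v, B v x d = 0 := by simpa using hx.2
      have h3 : ∀ d ∈ W w, B w (τ v w x) d = 0 := by
        rw [← hs v w h]
        rintro _ ⟨d, hd, rfl⟩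
        rw [P.map_B v w h, h2 d hd]
      simpa using h3
    · obtain ⟨N, ⟨hN, h2⟩, hp⟩ := h ⟨hp, hp'⟩
      refine ⟨N, hN.op.mem_nhds hp, fun v hv x hx g hg => ?_⟩
      obtain ⟨d, hd, h3, -, h5⟩ := pl P hN hv
      obtain ⟨c, hc⟩ := h5 g hg
      have h6 : ∀ d ∈ W v, B v x d = 0 := by simpa using hx.2
      rw [hc, h6 d (h2 v hv d hd fun x hx => (h3 x hx.1).1 hx), mul_zero, zero_smul, add_zero]

end IrrP

theorem PLSys.irr {M : Type} [NormedAddCommGroup M] [NormedSpace ℝ M] [FiniteDimensional ℝ M]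
    {Q : M → Type} [∀ u, AddCommGroup (Q u)] [∀ u, Module ℂ (Q u)] {U Z : Set M}
    {τ : ∀ u v : M, Q u →ₗ[ℂ] Q v} {B : ∀ u, Q u →ₗ[ℂ] Q u →ₗ[ℂ] ℂ} {V : ∀ u, Submodule ℂ (Q u)}
    {ε : ℂ} (P : PLSys U Z τ B V ε) {u : M} (hu : u ∈ U) : Inv.Irr (B u) (V u) (Del τ U B V u) :=
  ⟨IrrP.span P hu, fun _ h h' => IrrP.irr P hu ⟨h, h'⟩⟩

end Vale.Agent.P269.Mono
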