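import Vale.Agent.P269.Mono.KL
import Vale.Agent.P269.Mono.Fam
import Vale.Agent.P269.Mono.Irr
import Vale.Agent.P269.Mono.Conj

set_option linter.unusedSectionVars false

/-!
# P269, monodromy of complete intersections: the main theorems (helper19)
-/

namespace Vale.Agent.P269.Mono

open Set Topology Filter Module Function TopologicalSpace Vale.Agent.P291Z Vale.Agent.P291Z.Fl

theorem Lef.van_eq_bot {X : Type} [TopologicalSpace X] {n : ℕ} {h : H X} {ι : H X →ₗ[ℂ] ℂ}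
    (L : Lef n h ι) (e : ∀ x, x ∈ Mono.amb h) : van h ι = ⊥ :=
  eq_bot_iff.2 fun x hx => L.isCompl.disjoint.le_bot ⟨e x, hx⟩

theorem pth_bijective {M : Type} [NormedAddCommGroup M] [NormedSpace ℝ M] {Q : M → Type}
    [∀ u, AddCommGroup (Q u)] [∀ u, Module ℂ (Q u)] {τ : ∀ u v : M, Q u →ₗ[ℂ] Q v} {U : Set M}
    (L : LocSys U fun a b => τ a b) {u v : M} {g : Q u →ₗ[ℂ] Q v} (h : Pth τ U u v g) :
    Bijective g := by
  induction h with
  | refl => exact bijective_id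
  | step _ h ih =>
    rw [LinearMap.coe_comp]
    exact Bijective.comp ⟨L.injective h, fun y => ⟨_, L.inv (by rwa [segment_symm]) y⟩⟩ ih

namespace CI

variable {M m κ : Type} [NormedAddCommGroup M] [NormedSpace ℂ M] [FiniteDimensional ℂ M]
  [Fintype m] [Fintype κ] (S : CI M m κ)

/-- linear subspaces have no primitive cohomology -/
theorem mem_amb_of_linear (hd : ∀ j, S.d j = 1) (u : M) (x : H (S.X u)) : x ∈ amb (S.h u) := by
  classical
  have h1 : ∀ k (x : m → ℂ), S.ev u x k = ∑ i, (S.F u k).coeff (Finsupp.single i 1) * x i := by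
    intro k x
    have h2 : S.F u k = ∑ i, MvPolynomial.monomial (Finsupp.single i 1)
        ((S.F u k).coeff (Finsupp.single i 1)) := by
      ext a
      simp only [MvPolynomial.coeff_sum, MvPolynomial.coeff_monomial]
      by_cases ha : ∃ i, Finsupp.single i 1 = a
      · obtain ⟨i, rfl⟩ := ha
        rw [Finset.sum_eq_single i (fun j _ hj => if_neg fun e =>
          hj (Finsupp.single_left_injective one_ne_zero e)) (by simp), if_pos rfl]
      · rw [Finset.sum_eq_zero fun i _ => if_neg fun e => ha ⟨i, e⟩]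
        by_contra h3
        have h4 : a.degree = 1 := by
          rw [Finsupp.degree_eq_weight_one]
          exact (S.hom u k h3).trans (hd k)
        obtain ⟨i, hi⟩ := Finsupp.range_single_one ▸ (show a ∈ {d : m →₀ ℕ | d.degree = 1} from h4)
        exact ha ⟨i, hi⟩
    conv_lhs => rw [ev, h2, map_sum]
    simp [MvPolynomial.eval_monomial]
  let W : Submodule ℂ (m → ℂ) :=
    { carrier := {x | S.ev u x = 0}
      add_mem' := fun {a b} ha hb => funext fun k => by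
        have h2 := congrFun ha k
        have h3 := congrFun hb k
        simp only [h1, Pi.add_apply, mul_add, Finset.sum_add_distrib] at h2 h3 ⊢
        rw [h2, h3, Pi.zero_apply, add_zero]
      zero_mem' := S.ev_zero u
      smul_mem' := fun c a ha => S.ev_smul_of ha c }
  have e : S.X u = PV W := Set.ext fun A => ⟨fun ⟨x, h0, hx, e⟩ => ⟨x, hx, h0, e⟩,
    fun ⟨x, hx, h0, e⟩ => ⟨x, h0, hx, e⟩⟩
  obtain ⟨y, rfl⟩ := (H.map_bijective_of_homeomorph (Homeomorph.setCongr e)).2 x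
  have h2 : H.map (Homeomorph.setCongr e : C(_, _)) (xP W) = S.h u :=
    map_xc _ continuous_subtype_val PV.mem_top
  rw [← h2]
  refine map_amb _ (Submodule.span_mono ?_ ((isBasis_PV W rfl).span Submodule.mem_top))
  rintro _ ⟨j, rfl⟩
  exact ⟨j, rfl⟩

open Classical in
/-- the normalised integral -/
noncomputable def io' (n : ℕ) (u : M) : H (S.X u) →ₗ[ℂ] ℂ :=
  if h : ∃ ι, Lef n (S.h u) ι then h.choose else 0

theorem io'_eq {n : ℕ} {u : M} {ι : H (S.X u) →ₗ[ℂ] ℂ} (L : Lef n (S.h u) ι) : S.io' n u = ι := by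
  rw [io', dif_pos ⟨ι, L⟩]
  exact L.unique (Exists.choose_spec (⟨ι, L⟩ : ∃ ι, Lef n (S.h u) ι)).deg
    (Exists.choose_spec (⟨ι, L⟩ : ∃ ι, Lef n (S.h u) ι)).norm

/-- deformation invariance of a family of functions of tuples of cohomology classes -/
def DefInv {ι A : Type*} (T : ∀ u, (ι → H (S.X u)) → A) : Prop :=
  ∀ W : Set M, IsOpen W → Convex ℝ W → W ⊆ S.U → ∀ (u v : M) (hu : u ∈ W) (hv : v ∈ W)
    (e : ι → H (S.XS W)),
      T u (fun i => H.map (S.rs W u hu) (e i)) = T v fun i => H.map (S.rs W v hv) (e i)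

variable {S} {τ : ∀ u v : M, H (S.X u) →ₗ[ℂ] H (S.X v)} (T : S.Tau τ)
include T

theorem Tau.defInv {ι A : Type*} {F : ∀ u, (ι → H (S.X u)) → A} (hF : S.DefInv F) {u v : M}
    (h : segment ℝ u v ⊆ S.U) (x : ι → H (S.X u)) : F v (fun i => τ u v (x i)) = F u x := by
  obtain ⟨r, hr, h1⟩ := (isCompact_segment u v).exists_cthickening_subset_open T.loc.isOpen h
  have h2 := Metric.self_subset_thickening hr (segment ℝ u v)
  have h3 := Metric.thickening_subset_cthickening r (segment ℝ u v)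
  have hu := h2 (left_mem_segment ℝ u v)
  have hv := h2 (right_mem_segment ℝ u v)
  have := FiniteDimensional.proper ℂ M
  choose e he using fun i => (T.bij _ (isCompact_segment u v).cthickening
    ((convex_segment u v).cthickening r) h1 u (h3 hu)).2 (x i)
  have h4 := hF _ Metric.isOpen_thickening ((convex_segment u v).thickening r) (h3.trans h1) u v
    hu hv fun i => H.map (S.toS continuous_subtype_val _ fun b => h3 b.2) (e i)
  have h5 : ∀ w (hw : w ∈ Metric.thickening r (segment ℝ u v)) i, H.map (S.rs _ w hw)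
      (H.map (S.toS continuous_subtype_val _ fun b => h3 b.2) (e i)) =
        H.map (S.rs _ w (h3 hw)) (e i) := fun w hw i =>
    S.map_fib_toS continuous_subtype_val _ (fun b => h3 b.2) ⟨w, hw⟩ (e i)
  simp only [h5, he] at h4
  rw [h4]
  congr 1
  ext i
  rw [← he i]
  exact T.spec _ u v _ _ (subset_inter (h2.trans h3) h) _

theorem Tau.map_cj {u v : M} (h : segment ℝ u v ⊆ S.U) (x : H (S.X u)) :
    τ u v (cj x) = cj (τ u v x) := by
  obtain ⟨h1, -, h2⟩ := T.exists_eq h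
  obtain ⟨x, rfl⟩ := h1.2 x
  rw [cj_map, h2, h2, cj_map]

variable {u v : M} {g : H (S.X u) →ₗ[ℂ] H (S.X v)} (hg : Pth τ S.U u v g)
include hg

theorem Tau.pth_defInv {ι A : Type*} {F : ∀ u, (ι → H (S.X u)) → A} (hF : S.DefInv F)
    (x : ι → H (S.X u)) : F v (fun i => g (x i)) = F u x :=
  Pth.rec (τ := τ) (motive := fun v g _ => F v (fun i => g (x i)) = F u x) rfl
    (fun _ h ih => (T.defInv hF h _).trans ih) hg

theorem Tau.pth_cj (x : H (S.X u)) : g (cj x) = cj (g x) :=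
  Pth.rec (τ := τ) (motive := fun _ g _ => g (cj x) = cj (g x)) rfl
    (fun _ h ih => (congrArg _ ih).trans (T.map_cj h _)) hg

theorem Tau.pth_mul (x y : H (S.X u)) : g (x * y) = g x * g y :=
  Pth.rec (τ := τ) (motive := fun _ g _ => g (x * y) = g x * g y) rfl
    (fun _ h ih => (congrArg _ ih).trans (T.map_mul h _ _)) hg

theorem Tau.pth_pow (j : ℕ) : g (S.h u ^ j) = S.h v ^ j :=
  Pth.rec (τ := τ) (motive := fun v g _ => g (S.h u ^ j) = S.h v ^ j) rfl
    (fun _ h ih => (congrArg _ ih).trans (T.map_pow h _)) hg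

theorem Tau.pth_comp (k : ℤ) (x : H (S.X u)) : g (H.comp k x) = H.comp k (g x) :=
  Pth.rec (τ := τ) (motive := fun _ g _ => g (H.comp k x) = H.comp k (g x)) rfl
    (fun _ h ih => (congrArg _ ih).trans (T.map_comp h _ _)) hg

theorem Tau.pth_bij : Bijective g := pth_bijective T.loc hg

theorem Tau.pth_lef {n : ℕ} {ι : H (S.X u) →ₗ[ℂ] ℂ} {ι' : H (S.X v) →ₗ[ℂ] ℂ}
    (L : Lef n (S.h u) ι) (L' : Lef n (S.h v) ι') (x : H (S.X u)) : ι' (g x) = ι x := by
  have := L.unique (ι' := ι' ∘ₗ g) (fun k hk x hx => L'.deg k hk _ (by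
    rw [← hx.comp_eq, T.pth_comp hg]
    exact H.isDeg_comp k _)) (by rw [LinearMap.comp_apply, T.pth_pow hg, L'.norm])
  exact LinearMap.congr_fun this x

omit hg

theorem Tau.exists_pth (hu : u ∈ S.U) (hv : v ∈ S.U) : ∃ g, Pth τ S.U u v g := by
  classical
  rcases subsingleton_or_nontrivial M with h | h
  · obtain rfl := Subsingleton.elim u v
    exact ⟨_, Pth.refl⟩
  · have h1 : finrank ℝ M - 2 + 2 = finrank ℝ M := by
      have := finrank_pos (R := ℂ) (M := M)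
      rw [finrank_real]
      omega
    obtain ⟨y, hy⟩ := LocSys.exists_tr (τ := fun a b => τ a b) (S.small_disc h1.ge) h1.le isOpen_univ convex_univ
      ⟨trivial, hu⟩ ⟨trivial, hv⟩ 0
    obtain ⟨g, hg, -⟩ := hy.pth
    exact ⟨g, hg.mono inter_subset_right⟩

variable {n : ℕ} (hn : Fintype.card m = n + Fintype.card κ + 1) (h1 : 1 ≤ n)
  (hO : ∀ u ∈ S.U, ∃ β : BM (S.X u), Orb.Ori (2 * n) β)
include hn h1 hO

omit T in
theorem lef_io' (hu : u ∈ S.U) : Lef n (S.h u) (S.io' n u) := by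
  obtain ⟨β, hβ⟩ := hO u hu
  obtain ⟨ι, -, L, -⟩ := S.exists_lef hn h1 hβ
  rwa [S.io'_eq L]

theorem Tau.plSys {j₀ : κ} (hd : 2 ≤ S.d j₀) : ∃ Z, PLSys S.U Z τ (fun u => bil (S.io' n u))
    (fun u => van (S.h u) (S.io' n u)) ((-1) ^ n) := by
  classical
  have L := fun u (hu : u ∈ S.U) => lef_io' hn h1 hO hu
  have h4 := S.four_le_finrank (by omega) j₀
  obtain ⟨i₀⟩ : Nonempty m := Fintype.card_pos_iff.1 (by omega)
  obtain ⟨Z, z1, z2, -, z4, z5⟩ := S.exists_bad (by omega) i₀ hd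
  have hι : ∀ u v, segment ℝ u v ⊆ S.U → ∀ x, S.io' n v (τ u v x) = S.io' n u x :=
    fun u v h => T.map_lef h (L u (h (left_mem_segment ℝ u v))) (L v (h (right_mem_segment ℝ u v)))
  refine ⟨Z, T.loc, ⟨finrank ℝ M - 2, S.small_disc (by omega), by omega⟩,
    ⟨finrank ℝ M - 4, z1 _ (by omega), by omega⟩, z2, z4, fun u hu => (L u hu).fin,
    fun u hu => (L u hu).isForm, fun u v h x y => ?_, fun u v h x hx => ?_, fun u hu x => ?_,
    fun s hs hs' u hu => ?_, fun y hy hy' => ?_⟩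
  · rw [bil_apply, bil_apply, ← T.map_mul h, hι u v h]
  · refine mem_van.2 fun j => ?_
    rw [← T.map_pow h, ← T.map_mul h, hι u v h, mem_van.1 hx]
  · obtain ⟨a, ha, b, hb, rfl⟩ := Submodule.mem_sup.1
      ((L u hu).isCompl.sup_eq_top ▸ Submodule.mem_top (x := x))
    obtain ⟨e, rfl⟩ := S.amb_le_I univ u trivial ha
    have h2 := T.flat_sec univ e
    rw [univ_inter] at h2
    refine ⟨_, h2, ?_, fun w hw => ?_⟩ <;> rw [S.sec_of_mem e (mem_univ u)]
    · exact (add_sub_cancel_left _ b).symm ▸ hb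
    · change bil _ ((H.mapA (S.rs univ u trivial)).toLinearMap e) w = 0
      generalize (H.mapA (S.rs univ u trivial)).toLinearMap e = a at ha
      induction ha using Submodule.span_induction with
      | mem x hx =>
        obtain ⟨j, rfl⟩ := hx
        exact mem_van.1 hw j
      | zero => simp
      | add x y _ _ hx hy => simp [hx, hy]
      | smul c x _ hx => simp [hx]
  · exact (L u hu).isCompl.disjoint.le_bot
      ⟨S.kl hn h1 T hO hd hs (fun v hv => (L v hv).van_deg (hs' v hv)) hu, hs' u hu⟩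
  · obtain ⟨N, n1, n2, n3, ⟨u, hu, φ, n4⟩, n5, -⟩ := S.node_flat hn h1 T hO (z5 y hy hy')
    refine ⟨N, n1, n2, n3, ⟨u, hu, φ, fun x hx h0 => ?_⟩, fun y' h2 h3 O h5 h6 σ h7 h8 => ?_⟩
    · obtain ⟨e, he⟩ := n4 x ((L u hu.2).van_deg hx) h0
      exact ⟨_, T.flat_sec N e, he⟩
    · obtain ⟨w, hw, e, he⟩ := n5 y' h2 h3 O h5 h6 σ h7 fun w hw => (L w hw.2).van_deg (h8 w hw)
      exact ⟨w, hw, _, T.flat_sec N e, he⟩

/-- **The vanishing cycles span the primitive cohomology and act irreducibly.** -/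
theorem Tau.exists_irr (hu : u ∈ S.U) {ι : H (S.X u) →ₗ[ℂ] ℂ} (L : Lef n (S.h u) ι) :
    ∃ Δ, Inv.Irr (bil ι) (van (S.h u) ι) Δ ∧
      ∀ δ ∈ Δ, δ ≠ 0 ∧ ∃ c : ℂ, c ≠ 0 ∧ Pth τ S.U u u (1 + c • Inv.rk (bil ι) δ δ) := by
  by_cases hd : ∃ j, 2 ≤ S.d j
  · obtain ⟨j, hj⟩ := hd
    obtain ⟨Z, P⟩ := T.plSys hn h1 hO hj
    obtain rfl := S.io'_eq L
    exact ⟨_, P.irr hu, fun δ hδ => hδ.2⟩
  · rw [L.van_eq_bot (S.mem_amb_of_linear (fun j => by
      have := S.pos j
      have := not_exists.1 hd j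
      omega) u)]
    exact ⟨∅, ⟨Submodule.span_empty, fun W hW _ => Or.inl (eq_bot_iff.2 hW)⟩, by simp⟩

omit T hO

variable (S) {u₀ : M} (h₀ : u₀ ∈ S.U) {β₀ : BM (S.X u₀)} (hβ : Orb.Ori (2 * n) β₀)
include h₀ hβ

theorem exists_lef' (hu : u ∈ S.U) : ∃ ι, Lef n (S.h u) ι :=
  ⟨_, lef_io' hn h1 (fun _ hv => S.exists_ori h₀ hv hβ) hu⟩

/-- **Monodromy invariance**: a deformation invariant family of multilinear forms is invariant under
the full symplectic or orthogonal group of the primitive cohomology. -/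
theorem isInv {ι' : Type*} [Fintype ι'] [DecidableEq ι'] {F : ∀ u, Inv.MF ι' (H (S.X u))}
    (hF : S.DefInv fun u => F u) (hu : u ∈ S.U) {ι : H (S.X u) →ₗ[ℂ] ℂ} (L : Lef n (S.h u) ι)
    (hx : Even n → ∃ x ∈ van (S.h u) ι, x ≠ 0 ∧ bil ι x x = 0 ∧ cj x = x) :
    Inv.IsInv (bil ι) (van (S.h u) ι) ((-1) ^ n) (F u) := by
  obtain ⟨τ, T⟩ := S.exists_tau
  obtain ⟨Δ, h2, h3⟩ := T.exists_irr hn h1 (fun _ hv => S.exists_ori h₀ hv hβ) hu L
  have := L.fin
  have h4 := L.isForm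
  rcases n.even_or_odd with he | ho
  · rw [he.neg_one_pow] at h4 ⊢
    obtain ⟨x, x1, x2, x3, x4⟩ := hx he
    obtain ⟨a, ha, ha'⟩ := L.exists_real
    have h5 : ∀ δ ∈ Δ, bil ι δ δ ≠ 0 ∧ Pth τ S.U u u (Inv.refl (bil ι) δ) := fun δ hδ => by
      obtain ⟨h6, c, hc, h7⟩ := h3 δ hδ
      obtain ⟨h8, h9⟩ := eq_refl h4 (h2.mem hδ) h6 hc fun x _ => by
        rw [bil_apply, ← T.pth_mul h7, T.pth_lef h7 L L, bil_apply]
      exact ⟨h8, h9 ▸ h7⟩
    exact isInv_of_real h4 h2 (fun δ hδ => ⟨(h5 δ hδ).1, T.pth_defInv (h5 δ hδ).2 hF⟩) cj cj_cj ha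
      (fun x y => by rw [bil_apply, ← cj_mul, ha', bil_apply])
      (fun δ hδ x => (T.pth_cj (h5 δ hδ).2 x).symm) x1 x2 x3 x4
  · rw [ho.neg_one_pow] at h4 ⊢
    refine ⟨Inv.lieInv_of_transvections h4 h2 fun δ hδ => ?_, fun h => by norm_num at h⟩
    obtain ⟨-, c, hc, h7⟩ := h3 δ hδ
    exact ⟨c, hc, T.pth_defInv h7 hF⟩

omit hn h1 h₀ hβ

/-- the cohomology rings of two smooth members are isomorphic, compatibly with everything -/
theorem exists_iso (hu : u ∈ S.U) (hv : v ∈ S.U) : ∃ g : H (S.X u) ≃ₐ[ℂ] H (S.X v),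
    g (S.h u) = S.h v ∧ (∀ k x, g (H.comp k x) = H.comp k (g x)) ∧ (∀ x, g (cj x) = cj (g x)) ∧
    (∀ n ι ι', Lef n (S.h u) ι → Lef n (S.h v) ι' → ∀ x, ι' (g x) = ι x) ∧
    ∀ (ι A : Type) (F : ∀ u, (ι → H (S.X u)) → A), S.DefInv F →
      ∀ x, F v (fun i => g (x i)) = F u x := by
  obtain ⟨τ, T⟩ := S.exists_tau
  obtain ⟨g, hg⟩ := T.exists_pth hu hv
  refine ⟨AlgEquiv.ofLinearEquiv (LinearEquiv.ofBijective g (T.pth_bij hg)) ?_ (T.pth_mul hg), ?_,
    T.pth_comp hg, T.pth_cj hg, fun n ι ι' L L' => T.pth_lef hg L L',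
    fun ι A F hF => T.pth_defInv hg hF⟩
  · simpa using T.pth_pow hg 0
  · simpa using T.pth_pow hg 1

end CI

end Vale.Agent.P269.Mono
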