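import Vale.Agent.P269.Mono.Low

/-!
# P269, monodromy: the complement of the zero set of a holomorphic map (helper19)
-/

namespace Vale.Agent.P269.Mono

open Set Topology Filter Module Function Vale.Agent.P291Z Complex
open scoped ContDiff InnerProductSpace

theorem le_two_mul_sigPos {W : Type} [AddCommGroup W] [Module ℝ W] [FiniteDimensional ℝ W]
    (Q : QuadraticForm ℝ W) {J : W →ₗ[ℝ] W} (hJ : Injective J)
    (h : ∀ v, v ≠ 0 → 0 < Q v + Q (J v)) : finrank ℝ W ≤ 2 * sigPos Q := by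
  obtain ⟨N, hN, hN'⟩ := exists_finrank_eq_sigNeg_and_negDef Q
  have h1 := QuadraticForm.sigPos_add_sigNeg_add_radical (Q := Q)
  have hneg : ∀ v ∈ N, v ≠ 0 → Q v < 0 := fun v hv h0 => by
    simpa using hN' ⟨v, hv⟩ fun e => h0 (congrArg Subtype.val e)
  have h2 : N ⊓ Q.radical = ⊥ := (Submodule.eq_bot_iff _).2 fun v hv => by
    by_contra h0
    exact (hneg v hv.1 h0).ne (QuadraticMap.mem_radical_iff'.1 hv.2).1
  have h3 : ∀ v ∈ N ⊔ Q.radical, Q v ≤ 0 := fun v hv => by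
    obtain ⟨a, ha, b, hb, rfl⟩ := Submodule.mem_sup.1 hv
    rw [add_comm, (QuadraticMap.mem_radical_iff'.1 hb).2]
    rcases eq_or_ne a 0 with rfl | h0
    · simp
    · exact (hneg a ha h0).le
  have h4 := Submodule.finrank_sup_add_finrank_inf_eq N Q.radical
  rw [h2, finrank_bot] at h4
  have h5 : (N ⊔ Q.radical) ⊓ (N ⊔ Q.radical).map J = ⊥ := (Submodule.eq_bot_iff _).2 fun v hv => by
    obtain ⟨w, hw, rfl⟩ := hv.2
    by_contra h0
    have := h w fun e => h0 (by rw [e, map_zero])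
    linarith [h3 w hw, h3 _ hv.1]
  have h6 := Submodule.finrank_sup_add_finrank_inf_eq (N ⊔ Q.radical) ((N ⊔ Q.radical).map J)
  rw [h5, finrank_bot, ← (Submodule.equivMapOfInjective J hJ _).finrank_eq] at h6
  have h7 := Submodule.finrank_le ((N ⊔ Q.radical) ⊔ (N ⊔ Q.radical).map J)
  omega

variable {V F : Type} [NormedAddCommGroup V] [NormedSpace ℂ V] [FiniteDimensional ℂ V]
  [NormedAddCommGroup F] [InnerProductSpace ℂ F]

theorem exists_pos_of_levi (B : V →L[ℝ] V →L[ℝ] ℝ) (W : Submodule ℂ V)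
    (h : ∀ v ∈ W, v ≠ 0 → 0 < B v v + B (I • v) (I • v)) :
    ∃ E : Submodule ℝ V, finrank ℂ W ≤ finrank ℝ E ∧ ∀ v ∈ E, v ≠ 0 → 0 < B v v := by
  let W' := W.restrictScalars ℝ
  let Q : QuadraticForm ℝ W' :=
    (LinearMap.BilinMap.toQuadraticMap (ContinuousLinearMap.toLinearMap₁₂ B)).restrict W'
  let J : W' →ₗ[ℝ] W' :=
    { toFun := fun v => ⟨I • v.1, W.smul_mem I v.2⟩
      map_add' := fun v w => Subtype.ext (smul_add _ _ _)
      map_smul' := fun c v => Subtype.ext (smul_comm _ _ _) }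
  have h1 := le_two_mul_sigPos Q (J := J)
    (fun v w e => Subtype.ext (smul_right_injective V I_ne_zero (congrArg Subtype.val e)))
    fun v hv => h v.1 v.2 fun e => hv (Subtype.ext e)
  have h2 : finrank ℝ W' = 2 * finrank ℂ W := by
    rw [((W.restrictScalarsEquiv ℝ ℂ V).restrictScalars ℝ).finrank_eq, ← finrank_mul_finrank ℝ ℂ W,
      Complex.finrank_real_complex]
  obtain ⟨E, hE, hE'⟩ := exists_finrank_eq_sigPos_and_posDef Q
  refine ⟨E.map W'.subtype, ?_, ?_⟩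
  · rw [← (Submodule.equivMapOfInjective _ W'.injective_subtype E).finrank_eq]
    omega
  · rintro _ ⟨v, hv, rfl⟩ h0
    exact hE' ⟨v, hv⟩ fun e => h0 (congrArg (fun x : E => (x.1 : V)) e)

theorem hess_eq {V : Type} [NormedAddCommGroup V] [NormedSpace ℝ V] {φ : V → ℝ} {y v : V}
    (h : ContDiffAt ℝ 2 φ y) {g : ℝ → ℝ} {c : ℝ}
    (h1 : ∀ᶠ t in 𝓝 (0 : ℝ), HasDerivAt (fun t : ℝ => φ (y + t • v)) (g t) t)
    (h2 : HasDerivAt g c 0) : hess φ y v = c := by
  have hc : ContinuousAt (fun t : ℝ => y + t • v) 0 := by fun_prop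
  have h3 : ∀ᶠ t in 𝓝 (0 : ℝ), ContDiffAt ℝ 2 φ (y + t • v) :=
    hc.eventually (by simpa using h.eventually (by simp))
  have h4 := (hasDerivAt_line (a := y) (v := v) (t := 0) (by simpa using h)).2
  rw [zero_smul, add_zero] at h4
  refine h4.unique (h2.congr_of_eventuallyEq ?_)
  filter_upwards [h1, h3] with t a b using (hasDerivAt_line b).1.unique a

omit [FiniteDimensional ℂ V] in
theorem hasDerivAt_line_c {G : Type} [NormedAddCommGroup G] [NormedSpace ℂ G] {f : V → G}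
    (hf : Differentiable ℂ f) (y v : V) (t : ℝ) :
    HasDerivAt (fun t : ℝ => f (y + t • v)) (fderiv ℂ f (y + t • v) v) t := by
  have h1 : HasDerivAt (fun t : ℝ => y + t • v) v t := by
    simpa using ((hasDerivAt_id t).smul_const v).const_add y
  exact ((hf _).hasFDerivAt.restrictScalars ℝ).comp_hasDerivAt t h1

theorem hasDerivAt_aux {G : Type} [NormedAddCommGroup G] [InnerProductSpace ℝ G] {a : ℝ → G}
    {a' : G} {g : ℝ → F} {g' : F} {t : ℝ} (ha : HasDerivAt a a' t) (hg : HasDerivAt g g' t)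
    (h0 : g t ≠ 0) : HasDerivAt (fun t => ‖a t‖ ^ 2 + (‖g t‖ ^ 2)⁻¹)
      (2 * ⟪a t, a'⟫_ℝ - 2 * (⟪g t, g'⟫_ℂ).re / (‖g t‖ ^ 2) ^ 2) t := by
  have h1 : HasDerivAt (fun t => ‖g t‖ ^ 2) (2 * (⟪g t, g'⟫_ℂ).re) t := by
    let := InnerProductSpace.rclikeToReal ℂ F
    exact hg.norm_sq
  refine (ha.norm_sq.add (h1.inv (pow_ne_zero 2 (norm_ne_zero_iff.2 h0)))).congr_deriv ?_
  ring

omit [FiniteDimensional ℂ V] in
theorem hess_aux {G : Type} [NormedAddCommGroup G] [InnerProductSpace ℝ G] (e : V →L[ℝ] G)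
    {f : V → F} (hf : ContDiff ℂ ∞ f) {y : V} (hy : f y ≠ 0)
    (hψ : ContDiffAt ℝ 2 (fun x => ‖e x‖ ^ 2 + (‖f x‖ ^ 2)⁻¹) y) (v : V) :
    hess (fun x => ‖e x‖ ^ 2 + (‖f x‖ ^ 2)⁻¹) y v = 2 * ‖e v‖ ^ 2 -
      2 * ((⟪f y, fderiv ℂ (fderiv ℂ f) y v v⟫_ℂ).re + ‖fderiv ℂ f y v‖ ^ 2) / (‖f y‖ ^ 2) ^ 2 +
      8 * (⟪f y, fderiv ℂ f y v⟫_ℂ).re ^ 2 / (‖f y‖ ^ 2) ^ 3 := by
  have d0 : ∀ t : ℝ, HasDerivAt (fun t : ℝ => e (y + t • v)) (e v) t := fun t => by
    simpa using ((hasDerivAt_id t).smul_const (e v)).const_add (e y)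
  have d1 := hasDerivAt_line_c (hf.differentiable (by simp)) y v
  have d2 : HasDerivAt (fun t : ℝ => fderiv ℂ f (y + t • v) v)
      (fderiv ℂ (fderiv ℂ f) y v v) 0 := by
    have := hasDerivAt_line_c ((hf.fderiv_right (m := 1)
      (WithTop.coe_le_coe.2 le_top)).differentiable (by simp)) y v 0
    rw [zero_smul, add_zero] at this
    exact ((ContinuousLinearMap.apply ℂ F v).restrictScalars ℝ).hasFDerivAt.comp_hasDerivAt 0 this
  have hne : ∀ᶠ t in 𝓝 (0 : ℝ), f (y + t • v) ≠ 0 :=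
    (d1 0).continuousAt.eventually_ne (by simpa using hy)
  have h1 : HasDerivAt (fun t : ℝ => ‖f (y + t • v)‖ ^ 2)
      (2 * (⟪f (y + (0 : ℝ) • v), fderiv ℂ f (y + (0 : ℝ) • v) v⟫_ℂ).re) 0 := by
    let := InnerProductSpace.rclikeToReal ℂ F
    exact (d1 0).norm_sq
  have h2 := Complex.reCLM.hasFDerivAt.comp_hasDerivAt 0 ((d1 0).inner ℂ d2)
  have h3 := (d0 0).inner ℝ (hasDerivAt_const (0 : ℝ) (e v))
  have hN : ‖f y‖ ≠ 0 := norm_ne_zero_iff.2 hy
  refine hess_eq hψ (hne.mono fun t ht => hasDerivAt_aux (d0 t) (d1 t) ht) ?_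
  refine ((h3.const_mul 2).sub ((h2.const_mul 2).div (h1.pow 2) (by simpa using hN))).congr_deriv ?_
  simp only [zero_smul, add_zero, inner_zero_right, zero_add, real_inner_self_eq_norm_sq,
    Complex.reCLM_apply, Complex.add_re, comp_apply, Pi.pow_apply]
  rw [show (⟪fderiv ℂ f y v, fderiv ℂ f y v⟫_ℂ).re = ‖fderiv ℂ f y v‖ ^ 2 from
    inner_self_eq_norm_sq (𝕜 := ℂ) _]
  field_simp
  ring

/-- **The theorem of Andreotti and Frankel.** -/
theorem low_ne_zero' [FiniteDimensional ℂ F] {f : V → F} (hf : ContDiff ℂ ∞ f) {q : ℕ}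
    (hq : q + finrank ℂ F ≤ finrank ℂ V + 1) : Low {x | f x ≠ 0} q := by
  let e : V ≃L[ℝ] EuclideanSpace ℝ (Fin (finrank ℝ V)) := toEuclidean
  have hψ : ∀ x, f x ≠ 0 → ContDiffAt ℝ 2 (fun x => ‖e x‖ ^ 2 + (‖f x‖ ^ 2)⁻¹) x := fun x hx => by
    refine (e.contDiff.contDiffAt.norm_sq ℝ).add (ContDiffAt.inv ?_ (by simpa using hx))
    exact ((hf.of_le (WithTop.coe_le_coe.2 le_top)).restrict_scalars ℝ).contDiffAt.norm_sq ℂ
  refine low_of_exhaustion (isOpen_ne_fun hf.continuous continuous_const) hψ (fun a => ?_)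
    fun y hy => ?_
  · have h1 : {x | x ∈ {x | f x ≠ 0} ∧ ‖e x‖ ^ 2 + (‖f x‖ ^ 2)⁻¹ ≤ a} =
        {x | ‖e x‖ ^ 2 * ‖f x‖ ^ 2 + 1 ≤ a * ‖f x‖ ^ 2} := by
      ext x
      rcases eq_or_ne (f x) 0 with h | h
      · simp [h]
      · have : 0 < ‖f x‖ ^ 2 := by positivity
        simp only [mem_ofPred_eq, h, ne_eq, not_false_eq_true, true_and]
        rw [← mul_le_mul_iff_left₀ this, add_mul, inv_mul_cancel₀ this.ne']
    have h2 := hf.continuous
    refine (e.toHomeomorph.isCompact_preimage.2 (isCompact_closedBall 0 √a)).of_isClosed_subset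
      (h1 ▸ isClosed_le (by fun_prop) (by fun_prop)) fun x hx => ?_
    refine mem_closedBall_zero_iff.2 (Real.le_sqrt_of_sq_le (le_trans ?_ hx.2))
    exact le_add_of_nonneg_right (by positivity)
  · let L : Submodule ℂ F := Submodule.span ℂ {f y}
    let W : Submodule ℂ V := LinearMap.ker (L.mkQ ∘ₗ (fderiv ℂ f y : V →ₗ[ℂ] F))
    obtain ⟨E, h1, h2⟩ := exists_pos_of_levi
      (fderiv ℝ (fderiv ℝ fun x => ‖e x‖ ^ 2 + (‖f x‖ ^ 2)⁻¹) y) W fun v hv h0 => by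
        obtain ⟨a, ha⟩ := Submodule.mem_span_singleton.1 ((Submodule.Quotient.mk_eq_zero L).1 hv)
        have a1 := hess_aux e.toContinuousLinearMap hf hy (hψ y hy) v
        have a2 := hess_aux e.toContinuousLinearMap hf hy (hψ y hy) (I • v)
        have hN : 0 < ‖f y‖ := norm_pos_iff.2 hy
        have a3 : 0 < ‖e v‖ := norm_pos_iff.2 (by simpa using h0)
        have a4 : ⟪f y, f y⟫_ℂ = ((‖f y‖ ^ 2 : ℝ) : ℂ) := by simp [inner_self_eq_norm_sq_to_K]
        change a • f y = fderiv ℂ f y v at ha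
        simp only [map_smul, smul_apply, ← ha, inner_smul_right, a4, norm_smul,
          mul_re, I_re, I_im, mul_im, ofReal_re, ofReal_im, norm_I, mul_pow,
          ContinuousLinearEquiv.coe_coe] at a1 a2
        refine lt_of_lt_of_eq ?_ (congrArg₂ (· + ·) a1 a2).symm
        have a5 : ‖a‖ ^ 2 = a.re ^ 2 + a.im ^ 2 := by
          rw [Complex.sq_norm, normSq_apply]
          ring
        calc (0 : ℝ) < 2 * ‖e v‖ ^ 2 + 2 * ‖e (I • v)‖ ^ 2 + 4 * ‖a‖ ^ 2 / ‖f y‖ ^ 2 := by positivity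
          _ = _ := by
            rw [a5]
            field_simp
            ring
    refine ⟨E, le_trans ?_ h1, h2⟩
    have h3 := LinearMap.finrank_range_add_finrank_ker (L.mkQ ∘ₗ (fderiv ℂ f y : V →ₗ[ℂ] F))
    have h4 := Submodule.finrank_le (LinearMap.range (L.mkQ ∘ₗ (fderiv ℂ f y : V →ₗ[ℂ] F)))
    have h5 := L.finrank_quotient_add_finrank
    have h6 : finrank ℂ L = 1 := finrank_span_singleton hy
    change q ≤ finrank ℂ (LinearMap.ker _)
    omega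

theorem low_ne_zero {κ : Type} [Fintype κ] {f : V → κ → ℂ} (hf : ContDiff ℂ ∞ f) {q : ℕ}
    (hq : q + Fintype.card κ ≤ finrank ℂ V + 1) : Low {x | f x ≠ 0} q :=
  (low_ne_zero' ((EuclideanSpace.equiv κ ℂ).symm.contDiff.comp hf) (by simpa using hq)).congr
    fun x => by simp

end Vale.Agent.P269.Mono
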