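import Vale.Agent.P269.Mono.MorseB

/-!
# P269, monodromy: the holomorphic Morse lemma with parameters for polynomial maps
-/

namespace Vale.Agent.P269.Mono

open Set Topology Filter Module Function
open scoped ContDiff

variable {M E Y : Type} [NormedAddCommGroup M] [NormedSpace ℂ M] [FiniteDimensional ℂ M]
  [NormedAddCommGroup E] [NormedSpace ℂ E] [FiniteDimensional ℂ E] [NormedAddCommGroup Y]
  [NormedSpace ℂ Y] [FiniteDimensional ℂ Y] {f₀ : M × E → ℂ} {f' : M × E → Y}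

namespace Mo

omit [FiniteDimensional ℂ M] [FiniteDimensional ℂ E] in
theorem surj_of_inj (d₀ : ContDiff ℂ ω f₀) (d' : ContDiff ℂ ω f') {u : M} {y : E} {μ : Y →L[ℂ] ℂ}
    (h : Injective (fderiv ℂ (cr f₀ f' u) (y, μ))) :
    Surjective (fderiv ℂ (fun y => f' (u, y)) y) := by
  by_contra h1
  obtain ⟨ν, hν, h2⟩ := Submodule.exists_le_ker_of_lt_top
    (LinearMap.range (fderiv ℂ (fun y => f' (u, y)) y : E →ₗ[ℂ] Y))
    (lt_top_iff_ne_top.2 fun h2 => h1 (LinearMap.range_eq_top.1 h2))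
  have h3 := (injective_iff_map_eq_zero _).1 h (0, LinearMap.toContinuousLinearMap ν) (by
    rw [fderiv_cr d₀ d', map_zero, map_zero, zero_add]
    refine Prod.ext ?_ rfl
    ext k
    exact h2 ⟨k, rfl⟩)
  exact hν ((map_eq_zero_iff _ LinearMap.toContinuousLinearMap.injective).1 (congrArg Prod.snd h3))

omit [FiniteDimensional ℂ M] [FiniteDimensional ℂ E] in
theorem nondeg (d₀ : ContDiff ℂ ω f₀) (d' : ContDiff ℂ ω f') {u : M} {y : E} {μ : Y →L[ℂ] ℂ}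
    (h : Injective (fderiv ℂ (cr f₀ f' u) (y, μ))) {k : E}
    (h1 : fderiv ℂ (fun y => f' (u, y)) y k = 0) (h2 : ∀ k', fderiv ℂ (fun y => f' (u, y)) y k' = 0 →
      fderiv ℂ (fderiv ℂ fun y => f₀ (u, y) + μ (f' (u, y))) y k k' = 0) : k = 0 := by
  obtain ⟨B, hB⟩ := LinearMap.exists_rightInverse_of_surjective
    (fderiv ℂ (fun y => f' (u, y)) y : E →ₗ[ℂ] Y) (LinearMap.range_eq_top.2 (surj_of_inj d₀ d' h))
  have hB' : ∀ z, fderiv ℂ (fun y => f' (u, y)) y (B z) = z := fun z => LinearMap.congr_fun hB z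
  have h3 := (injective_iff_map_eq_zero _).1 h (k, -(fderiv ℂ (fderiv ℂ fun y => f₀ (u, y) +
      μ (f' (u, y))) y k).comp (LinearMap.toContinuousLinearMap B)) (by
    rw [fderiv_cr d₀ d']
    refine Prod.ext ?_ h1
    ext x
    have h4 := h2 (x - B (fderiv ℂ (fun y => f' (u, y)) y x)) (by rw [map_sub, hB', sub_self])
    rw [map_sub, sub_eq_add_neg] at h4
    exact h4)
  exact congrArg Prod.fst h3

omit [FiniteDimensional ℂ M] [FiniteDimensional ℂ E] [FiniteDimensional ℂ Y] in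
theorem fderiv_val (d₀ : ContDiff ℂ ω f₀) (d' : ContDiff ℂ ω f') {u₀ : M} {ξ : M → E}
    {μ : Y →L[ℂ] ℂ} (hξ : ContDiffAt ℂ ω ξ u₀) (h1 : cr f₀ f' u₀ (ξ u₀, μ) = 0)
    (h2 : ∀ᶠ u in 𝓝 u₀, f' (u, ξ u) = 0) (u : M) : fderiv ℂ (fun u => f₀ (u, ξ u)) u₀ u =
      fderiv ℂ f₀ (u₀, ξ u₀) (u, 0) + μ (fderiv ℂ f' (u₀, ξ u₀) (u, 0)) := by
  have a1 : HasFDerivAt (fun u => (u, ξ u)) ((ContinuousLinearMap.id ℂ M).prod (fderiv ℂ ξ u₀))
      u₀ := (hasFDerivAt_id u₀).prodMk (hξ.differentiableAt (by simp)).hasFDerivAt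
  have a2 : HasFDerivAt (fun u => f₀ (u, ξ u)) _ u₀ :=
    HasFDerivAt.comp (g := f₀) u₀ (d₀.differentiable (by simp) _).hasFDerivAt a1
  have a3 : HasFDerivAt (fun u => f' (u, ξ u)) _ u₀ :=
    HasFDerivAt.comp (g := f') u₀ (d'.differentiable (by simp) _).hasFDerivAt a1
  have a4 : fderiv ℂ f' (u₀, ξ u₀) (u, fderiv ℂ ξ u₀ u) = 0 :=
    DFunLike.congr_fun (a3.unique ((hasFDerivAt_const (0 : Y) u₀).congr_of_eventuallyEq h2)) u
  have a5 : fderiv ℂ f₀ (u₀, ξ u₀) (0, fderiv ℂ ξ u₀ u) +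
      μ (fderiv ℂ f' (u₀, ξ u₀) (0, fderiv ℂ ξ u₀ u)) = 0 := by
    have a6 := DFunLike.congr_fun (congrArg Prod.fst h1) (fderiv ℂ ξ u₀ u)
    simp only [cr, fderiv_snd d₀, fderiv_snd d'] at a6
    exact a6
  have e : (u, fderiv ℂ ξ u₀ u) = (u, 0) + (0, fderiv ℂ ξ u₀ u) := by simp
  have a7 := congrArg μ a4
  rw [e, map_add, map_add, map_zero] at a7
  rw [a2.fderiv]
  show fderiv ℂ f₀ (u₀, ξ u₀) (u, fderiv ℂ ξ u₀ u) = _
  rw [e, map_add]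
  linear_combination a5 - a7

theorem core (h₀ : f₀ ∈ Pol (M × E)) (h' : ∀ ν : Y →L[ℂ] ℂ, (fun p => ν (f' p)) ∈ Pol (M × E))
    {u₀ : M} {y₀ : E} {μ₀ : Y →L[ℂ] ℂ} (h2 : cr f₀ f' u₀ (y₀, μ₀) = 0)
    (h3 : Injective (fderiv ℂ (cr f₀ f' u₀) (y₀, μ₀))) {m : ℕ}
    (hn : finrank ℂ E = m + finrank ℂ Y) :
    ∃ (ξ : M → E) (G : M × E → Fin m → ℂ) (L : E →L[ℂ] (Fin m → ℂ) × Y), ContDiffAt ℂ ω ξ u₀ ∧
      ξ u₀ = y₀ ∧ (∀ᶠ u in 𝓝 u₀, f' (u, ξ u) = 0) ∧ ContDiffAt ℂ ω G (u₀, y₀) ∧ G (u₀, y₀) = 0 ∧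
      HasFDerivAt (fun y => (G (u₀, y), f' (u₀, y))) L y₀ ∧ Injective L ∧
      ∀ᶠ p in 𝓝 (u₀, y₀), f' p = 0 → f₀ p = qf (G p) + f₀ (p.1, ξ p.1) := by
  have := FiniteDimensional.complete ℂ E
  have d₀ : ContDiff ℂ ω f₀ := pol_contDiff h₀
  have d' := contDiff_vec h'
  obtain ⟨A, S, cA, cS, eA, e', e₀⟩ := hada_pair h₀ h'
  have c1 := contDiff_cr d₀ d'
  obtain ⟨φ, cφ, φ0, hφ⟩ := ift (G := fun p : M × E × (Y →L[ℂ] ℂ) => cr f₀ f' p.1 p.2) (u₀ := u₀)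
    (w₀ := (y₀, μ₀)) c1.contDiffAt
    ((c1.comp (contDiff_const.prodMk contDiff_id)).differentiable (by simp) _).hasFDerivAt h3
    (by rw [finrank_prod, finrank_prod, finrank_dual, finrank_dual])
  simp only [h2] at hφ
  have cs : ContDiff ℂ ω fun η => S (((u₀, y₀), η), μ₀) :=
    cS.comp ((contDiff_const.prodMk contDiff_id).prodMk contDiff_const)
  have c₀ : ContDiff ℂ ω fun y => f₀ (u₀, y) := d₀.comp (contDiff_const.prodMk contDiff_id)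
  have c' : ContDiff ℂ ω fun y => f' (u₀, y) := d'.comp (contDiff_const.prodMk contDiff_id)
  have hH := hess (ℓ := fun y => f₀ (u₀, y) + μ₀ (f' (u₀, y))) (c₀.add (μ₀.contDiff.comp c')) cs
    (y := y₀) fun η => by
      have a1 := ((c₀.differentiable (by simp) y₀).hasFDerivAt.fun_add
        (μ₀.hasFDerivAt.comp y₀ (c'.differentiable (by simp) y₀).hasFDerivAt)).fderiv
      simp only [Function.comp_def] at a1
      rw [a1, e₀]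
      rfl
  obtain ⟨Q, e, he, hQ⟩ := exists_coord (surj_of_inj d₀ d' h3) (S := S (((u₀, y₀), 0), μ₀))
    (fun k a1 a2 => nondeg d₀ d' h3 a1 fun k' a3 => (hH k k').trans (a2 k' a3)) hn
  have cφ' : ContDiffAt ℂ ω (fun p : M × E => φ p.1) (u₀, y₀) :=
    ContDiffAt.comp (g := φ) _ cφ contDiffAt_fst
  have cη : ContDiffAt ℂ ω (fun p : M × E => p.2 - (φ p.1).1) (u₀, y₀) := contDiffAt_snd.sub cφ'.fst
  let z : M × E → (M × E) × E := fun p => ((p.1, (φ p.1).1), p.2 - (φ p.1).1)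
  have cz : ContDiffAt ℂ ω z (u₀, y₀) := (contDiffAt_fst.prodMk cφ'.fst).prodMk cη
  have z0 : z (u₀, y₀) = ((u₀, y₀), 0) := by simp [z, φ0]
  let Lp : M × E → E →L[ℂ] (Fin m → ℂ) × Y := fun p => Q.prod (A (z p))
  have cL : ContDiffAt ℂ ω Lp (u₀, y₀) := contDiffAt_clm fun y =>
    contDiffAt_const.prodMk ((cA.contDiffAt.comp _ cz).clm_apply contDiffAt_const)
  have L0 : Lp (u₀, y₀) = e := by simp only [Lp, z0, eA, he]
  have cI : ContDiffAt ℂ ω (fun p => (Lp p).inverse) (u₀, y₀) :=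
    ContDiffAt.comp (g := ContinuousLinearMap.inverse) _
      (by rw [L0]; exact contDiffAt_map_inverse e) cL
  let P : M × E → (Fin m → ℂ) →L[ℂ] E := fun p =>
    (Lp p).inverse.comp (ContinuousLinearMap.inl ℂ _ Y)
  let T : M × E → (Fin m → ℂ) →L[ℂ] (Fin m → ℂ) →L[ℂ] ℂ := fun p =>
    (S (z p, (φ p.1).2)).bilinearComp (P p) (P p)
  have hT : ∀ p a b, T p a b =
      S (z p, (φ p.1).2) ((Lp p).inverse (a, 0)) ((Lp p).inverse (b, 0)) := fun _ _ _ => rfl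
  have cT : ContDiffAt ℂ ω T (u₀, y₀) := contDiffAt_clm fun a => contDiffAt_clm fun b => by
    simp only [hT]
    exact ((cS.contDiffAt.comp _ (cz.prodMk cφ'.snd)).clm_apply
      (cI.clm_apply contDiffAt_const)).clm_apply (cI.clm_apply contDiffAt_const)
  obtain ⟨R, cR, R0, hR⟩ := exists_root cT fun a => by
    rw [hT, L0, z0, φ0, ContinuousLinearMap.inverse_equiv]
    exact hQ a
  have b1 : HasFDerivAt (fun y => R (u₀, y)) _ y₀ :=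
    hasFDerivAt_right (cR.differentiableAt (by simp))
  have b2 : HasFDerivAt (fun y => Q (y - (φ u₀).1)) Q y₀ :=
    Q.hasFDerivAt.comp y₀ ((hasFDerivAt_id y₀).sub_const _)
  refine ⟨fun u => (φ u).1, fun p => R p (Q (p.2 - (φ p.1).1)), e, cφ.fst, by simp only [φ0], ?_,
    cR.clm_apply (Q.contDiff.contDiffAt.comp _ cη), by simp [φ0], ?_, e.injective, ?_⟩
  · filter_upwards [hφ] with u hu using congrArg Prod.snd hu
  · refine ((b1.clm_apply b2).prodMk (c'.differentiable (by simp) y₀).hasFDerivAt).congr_fderiv ?_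
    rw [he, R0, φ0, sub_self, map_zero, map_zero, add_zero, ContinuousLinearMap.id_comp]
  · have b3 : ∀ᶠ p in 𝓝 (u₀, y₀), Lp p ∈ range
        ((↑) : (E ≃L[ℂ] (Fin m → ℂ) × Y) → E →L[ℂ] (Fin m → ℂ) × Y) :=
      cL.continuousAt.preimage_mem_nhds (by rw [L0]; exact e.nhds)
    filter_upwards [b3, hR, (continuousAt_fst (p := (u₀, y₀))).eventually hφ]
    rintro ⟨u, y⟩ ⟨e₁, a1⟩ a2 a3 a4
    have a5 : f' (u, (φ u).1) = 0 := congrArg Prod.snd a3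
    have a6 := e' u (φ u).1 (y - (φ u).1)
    have a7 := e₀ u (φ u).1 (y - (φ u).1) (φ u).2
    have a8 : cr f₀ f' u ((φ u).1, (φ u).2) = 0 := a3
    rw [add_sub_cancel, a4, a5, zero_add] at a6
    rw [add_sub_cancel, a4, a5, a8, map_zero] at a7
    have a9 : (Lp (u, y)).inverse (Q (y - (φ u).1), 0) = y - (φ u).1 := by
      rw [← a1, ContinuousLinearMap.inverse_equiv]
      refine e₁.symm_apply_eq.2 ?_
      rw [← e₁.coe_coe, a1]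
      exact Prod.ext rfl a6
    have a10 := a2 (Q (y - (φ u).1))
    rw [hT, a9] at a10
    simp only [Prod.fst_zero, zero_apply, add_zero] at a7
    rw [a7, qf, a10, add_comm]

end Mo

open Mo in
theorem morse {M E Y : Type} [NormedAddCommGroup M] [NormedSpace ℂ M] [FiniteDimensional ℂ M]
    [NormedAddCommGroup E] [NormedSpace ℂ E] [FiniteDimensional ℂ E] [NormedAddCommGroup Y]
    [NormedSpace ℂ Y] [FiniteDimensional ℂ Y] {f₀ : M × E → ℂ} {f' : M × E → Y}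
    (h₀ : f₀ ∈ Pol (M × E)) (h' : ∀ ν : Y →L[ℂ] ℂ, (fun p => ν (f' p)) ∈ Pol (M × E)) {u₀ : M}
    {w₀ : E × (Y →L[ℂ] ℂ)} (h1 : f₀ (u₀, w₀.1) = 0) (h2 : cr f₀ f' u₀ w₀ = 0)
    (h3 : Injective (fderiv ℂ (cr f₀ f' u₀) w₀))
    (h4 : ∃ u, fderiv ℂ f₀ (u₀, w₀.1) (u, 0) + w₀.2 (fderiv ℂ f' (u₀, w₀.1) (u, 0)) ≠ 0) {n : ℕ}
    (hn : finrank ℂ E = n + 1 + finrank ℂ Y) :
    ∃ (N : Set M) (c : M → ℂ) (a b : ℂ)
      (Ξ : OpenPartialHomeomorph (M × E) (M × (Fin (n + 1) → ℂ) × Y)),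
      IsOpen N ∧ u₀ ∈ N ∧ a ≠ 0 ∧ b ≠ 0 ∧ (u₀, w₀.1) ∈ Ξ.source ∧ Ξ (u₀, w₀.1) = (u₀, 0, 0) ∧
      ContDiffOn ℂ ∞ Ξ Ξ.source ∧ ContDiffOn ℂ ∞ Ξ.symm Ξ.target ∧ ContinuousOn c N ∧ c u₀ = 0 ∧
      N ×ˢ Metric.closedBall 0 2 ⊆ Ξ.target ∧
      (∀ p ∈ Ξ.source, (Ξ p).1 = p.1 ∧ (Ξ p).2.2 = b • f' p ∧
        (f' p = 0 → f₀ p = a * (qf (Ξ p).2.1 - c p.1))) ∧
      ∀ y ∈ N, c y = 0 → ∃ r > 0, ∃ γ : ℂ → M, ContinuousOn γ (Metric.closedBall 0 r) ∧ γ 0 = y ∧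
        ∀ t ∈ Metric.closedBall (0 : ℂ) r, c (γ t) = t := by
  obtain ⟨y₀, μ₀⟩ := w₀
  obtain ⟨u, hu⟩ := h4
  simp only at h1 hu ⊢
  have d₀ : ContDiff ℂ ω f₀ := pol_contDiff h₀
  have d' := contDiff_vec h'
  obtain ⟨ξ, G, L, cξ, rfl, hξ, cG, G0, hL, hL', hG⟩ := core h₀ h' h2 h3 hn
  have cG' := cG.prodMk d'.contDiffAt
  obtain ⟨Ξ₀, e₀, s₀, c₀⟩ := loc cG' hL hL' (by simp [hn])
  have e₁ : Ξ₀ (u₀, ξ u₀) = (u₀, 0) := by
    rw [e₀, G0, hξ.self_of_nhds]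
    rfl
  have c₁ : ∀ᶠ p in 𝓝 (u₀, ξ u₀), ContDiffAt ℂ ω Ξ₀.symm (Ξ₀ p) :=
    (Ξ₀.continuousAt s₀).eventually (by rw [e₀]; exact c₀.eventually (by simp))
  obtain ⟨U, hU, oU, mU⟩ := mem_nhds_iff.1 (hG.and (c₁.and (cG'.eventually (by simp))))
  let Ξ₁ := Ξ₀.restrOpen U oU
  have s₁ : (u₀, ξ u₀) ∈ Ξ₁.source := ⟨s₀, mU⟩
  obtain ⟨N₀, hN₀, B, hB, hNB⟩ := mem_nhds_prod_iff.1
    (Ξ₁.open_target.mem_nhds (e₁ ▸ Ξ₁.map_source s₁ : ((u₀, 0) : M × _) ∈ Ξ₁.target))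
  obtain ⟨δ, hδ, hδB⟩ := Metric.nhds_basis_closedBall.mem_iff.1 hB
  set ε : ℂ := ((δ / 2 : ℝ) : ℂ) with hε
  have hε0 : ε ≠ 0 := Complex.ofReal_ne_zero.2 (by positivity)
  let D : M × (Fin (n + 1) → ℂ) × Y ≃ₜ M × (Fin (n + 1) → ℂ) × Y :=
    (Homeomorph.refl M).prodCongr (Homeomorph.smulOfNeZero ε⁻¹ (inv_ne_zero hε0))
  have D1 : ∀ q, D q = (q.1, ε⁻¹ • q.2) := fun _ => rfl
  have D2 : ∀ q, D.symm q = (q.1, ε • q.2) := fun q => by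
    rw [Homeomorph.symm_apply_eq, D1, inv_smul_smul₀ hε0]
  let c : M → ℂ := fun u => -(ε ^ 2)⁻¹ * f₀ (u, ξ u)
  have cv : ContDiffAt ℂ ω (fun u => f₀ (u, ξ u)) u₀ :=
    d₀.contDiffAt.comp u₀ (contDiffAt_id.prodMk cξ)
  have cc : ContDiffAt ℂ ω c u₀ := contDiffAt_const.mul cv
  have dc : fderiv ℂ c u₀ u ≠ 0 := by
    rw [((cv.differentiableAt (by simp)).hasFDerivAt.const_mul (-(ε ^ 2)⁻¹)).fderiv, smul_apply,
      fderiv_val d₀ d' cξ h2 hξ, smul_eq_mul]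
    exact mul_ne_zero (by simpa using hε0) hu
  have dc' : ∀ᶠ y in 𝓝 u₀, fderiv ℂ c y u ≠ 0 :=
    ((cc.fderiv_right (m := ω) (by simp)).clm_apply contDiffAt_const).continuousAt.eventually_ne dc
  obtain ⟨N, hN, oN, mN⟩ := mem_nhds_iff.1
    (Filter.inter_mem hN₀ (dc'.and (cc.eventually (by simp))))
  have eΞ : ∀ p, Ξ₁.transHomeomorph D p = (p.1, ε⁻¹ • (G p, f' p)) := fun p =>
    (congrArg D (e₀ p)).trans (D1 _)
  refine ⟨N, c, ε ^ 2, ε⁻¹, Ξ₁.transHomeomorph D, oN, mN, pow_ne_zero _ hε0, inv_ne_zero hε0, s₁,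
    ?_, fun p hp => ?_, fun q hq => ?_, fun y hy => (hN hy).2.2.continuousAt.continuousWithinAt,
    by simp [c, h1], ?_, fun p hp => ?_, fun y hy => exists_path (hN hy).2.2 (hN hy).2.1⟩
  · rw [eΞ, G0, hξ.self_of_nhds]
    simp
  · rw [funext eΞ]
    exact ((contDiffAt_fst.prodMk ((hU hp.2).2.2.const_smul ε⁻¹)).of_le le_top).contDiffWithinAt
  · have a1 : D.symm q ∈ Ξ₁.target := hq
    have a2 := (hU (Ξ₁.map_target a1).2).2.1
    have a3 : Ξ₀ (Ξ₁.symm (D.symm q)) = D.symm q := Ξ₁.right_inv a1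
    rw [a3] at a2
    have a4 : ContDiffAt ℂ ω D.symm q := by
      rw [funext D2]
      exact contDiffAt_fst.prodMk (contDiffAt_snd.const_smul ε)
    exact ((a2.comp q a4).of_le le_top).contDiffWithinAt
  · rintro ⟨v, w⟩ ⟨a1, a2⟩
    show D.symm (v, w) ∈ Ξ₁.target
    rw [D2]
    refine hNB ⟨(hN a1).1, hδB ?_⟩
    rw [mem_closedBall_zero_iff] at a2 ⊢
    rw [norm_smul, hε, Complex.norm_real, Real.norm_of_nonneg (by positivity)]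
    nlinarith
  · rw [eΞ]
    refine ⟨rfl, rfl, fun h => ?_⟩
    rw [(hU hp.2).1 h]
    have a1 : qf (ε⁻¹ • G p) = (ε ^ 2)⁻¹ * qf (G p) := by
      simp [qf, Finset.mul_sum, mul_pow]
    show _ = ε ^ 2 * (qf (ε⁻¹ • G p) - -(ε ^ 2)⁻¹ * f₀ (p.1, ξ p.1))
    rw [a1]
    field_simp
    ring

end Vale.Agent.P269.Mono
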