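import Vale.Agent.P269.Mono.Fam0
import Vale.Agent.P269.Mono.Morse
import Vale.Agent.P269.Mono.Disc

set_option linter.unusedSectionVars false

/-!
# P269, monodromy: the local model of a family near a member with one node
-/

namespace Vale.Agent.P269.Mono

open Set Topology Filter Module Function TopologicalSpace Vale.Agent.P291Z Vale.Agent.P291Z.Fl
open scoped ContDiff

namespace Ch

section Aux

variable {ι : Type} [Fintype ι]

theorem nq_nonneg (z : ι → ℂ) : 0 ≤ nq z := Finset.sum_nonneg fun _ _ => sq_nonneg _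

theorem nq_zero : nq (0 : ι → ℂ) = 0 := by simp [nq]

theorem norm_le {z : ι → ℂ} (h : nq z ≤ 4) : ‖z‖ ≤ 2 :=
  (pi_norm_le_iff_of_nonneg zero_le_two).2 fun i => by
    have := Finset.single_le_sum (f := fun i => ‖z i‖ ^ 2) (fun _ _ => sq_nonneg _)
      (Finset.mem_univ i)
    exact abs_le_of_sq_le_sq' (by unfold nq at h; linarith) zero_le_two |>.2

theorem contDiff_nq : ContDiff ℝ ∞ (nq : (ι → ℂ) → ℝ) :=
  ContDiff.sum fun i _ => (contDiff_apply ℝ ℂ i).norm_sq ℝ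

theorem hasFDerivAt_qf (z : ι → ℂ) :
    HasFDerivAt qf (∑ i, (2 * z i) • ContinuousLinearMap.proj (R := ℂ) (φ := fun _ => ℂ) i) z :=
  HasFDerivAt.fun_sum fun i _ => ((hasFDerivAt_apply i z).pow 2).congr_fderiv (by simp)

theorem sum_mul_star (z : ι → ℂ) : ∑ i, z i * star (z i) = (nq z : ℂ) := by
  simp [nq, Complex.mul_conj, Complex.normSq_eq_norm_sq]

theorem hasDerivAt_nq {z : ι → ℂ} (h : nq z = 1) :
    HasDerivAt (fun s : ℝ => nq (z + s • (z - qf z • star z))) (2 * (1 - ‖qf z‖ ^ 2)) 0 := by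
  have d : ∀ i, HasDerivAt (fun s : ℝ => (z + s • (z - qf z • star z)) i)
      ((z - qf z • star z) i) 0 := fun i => by
    simpa using ((hasDerivAt_id (0 : ℝ)).smul_const ((z - qf z • star z) i)).const_add (z i)
  refine (HasDerivAt.fun_sum fun i _ => (d i).norm_sq).congr_deriv ?_
  have e : ∑ i, (z i - qf z * star (z i)) * star (z i) = ((1 - ‖qf z‖ ^ 2 : ℝ) : ℂ) := by
    simp only [sub_mul, Finset.sum_sub_distrib, sum_mul_star, h, mul_assoc, ← Finset.mul_sum]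
    have : ∑ i, star (z i) * star (z i) = star (qf z) := by simp [qf, sq]
    rw [this]
    simp [Complex.mul_conj, Complex.normSq_eq_norm_sq]
  have e' := congrArg Complex.re e
  rw [Complex.re_sum, Complex.ofReal_re] at e'
  rw [← e', Finset.mul_sum]
  simp

/-- the profile of the defining function -/
noncomputable def r0 (t : ℝ) : ℝ := 1 - (2 - t) * Real.smoothTransition (3 - t)

theorem contDiff_r0 : ContDiff ℝ ∞ r0 :=
  contDiff_const.sub ((contDiff_const.sub contDiff_id).mul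
    (Real.smoothTransition.contDiff.comp (contDiff_const.sub contDiff_id)))

theorem r0_of_le {t : ℝ} (h : t ≤ 2) : r0 t = t - 1 := by
  rw [r0, Real.smoothTransition.one_of_one_le (by linarith)]
  ring

theorem r0_of_ge {t : ℝ} (h : 3 ≤ t) : r0 t = 1 := by
  rw [r0, Real.smoothTransition.zero_of_nonpos (by linarith)]
  ring

theorem le_of_r0 {t : ℝ} (h : r0 t ≤ 0) : t ≤ 1 := by
  rcases le_total t 2 with h' | h'
  · rw [r0_of_le h'] at h
    linarith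
  · have := mul_nonneg (sub_nonneg.2 h') (Real.smoothTransition.nonneg (3 - t))
    rw [r0] at h
    linarith

theorem comp_eq {E F G : Type} [NormedAddCommGroup E] [NormedSpace ℂ E] [NormedAddCommGroup F]
    [NormedSpace ℂ F] [NormedAddCommGroup G] [NormedSpace ℂ G] {f : E → F} {f' : E →L[ℂ] F}
    {g : F → G} {g' : F →L[ℂ] G} {x : E} {y : F} (hg : HasFDerivAt g g' y)
    (hf : HasFDerivAt f f' x) (h : f x = y) : HasFDerivAt (g ∘ f) (g'.comp f') x := by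
  subst h
  exact hg.comp x hf

end Aux

variable {M m κ : Type} [NormedAddCommGroup M] [NormedSpace ℂ M] [FiniteDimensional ℂ M]
  [Fintype m] [Fintype κ] [DecidableEq m] [DecidableEq κ]

/-- the affine coordinates of a point -/
noncomputable def deh (i₀ : m) (x : m → ℂ) : {i // i ≠ i₀} → ℂ := fun i => x i / x i₀

theorem smul_aff {i₀ : m} {x : m → ℂ} (h : x i₀ ≠ 0) : x i₀ • aff i₀ (deh i₀ x) = x :=
  funext fun i => by
    by_cases e : i = i₀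
    · simp [e, aff_self]
    · simp [aff, e, deh, mul_div_cancel₀ _ h]

theorem deh_smul (i₀ : m) {c : ℂ} (h : c ≠ 0) (x : m → ℂ) : deh i₀ (c • x) = deh i₀ x :=
  funext fun i => by simp [deh, mul_div_mul_left _ _ h]

theorem deh_aff (i₀ : m) (ξ : {i // i ≠ i₀} → ℂ) : deh i₀ (aff i₀ ξ) = ξ :=
  funext fun i => by simp [deh, aff_self, aff_ne]

theorem prj_deh {i₀ : m} {x : m → ℂ} (h : x i₀ ≠ 0) : prj (aff i₀ (deh i₀ x)) = prj x := by
  rw [← prj_smul h, smul_aff h]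

theorem of_prj {i₀ : m} {x : m → ℂ} (h : x ≠ 0) {ξ : {i // i ≠ i₀} → ℂ}
    (e : prj (aff i₀ ξ) = prj x) : x i₀ ≠ 0 ∧ deh i₀ x = ξ := by
  obtain ⟨c, rfl⟩ := exists_smul_of_prj h e
  have hc : c ≠ 0 := left_ne_zero_of_smul h
  exact ⟨by simpa [aff_self] using hc, by rw [deh_smul _ hc, deh_aff]⟩

theorem continuous_aff (i₀ : m) : Continuous (aff i₀) :=
  continuous_iff_continuousAt.2 fun y => (CI.hasFDerivAt_aff i₀ y).continuousAt

/-- the output of the Morse lemma -/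
structure Dat (S : CI M m κ) (i₀ : m) (j₀ : κ) (n : ℕ) where
  /-- the parameters -/
  N : Set M
  /-- the critical value -/
  c : M → ℂ
  /-- a scaling factor -/
  a : ℂ
  /-- a scaling factor -/
  b : ℂ
  /-- the chart -/
  Ξ : OpenPartialHomeomorph (M × ({i // i ≠ i₀} → ℂ))
    (M × (Fin (n + 1) → ℂ) × ({j // j ≠ j₀} → ℂ))
  a0 : a ≠ 0
  b0 : b ≠ 0
  d1 : ContDiffOn ℂ ∞ Ξ Ξ.source
  d2 : ContDiffOn ℂ ∞ Ξ.symm Ξ.target
  sub : N ×ˢ Metric.closedBall 0 2 ⊆ Ξ.target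
  eq : ∀ p ∈ Ξ.source, (Ξ p).1 = p.1 ∧ (Ξ p).2.2 = b • S.f' i₀ j₀ p ∧
    (S.f' i₀ j₀ p = 0 → S.f₀ i₀ j₀ p = a * (qf (Ξ p).2.1 - c p.1))

namespace Dat

variable {S : CI M m κ} {i₀ : m} {j₀ : κ} {n : ℕ} (D : Dat S i₀ j₀ n)

theorem symm_eq {u : M} {v} (h : (u, v) ∈ D.Ξ.target) :
    (u, (D.Ξ.symm (u, v)).2) = D.Ξ.symm (u, v) := by
  have := (D.eq _ (D.Ξ.map_target h)).1
  rw [D.Ξ.right_inv h] at this
  exact Prod.ext this rfl

theorem src {u : M} {v} (h : (u, v) ∈ D.Ξ.target) : (u, (D.Ξ.symm (u, v)).2) ∈ D.Ξ.source :=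
  D.symm_eq h ▸ D.Ξ.map_target h

theorem right {u : M} {v} (h : (u, v) ∈ D.Ξ.target) : D.Ξ (u, (D.Ξ.symm (u, v)).2) = (u, v) := by
  rw [D.symm_eq h, D.Ξ.right_inv h]

theorem app {u : M} {ξ} (h : (u, ξ) ∈ D.Ξ.source) : (u, (D.Ξ (u, ξ)).2) = D.Ξ (u, ξ) :=
  Prod.ext (D.eq _ h).1.symm rfl

theorem tgt {u : M} {ξ} (h : (u, ξ) ∈ D.Ξ.source) : (u, (D.Ξ (u, ξ)).2) ∈ D.Ξ.target :=
  D.app h ▸ D.Ξ.map_source h

theorem left {u : M} {ξ} (h : (u, ξ) ∈ D.Ξ.source) : (D.Ξ.symm (u, (D.Ξ (u, ξ)).2)).2 = ξ := by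
  rw [D.app h, D.Ξ.left_inv h]

theorem mem_tgt {u : M} (hu : u ∈ D.N) {z w} (h : nq z + nq w ≤ 3) : (u, z, w) ∈ D.Ξ.target :=
  D.sub ⟨hu, mem_closedBall_zero_iff.2 (max_le (norm_le (by linarith [nq_nonneg w]))
    (norm_le (by linarith [nq_nonneg z])))⟩

theorem ev_iff {u : M} {ξ} (h : (u, ξ) ∈ D.Ξ.source) : S.ev u (aff i₀ ξ) = 0 ↔
    (D.Ξ (u, ξ)).2.2 = 0 ∧ qf (D.Ξ (u, ξ)).2.1 = D.c u := by
  obtain ⟨-, h1, h2⟩ := D.eq _ h
  rw [h1, smul_eq_zero, or_iff_right D.b0]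
  constructor
  · intro e
    have e' : S.f' i₀ j₀ (u, ξ) = 0 := funext fun k => congrFun e k.1
    have := (h2 e').symm.trans (congrFun e j₀)
    exact ⟨e', sub_eq_zero.1 ((mul_eq_zero.1 this).resolve_left D.a0)⟩
  · rintro ⟨e, e'⟩
    funext k
    by_cases hk : k = j₀
    · rw [hk]
      exact (h2 e).trans (by simp [e'])
    · exact congrFun e ⟨k, hk⟩

theorem exists_deriv {u : M} {ξ} (h : (u, ξ) ∈ D.Ξ.source) {z} (hz : (D.Ξ (u, ξ)).2 = (z, 0)) :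
    ∃ A : _ →L[ℂ] _, HasFDerivAt (fun v => (D.Ξ.symm (u, v)).2) A (z, 0) ∧ Surjective A ∧
      (∀ v (k : {j // j ≠ j₀}), D.b * fderiv ℂ (S.ev u) (aff i₀ ξ) (CI.io i₀ (A v)) k = v.2 k) ∧
      ∀ ζ, fderiv ℂ (S.ev u) (aff i₀ ξ) (CI.io i₀ (A (ζ, 0))) j₀ =
        D.a * (2 * ∑ i, z i * ζ i) := by
  have ht := D.tgt h
  have hl := D.left h
  rw [hz] at ht hl
  have a1 : DifferentiableAt ℂ (fun v => (D.Ξ.symm (u, v)).2) (z, 0) :=
    (((D.d2.contDiffAt (D.Ξ.open_target.mem_nhds ht)).differentiableAt (by simp)).comp (z, 0)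
      (differentiableAt_const u |>.prodMk differentiableAt_id)).snd
  have a2 : DifferentiableAt ℂ (fun η => (D.Ξ (u, η)).2) ξ :=
    (((D.d1.contDiffAt (D.Ξ.open_source.mem_nhds h)).differentiableAt (by simp)).comp ξ
      (differentiableAt_const u |>.prodMk differentiableAt_id)).snd
  have a3 : ∀ᶠ v in 𝓝 (z, 0), (u, v) ∈ D.Ξ.target :=
    (Continuous.prodMk_right u).continuousAt.preimage_mem_nhds (D.Ξ.open_target.mem_nhds ht)
  have a4 := hasFDerivAt_pi'.1 (comp_eq ((S.diff_ev u _).hasFDerivAt.comp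
    ξ (CI.hasFDerivAt_aff i₀ ξ)) a1.hasFDerivAt hl)
  refine ⟨_, a1.hasFDerivAt, fun η => ?_, fun v k => ?_, fun ζ => ?_⟩
  · have a5 : ∀ᶠ η in 𝓝 ξ, (u, η) ∈ D.Ξ.source :=
      (Continuous.prodMk_right u).continuousAt.preimage_mem_nhds (D.Ξ.open_source.mem_nhds h)
    have a6 := (comp_eq a1.hasFDerivAt a2.hasFDerivAt hz).unique
      ((hasFDerivAt_id ξ).congr_of_eventuallyEq (a5.mono fun η => D.left))
    exact ⟨_, DFunLike.congr_fun a6 η⟩
  · have a6 := ((a4 k).const_mul D.b).unique (((hasFDerivAt_apply k _).comp (z, 0)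
      hasFDerivAt_snd).congr_of_eventuallyEq (a3.mono fun v hv => by
        have := congrFun (D.eq _ (D.src hv)).2.1 k
        rw [D.right hv] at this
        exact this.symm))
    exact DFunLike.congr_fun a6 v
  · have a5 := hasFDerivAt_prodMk_left (𝕜 := ℂ) z (0 : {j // j ≠ j₀} → ℂ)
    have a6 := ((a4 j₀).comp z a5).unique
      ((((hasFDerivAt_qf z).sub_const (D.c u)).const_mul D.a).congr_of_eventuallyEq
        ((a5.continuousAt.eventually a3).mono fun v hv => by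
          obtain ⟨-, h1, h2⟩ := D.eq _ (D.src hv)
          rw [D.right hv] at h1 h2
          exact h2 ((smul_eq_zero.1 h1.symm).resolve_left D.b0)))
    simpa [Finset.mul_sum, mul_assoc] using DFunLike.congr_fun a6 ζ

theorem surj_iff {u : M} {ξ} (h : (u, ξ) ∈ D.Ξ.source) (e : S.ev u (aff i₀ ξ) = 0) :
    Surjective (fderiv ℂ (S.ev u) (aff i₀ ξ)) ↔ (D.Ξ (u, ξ)).2.1 ≠ 0 := by
  obtain ⟨A, -, h1, h2, h3⟩ := D.exists_deriv h (Prod.ext rfl ((D.ev_iff h).1 e).1)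
  constructor
  · intro hs h0
    obtain ⟨v, hv⟩ := hs (Pi.single j₀ 1)
    have e1 : v = v i₀ • aff i₀ ξ + CI.io i₀ fun i' => v i' - v i₀ * ξ i' := funext fun i' => by
      by_cases h : i' = i₀ <;> simp [aff, CI.io_apply, h]
    obtain ⟨⟨ζ, w⟩, hw⟩ := h1 fun i' => v i' - v i₀ * ξ i'
    rw [e1, map_add, map_smul, S.euler e, smul_zero, zero_add, ← hw] at hv
    obtain rfl : w = 0 := funext fun k => by
      have := h2 (ζ, w) k
      rw [hv, Pi.single_eq_of_ne k.2, mul_zero] at this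
      exact this.symm
    simpa [hv, h0] using h3 ζ
  · intro h0 y
    obtain ⟨i, hi⟩ := Function.ne_iff.1 h0
    obtain ⟨t, ht⟩ : ∃ t, t = y j₀ - fderiv ℂ (S.ev u) (aff i₀ ξ)
      (CI.io i₀ (A (0, fun k => D.b * y k))) j₀ := ⟨_, rfl⟩
    refine ⟨CI.io i₀ (A (Pi.single i (t / (D.a * (2 * (D.Ξ (u, ξ)).2.1 i))), 0)) +
      CI.io i₀ (A (0, fun k => D.b * y k)), funext fun k => ?_⟩
    rw [map_add, Pi.add_apply]
    by_cases hk : k = j₀
    · have := D.a0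
      have hi' : (D.Ξ (u, ξ)).2.1 i ≠ 0 := hi
      rw [hk, h3, ← eq_sub_iff_add_eq, ← ht]
      simp only [Pi.single_apply, mul_ite, mul_zero, Finset.sum_ite_eq', Finset.mem_univ, if_true]
      field_simp
    · refine mul_left_cancel₀ D.b0 ?_
      rw [mul_add, h2 _ ⟨k, hk⟩, h2 _ ⟨k, hk⟩]
      simp

/-- the domain of the chart -/
def W : Set (M × (m → ℂ)) := {p | p.2 i₀ ≠ 0 ∧ (p.1, deh i₀ p.2) ∈ D.Ξ.source}

/-- the size in the chart -/
noncomputable def t (p : M × (m → ℂ)) : ℝ :=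
  nq (D.Ξ (p.1, deh i₀ p.2)).2.1 + nq (D.Ξ (p.1, deh i₀ p.2)).2.2

open Classical in
/-- the defining function -/
noncomputable def ρ (p : M × (m → ℂ)) : ℝ := if p ∈ D.W then r0 (D.t p) else 1

/-- the parametrisation of the Milnor fibres -/
noncomputable def J (p : M × (Fin (n + 1) → ℂ)) : Matrix m m ℂ :=
  prj (aff i₀ (D.Ξ.symm (p.1, p.2, 0)).2)

theorem contDiffAt_deh {p : M × (m → ℂ)} (h : p.2 i₀ ≠ 0) :
    ContDiffAt ℂ ∞ (fun p : M × (m → ℂ) => (p.1, deh i₀ p.2)) p :=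
  contDiffAt_fst.prodMk (contDiffAt_pi.2 fun i =>
    ((contDiffAt_apply ℂ ℂ i.1 _).comp p contDiffAt_snd).div
      ((contDiffAt_apply ℂ ℂ i₀ _).comp p contDiffAt_snd) h)

theorem isOpen_W : IsOpen D.W := isOpen_iff_mem_nhds.2 fun _ hp =>
  (((continuous_apply i₀).comp continuous_snd).continuousAt.eventually_ne hp.1).and
    ((contDiffAt_deh hp.1).continuousAt.preimage_mem_nhds (D.Ξ.open_source.mem_nhds hp.2))

theorem smul_mem {u : M} {x : m → ℂ} {c : ℂ} (hc : c ≠ 0) : (u, c • x) ∈ D.W ↔ (u, x) ∈ D.W := by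
  simp [W, deh_smul _ hc, hc]

theorem ρ_smul (u : M) (x : m → ℂ) {c : ℂ} (hc : c ≠ 0) : D.ρ (u, c • x) = D.ρ (u, x) := by
  classical
  simp only [ρ, t, deh_smul _ hc]
  exact if_congr (D.smul_mem hc) rfl rfl

theorem ρ_aff {u : M} {z} (h : (u, z, 0) ∈ D.Ξ.target) (hz : nq z ≤ 2) :
    D.ρ (u, aff i₀ (D.Ξ.symm (u, z, 0)).2) = nq z - 1 := by
  rw [ρ, if_pos ⟨by simp [aff_self], by simpa only [deh_aff] using D.src h⟩, t]
  simp only [deh_aff, D.right h, nq_zero, add_zero, r0_of_le hz]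

theorem of_ρ {u : M} {x : m → ℂ} (e : S.ev u x = 0) (h : D.ρ (u, x) ≤ 0) :
    (u, x) ∈ D.W ∧ ∃ z ∈ Mil n (D.c u), (D.Ξ (u, deh i₀ x)).2 = (z, 0) := by
  have hW : (u, x) ∈ D.W := by_contra fun h' => by
    rw [ρ, if_neg h'] at h
    linarith
  rw [ρ, if_pos hW] at h
  have h1 := le_of_r0 h
  have hx : x i₀ ≠ 0 := hW.1
  rw [← smul_aff hx, S.ev_smul_eq_zero hx, D.ev_iff hW.2] at e
  rw [t, e.1, nq_zero, add_zero] at h1
  exact ⟨hW, _, ⟨e.2, h1⟩, Prod.ext rfl e.1⟩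

theorem of_sing {u : M} {x : m → ℂ} (h : S.Sing u x) (hW : (u, x) ∈ D.W) :
    D.c u = 0 ∧ D.ρ (u, x) < 0 := by
  have hx : x i₀ ≠ 0 := hW.1
  have h1 := h.scale (inv_ne_zero hx)
  rw [(inv_smul_eq_iff₀ hx).2 (smul_aff hx).symm] at h1
  have h2 := not_not.1 (mt (D.surj_iff hW.2 h1.2.1).2 h1.2.2)
  obtain ⟨h3, h4⟩ := (D.ev_iff hW.2).1 h1.2.1
  rw [ρ, if_pos hW, t, h2, h3, nq_zero, nq_zero, add_zero, r0_of_le zero_le_two, ← h4, h2]
  simp [qf]

theorem contDiffAt_ρ {C : Set M} (hC : IsCompact C) (hN : C ⊆ D.N) {p : M × (m → ℂ)}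
    (h1 : C ∈ 𝓝 p.1) (h2 : p.2 ≠ 0) : ContDiffAt ℝ ∞ D.ρ p := by
  by_cases hp : p ∈ D.W
  · have a1 : ContDiffAt ℝ ∞ (fun p : M × (m → ℂ) => D.Ξ (p.1, deh i₀ p.2)) p :=
      ((D.d1.contDiffAt (D.Ξ.open_source.mem_nhds hp.2)).comp p
        (contDiffAt_deh hp.1)).restrict_scalars ℝ
    refine (contDiff_r0.contDiffAt.comp p ((contDiff_nq.contDiffAt.comp p a1.snd.fst).add
      (contDiff_nq.contDiffAt.comp p a1.snd.snd))).congr_of_eventuallyEq ?_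
    filter_upwards [D.isOpen_W.mem_nhds hp] with q hq using if_pos hq
  · let B : Set ((Fin (n + 1) → ℂ) × ({j // j ≠ j₀} → ℂ)) := {v | nq v.1 + nq v.2 ≤ 3}
    have hB : IsCompact B := (isCompact_closedBall 0 2).of_isClosed_subset (isClosed_le
      ((contDiff_nq.continuous.comp continuous_fst).add (contDiff_nq.continuous.comp continuous_snd))
      continuous_const) fun v hv => mem_closedBall_zero_iff.2 (max_le
        (norm_le (by linarith [nq_nonneg v.2, hv.out])) (norm_le (by linarith [nq_nonneg v.1, hv.out])))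
    have hT : C ×ˢ B ⊆ D.Ξ.target := fun q hq => D.mem_tgt (hN hq.1) hq.2
    have hK := ((hC.prod hB).image_of_continuousOn
      (f := fun q => (q.1, prj (aff i₀ (D.Ξ.symm q).2))) fun q hq =>
        (continuousAt_fst.prodMk (continuousAt_prj ((continuous_aff i₀).continuousAt.comp
          (D.Ξ.continuousAt_symm (hT hq)).snd) (aff_ne_zero _ _))).continuousWithinAt).isClosed
    have a1 : ContinuousAt (fun p : M × (m → ℂ) => (p.1, prj p.2)) p :=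
      continuousAt_fst.prodMk (continuousAt_prj continuousAt_snd h2)
    refine (contDiffAt_const (c := 1)).congr_of_eventuallyEq ?_
    filter_upwards [continuousAt_fst.preimage_mem_nhds h1,
      a1.preimage_mem_nhds (hK.isOpen_compl.mem_nhds (by
        rintro ⟨⟨u, v⟩, hq, e⟩
        obtain ⟨e1, e2⟩ := Prod.ext_iff.1 e
        obtain ⟨e3, e4⟩ := of_prj h2 e2
        exact hp ⟨e3, by rw [e4, ← e1]; exact D.src (hT hq)⟩))] with q k1 k2
    by_cases hq : q ∈ D.W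
    · rw [ρ, if_pos hq]
      refine r0_of_ge (le_of_not_ge fun k3 => k2 ⟨(q.1, (D.Ξ (q.1, deh i₀ q.2)).2), ⟨k1, k3⟩, ?_⟩)
      simp only [D.left hq.2, prj_deh hq.1]
    · exact if_neg hq

theorem exists_vec {u : M} {x : m → ℂ} (hc : ‖D.c u‖ < 1) (e : S.ev u x = 0) (h : D.ρ (u, x) = 0)
    (hd : DifferentiableAt ℝ (fun y => D.ρ (u, y)) x) :
    ∃ v, fderiv ℂ (S.ev u) x v = 0 ∧ fderiv ℝ (fun y => D.ρ (u, y)) x v ≠ 0 := by
  obtain ⟨hW, z, hz, hz'⟩ := D.of_ρ e h.le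
  obtain ⟨A, h0, -, h2, h3⟩ := D.exists_deriv hW.2 hz'
  have ht := D.tgt hW.2
  have hl := D.left hW.2
  rw [hz'] at ht hl
  have hx : x i₀ ≠ 0 := hW.1
  have h1 : nq z = 1 := by
    have := D.ρ_aff ht (hz.2.trans one_le_two)
    rw [hl, ← D.ρ_smul _ _ hx, smul_aff hx, h] at this
    linarith
  refine ⟨x i₀ • CI.io i₀ (A (z - qf z • star z, 0)), funext fun k => ?_, ?_⟩
  · have := S.fderiv_ev_hom u (x i₀) (aff i₀ (deh i₀ x)) (CI.io i₀ (A (z - qf z • star z, 0))) k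
    rw [smul_aff hx] at this
    refine this.trans (mul_eq_zero_of_right _ ?_)
    by_cases hk : k = j₀
    · rw [hk, h3]
      have : ∑ i, z i * (z - qf z • star z) i = qf z - qf z * ∑ i, z i * star (z i) := by
        rw [Finset.mul_sum, qf, ← Finset.sum_sub_distrib]
        exact Finset.sum_congr rfl fun i _ => by simp; ring
      rw [this, sum_mul_star, h1]
      simp
    · exact (mul_eq_zero.1 (h2 _ ⟨k, hk⟩)).resolve_left D.b0
  · have a1 : HasDerivAt (fun s : ℝ => (z + s • (z - qf z • star z), (0 : {j // j ≠ j₀} → ℂ)))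
        (z - qf z • star z, 0) 0 := by
      simpa using (((hasDerivAt_id (0 : ℝ)).smul_const (z - qf z • star z)).const_add z).prodMk
        (hasDerivAt_const (0 : ℝ) (0 : {j // j ≠ j₀} → ℂ))
    have a2 := (((CI.hasFDerivAt_aff i₀ _).comp (z, 0) h0).const_smul (x i₀)).restrictScalars ℝ
    have a3 := hd.hasFDerivAt.comp_hasDerivAt_of_eq (0 : ℝ)
      (a2.comp_hasDerivAt_of_eq (0 : ℝ) a1 (by simp)) (by simp [hl, smul_aff hx])
    have a4 := (hasDerivAt_nq h1).sub_const 1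
    have a5 : ∀ᶠ s : ℝ in 𝓝 0, (u, z + s • (z - qf z • star z), 0) ∈ D.Ξ.target :=
      (continuousAt_const.prodMk a1.continuousAt).preimage_mem_nhds
        (D.Ξ.open_target.mem_nhds (by simpa using ht))
    have a6 : ∀ᶠ s : ℝ in 𝓝 0, nq (z + s • (z - qf z • star z)) < 2 :=
      (hasDerivAt_nq h1).continuousAt.eventually_lt continuousAt_const (by simp [h1])
    refine (a3.unique (a4.congr_of_eventuallyEq ?_)).trans_ne ?_
    · filter_upwards [a5, a6] with s k1 k2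
      exact (D.ρ_smul _ _ hx).trans (D.ρ_aff k1 k2.le)
    · rw [hz.1]
      nlinarith [norm_nonneg (D.c u)]

theorem eventually_W {u : M} (h : ∀ x, S.Sing u x → (u, x) ∈ D.W) :
    ∀ᶠ v in 𝓝 u, ∀ x, S.Sing v x → (v, x) ∈ D.W := by
  have c1 : Continuous fun q : M × Metric.sphere (0 : m → ℂ) 1 => (q.1, (q.2 : m → ℂ)) := by
    fun_prop
  have c0 : ContDiff ℂ 1 ((fun p : M × (m → ℂ) => S.ev p.1 p.2) ∘
      fun p : (M × (m → ℂ)) × (m → ℂ) => (p.1.1, p.2)) :=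
    S.contDiff_ev.comp (contDiff_fst.fst.prodMk contDiff_snd)
  have c2 : Continuous fun q : M × (m → ℂ) => fderiv ℂ (S.ev q.1) q.2 :=
    (ContDiff.fderiv (f := fun (q : M × (m → ℂ)) y => S.ev q.1 y) (m := 1) (n := 0)
      c0 contDiff_snd (by simp)).continuous
  have c4 : IsClosed {q : M × (m → ℂ) |
      (S.ev q.1 q.2 = 0 ∧ ¬Surjective (fderiv ℂ (S.ev q.1) q.2)) ∧ q ∉ D.W} :=
    ((isClosed_eq (S.contDiff_ev (n := 0)).continuous continuous_const).inter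
      (isOpen_surj.preimage c2).isClosed_compl).inter D.isOpen_W.isClosed_compl
  filter_upwards [(isClosedMap_fst_of_compactSpace _ (c4.preimage c1)).isOpen_compl.mem_nhds
    (x := u) (by
      rintro ⟨q, hq, rfl⟩
      exact hq.2 (h _ ⟨ne_zero_of_mem_unit_sphere q.2, hq.1⟩))] with v hv x hx
  have n0 : ((‖x‖ : ℝ) : ℂ)⁻¹ ≠ 0 :=
    inv_ne_zero (Complex.ofReal_ne_zero.2 (norm_ne_zero_iff.2 hx.1))
  exact by_contra fun k => hv ⟨(v, ⟨((‖x‖ : ℝ) : ℂ)⁻¹ • x, by simp [norm_smul, hx.1]⟩),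
    ⟨(hx.scale n0).2, fun k' => k ((D.smul_mem n0).1 k')⟩, rfl⟩

end Dat

end Ch

variable {M m κ : Type} [NormedAddCommGroup M] [NormedSpace ℂ M] [FiniteDimensional ℂ M]
  [Fintype m] [Fintype κ] (S : CI M m κ)

open Ch in
theorem CI.exists_chart [DecidableEq m] [DecidableEq κ] {n : ℕ}
    (hn : Fintype.card m = n + Fintype.card κ + 1) {i₀ : m} {j₀ : κ} {y₀ : M}
    (hy : S.Good i₀ j₀ y₀) : ∃ (N : Set M) (c : M → ℂ) (ρ : M × (m → ℂ) → ℝ)
      (J : M × (Fin (n + 1) → ℂ) → Matrix m m ℂ), IsOpen N ∧ Convex ℝ N ∧ y₀ ∈ N ∧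
      ContinuousOn c N ∧ (∀ u ∈ N, ‖c u‖ < 1) ∧ (∀ u ∈ N, u ∈ S.U ↔ c u ≠ 0) ∧
      (∀ y ∈ N, c y = 0 → ∃ r > 0, ∃ γ : ℂ → M, ContinuousOn γ (Metric.closedBall 0 r) ∧ γ 0 = y ∧
        ∀ t ∈ Metric.closedBall (0 : ℂ) r, c (γ t) = t) ∧
      ContDiffOn ℝ ∞ ρ (N ×ˢ {x | x ≠ 0}) ∧
      (∀ u ∈ N, ∀ x, x ≠ 0 → ∀ a : ℂ, a ≠ 0 → ρ (u, a • x) = ρ (u, x)) ∧
      (∀ u ∈ N, ∀ x, x ≠ 0 → S.ev u x = 0 → 0 ≤ ρ (u, x) → Surjective (fderiv ℂ (S.ev u) x)) ∧
      (∀ u ∈ N, ∀ x, x ≠ 0 → S.ev u x = 0 → ρ (u, x) = 0 →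
        ∃ v, fderiv ℂ (S.ev u) x v = 0 ∧ fderiv ℝ (fun y => ρ (u, y)) x v ≠ 0) ∧
      ContinuousOn J {p | p.1 ∈ N ∧ p.2 ∈ Mil n (c p.1)} ∧
      ∀ u ∈ N, InjOn (fun z => J (u, z)) (Mil n (c u)) ∧
        (∀ z ∈ Mil n (c u), J (u, z) ∈ S.X u ∧ (J (u, z) ∈ S.Out ρ u ↔ nq z = 1) ∧
          (J (u, z) ∈ S.Out ρ u → J (u, z) ∈ S.Bd ρ u)) ∧
        ∀ A ∈ S.X u, A ∉ S.Out ρ u ∨ A ∈ S.Bd ρ u → ∃ z ∈ Mil n (c u), J (u, z) = A := by
  have := FiniteDimensional.proper ℂ M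
  obtain ⟨w₀, g1, g2, g3, g4⟩ := hy
  obtain ⟨N₁, c, a, b, Ξ, oN, mN, a0, b0, s0, e0, d1, d2, cc, c0, sub, eq, path⟩ :=
    morse (n := n) (S.pol_f₀ i₀ j₀) (S.pol_f' i₀ j₀) g1 g2 g3 (by
      obtain ⟨u, hu⟩ := S.exists_single j₀ (MvPolynomial.isHomogeneous_X_pow i₀ (S.d j₀))
      have k : ∀ k, HasDerivAt (fun s : ℂ => S.ev (y₀ + s • u) (aff i₀ w₀.1) k)
          ((Pi.single j₀ 1 : κ → ℂ) k) 0 := fun k => by
        simpa [S.ev_add, S.ev_smul, hu, aff_self] using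
          (hasDerivAt_id (0 : ℂ)).mul_const ((Pi.single j₀ 1 : κ → ℂ) k)
      have l : HasDerivAt (fun s : ℂ => (y₀ + s • u, w₀.1)) (u, 0) 0 := by
        simpa using (((hasDerivAt_id (0 : ℂ)).smul_const u).const_add y₀).prodMk
          (hasDerivAt_const (0 : ℂ) w₀.1)
      have k1 := (((pol_contDiff (n := 1) (S.pol_f₀ i₀ j₀)).differentiable one_ne_zero
        (y₀, w₀.1)).hasFDerivAt.comp_hasDerivAt_of_eq (0 : ℂ) l (by simp)).unique (k j₀)
      have k2 := (((Mo.contDiff_vec (S.pol_f' i₀ j₀)).differentiable (by simp)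
        (y₀, w₀.1)).hasFDerivAt.comp_hasDerivAt_of_eq (0 : ℂ) l (by simp)).unique
        (hasDerivAt_pi.2 fun j => k j.1)
      refine ⟨u, ?_⟩
      rw [k1, k2, show (fun j : {j // j ≠ j₀} => (Pi.single j₀ 1 : κ → ℂ) j.1) = 0 from
        funext fun j => Pi.single_eq_of_ne j.2 _]
      simp) (by
      have : 0 < Fintype.card κ := Fintype.card_pos_iff.2 ⟨j₀⟩
      simp [hn]
      omega)
  let D : Dat S i₀ j₀ n := ⟨N₁, c, a, b, Ξ, a0, b0, d1, d2, sub, eq⟩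
  have k1 := D.eventually_W (u := y₀) fun x hx => by
    obtain ⟨e1, e2⟩ := of_prj hx.1 (g4 x hx).symm
    exact ⟨e1, e2 ▸ s0⟩
  have k2 : ∀ᶠ u in 𝓝 y₀, ‖c u‖ < 1 :=
    (cc.continuousAt (oN.mem_nhds mN)).norm.eventually_lt continuousAt_const (by simp [c0])
  obtain ⟨r, hr, hN⟩ := Metric.nhds_basis_closedBall.mem_iff.1
    (inter_mem (oN.mem_nhds mN) (k1.and k2))
  have hN' := fun u (hu : u ∈ Metric.ball y₀ r) => hN (Metric.ball_subset_closedBall hu)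
  have hd : ∀ u ∈ Metric.ball y₀ r, ∀ x, x ≠ 0 → ContDiffAt ℝ ∞ D.ρ (u, x) := fun u hu x hx =>
    D.contDiffAt_ρ (isCompact_closedBall y₀ r) (fun v hv => (hN hv).1)
      (mem_of_superset (Metric.isOpen_ball.mem_nhds hu) Metric.ball_subset_closedBall) hx
  have hT : ∀ u ∈ Metric.ball y₀ r, ∀ z ∈ Mil n (c u), (u, z, 0) ∈ Ξ.target := fun u hu z hz =>
    D.mem_tgt (hN' u hu).1 (by linarith [hz.2, nq_zero (ι := {j // j ≠ j₀})])
  have hE : ∀ u ∈ Metric.ball y₀ r, ∀ z ∈ Mil n (c u),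
      S.ev u (aff i₀ (Ξ.symm (u, z, 0)).2) = 0 := fun u hu z hz =>
    (D.ev_iff (D.src (hT u hu z hz))).2 (by rw [D.right (hT u hu z hz)]; exact ⟨rfl, hz.1⟩)
  refine ⟨Metric.ball y₀ r, c, D.ρ, D.J, Metric.isOpen_ball, convex_ball _ _,
    Metric.mem_ball_self hr, cc.mono fun u hu => (hN' u hu).1, fun u hu => (hN' u hu).2.2,
    fun u hu => ⟨fun h h0 => ?_, fun h x hx => h (D.of_sing hx ((hN' u hu).2.1 x hx)).1⟩,
    fun y hy => path y (hN' y hy).1, fun p hp => (hd _ hp.1 _ hp.2).contDiffWithinAt,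
    fun u _ x _ a ha => D.ρ_smul u x ha, fun u hu x h1 h2 h3 => by_contra fun h4 =>
      (D.of_sing ⟨h1, h2, h4⟩ ((hN' u hu).2.1 x ⟨h1, h2, h4⟩)).2.not_ge h3,
    fun u hu x h1 h2 h3 => D.exists_vec (hN' u hu).2.2 h2 h3
      (((hd u hu x h1).differentiableAt (by simp)).comp x
        ((differentiableAt_const u).prodMk differentiableAt_id)), fun p hp => ?_,
    fun u hu => ⟨fun z hz z' hz' e => ?_, fun z hz => ?_, fun A hA h => ?_⟩⟩
  · have hz : (0 : Fin (n + 1) → ℂ) ∈ Mil n (c u) := ⟨by simp [qf, h0], by simp [nq]⟩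
    refine h _ ⟨aff_ne_zero _ _, hE u hu 0 hz, fun hs => ?_⟩
    have := (D.surj_iff (D.src (hT u hu 0 hz)) (hE u hu 0 hz)).1 hs
    rw [D.right (hT u hu 0 hz)] at this
    exact this rfl
  · refine (continuousAt_prj ((continuous_aff i₀).continuousAt.comp (ContinuousAt.snd ?_))
      (aff_ne_zero _ _)).continuousWithinAt
    exact ContinuousAt.comp (f := fun p : M × (Fin (n + 1) → ℂ) => (p.1, p.2, 0))
      (Ξ.continuousAt_symm (hT _ hp.1 _ hp.2)) (by fun_prop)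
  · have e1 := (of_prj (aff_ne_zero _ _) e).2
    rw [deh_aff] at e1
    have e2 := D.right (hT u hu z hz)
    rw [← e1, D.right (hT u hu z' hz')] at e2
    exact (congrArg (·.2.1) e2).symm
  · have e := D.ρ_aff (hT u hu z hz) (hz.2.trans one_le_two)
    have k : D.J (u, z) ∈ S.Out D.ρ u → nq z = 1 := by
      rintro ⟨x, h1, -, h2, h3⟩
      obtain ⟨t, rfl⟩ := exists_smul_of_prj h1 h3
      rw [D.ρ_smul _ _ (left_ne_zero_of_smul h1), e] at h2
      linarith [hz.2]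
    exact ⟨⟨_, aff_ne_zero _ _, hE u hu z hz, rfl⟩,
      ⟨k, fun h => ⟨_, aff_ne_zero _ _, hE u hu z hz, by rw [e, h, sub_self], rfl⟩⟩,
      fun h => ⟨_, aff_ne_zero _ _, hE u hu z hz, by rw [e, k h, sub_self], rfl⟩⟩
  · obtain ⟨x, h1, h2, rfl⟩ : ∃ x, S.ev u x = 0 ∧ D.ρ (u, x) ≤ 0 ∧ A = prj x := by
      rcases h with h | ⟨x, -, h1, h2, h3⟩
      · obtain ⟨x, h1, h2, h3⟩ := hA
        exact ⟨x, h2, le_of_not_ge fun k => h ⟨x, h1, h2, k, h3⟩, h3⟩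
      · exact ⟨x, h1, h2.le, h3⟩
    obtain ⟨hW, z, hz, hz'⟩ := D.of_ρ h1 h2
    refine ⟨z, hz, ?_⟩
    rw [Dat.J, ← hz', D.left hW.2, prj_deh hW.1]

end Vale.Agent.P269.Mono
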