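import Vale.Agent.P269.Mono.Small

/-!
# P269, monodromy: local systems on the complement of a small closed set (helper19)

A local system of sets on an open subset `U` of a vector space is given by transports along
segments. If the complement of `U` has codimension two and the system is trivial near all points
outside a set of codimension three, it is trivial.
-/

namespace Vale.Agent.P269.Mono

open Set Topology Filter Module Relation

variable {M : Type} [NormedAddCommGroup M] [NormedSpace ℝ M] {Q : M → Type*}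

/-- transports along segments in `U` -/
structure LocSys (U : Set M) (τ : ∀ u v : M, Q u → Q v) : Prop where
  isOpen : IsOpen U
  self : ∀ u ∈ U, ∀ x, τ u u x = x
  tri : ∀ C, Convex ℝ C → C ⊆ U → ∀ u ∈ C, ∀ v ∈ C, ∀ w ∈ C, ∀ x, τ v w (τ u v x) = τ u w x

/-- one step of transport inside `O` -/
def St (τ : ∀ u v : M, Q u → Q v) (O : Set M) (a b : Σ u, Q u) : Prop :=
  segment ℝ a.1 b.1 ⊆ O ∧ τ a.1 b.1 a.2 = b.2

/-- transport along polygons inside `O` -/
def Tr (τ : ∀ u v : M, Q u → Q v) (O : Set M) : (Σ u, Q u) → (Σ u, Q u) → Prop :=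
  ReflTransGen (St τ O)

/-- `s` is flat on `O` -/
def Flat (τ : ∀ u v : M, Q u → Q v) (O : Set M) (s : ∀ u, Q u) : Prop :=
  ∀ u v, segment ℝ u v ⊆ O → τ u v (s u) = s v

variable {U O O' : Set M} {τ : ∀ u v : M, Q u → Q v}

theorem Tr.mono {a b : Σ u, Q u} (h : Tr τ O a b) (e : O ⊆ O') : Tr τ O' a b := by
  induction h with
  | refl => exact ReflTransGen.refl
  | tail _ h2 ih => exact ih.tail ⟨h2.1.trans e, h2.2⟩

theorem Tr.step {u v : M} (h : segment ℝ u v ⊆ O) (x : Q u) : Tr τ O ⟨u, x⟩ ⟨v, τ u v x⟩ :=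
  ReflTransGen.single ⟨h, rfl⟩

theorem Flat.mono {s : ∀ u, Q u} (h : Flat τ O s) (e : O' ⊆ O) : Flat τ O' s :=
  fun u v huv => h u v (huv.trans e)

theorem Flat.tr {s : ∀ u, Q u} (h : Flat τ O s) {a b : Σ u, Q u} (hab : Tr τ O a b)
    (ha : s a.1 = a.2) : s b.1 = b.2 := by
  induction hab with
  | refl => exact ha
  | tail _ h2 ih => rw [← h _ _ h2.1, ih, h2.2]

namespace LocSys

variable (L : LocSys U τ)
include L

theorem inv {u v : M} (h : segment ℝ u v ⊆ U) (x : Q u) : τ v u (τ u v x) = x := by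
  rw [L.tri _ (convex_segment u v) h u (left_mem_segment ℝ u v) v (right_mem_segment ℝ u v) u
    (left_mem_segment ℝ u v), L.self u (h (left_mem_segment ℝ u v))]

theorem injective {u v : M} (h : segment ℝ u v ⊆ U) : Function.Injective (τ u v) :=
  Function.LeftInverse.injective (L.inv h)

theorem tr_symm (hO : O ⊆ U) {a b : Σ u, Q u} (h : Tr τ O a b) : Tr τ O b a := by
  induction h with
  | refl => exact ReflTransGen.refl
  | tail _ h ih =>
    refine ReflTransGen.head ⟨?_, ?_⟩ ih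
    · rw [segment_symm]
      exact h.1
    · rw [← h.2, L.inv (h.1.trans hO)]

/-- flatness along a segment is a local property -/
theorem flat_segment {s : ∀ u, Q u} {a b : M} (h : segment ℝ a b ⊆ U)
    (hs : ∀ u ∈ segment ℝ a b, ∀ᶠ v in 𝓝[segment ℝ a b] u, τ u v (s u) = s v) :
    τ a b (s a) = s b := by
  have hc := convex_segment (𝕜 := ℝ) a b
  refine hc.isPreconnected.induction₂ (fun u v => τ u v (s u) = s v) hs
    (fun u v w hu hv hw h1 h2 => ?_) (fun u v hu hv h1 => ?_)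
    (left_mem_segment ℝ a b) (right_mem_segment ℝ a b)
  · rw [← h2, ← h1, L.tri _ hc h u hu v hv w hw]
  · rw [← h1, L.inv ((hc.segment_subset hu hv).trans h)]

theorem flat_of_local {s : ∀ u, Q u} (hO : O ⊆ U)
    (hs : ∀ u ∈ O, ∀ᶠ v in 𝓝 u, τ u v (s u) = s v) : Flat τ O s :=
  fun _ _ h => L.flat_segment (h.trans hO) fun u hu => (hs u (h hu)).filter_mono nhdsWithin_le_nhds

omit L in
theorem eventually_segment (hO : IsOpen O) {u : M} (hu : u ∈ O) :
    ∀ᶠ v in 𝓝 u, segment ℝ u v ⊆ O := by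
  obtain ⟨r, hr, h⟩ := Metric.isOpen_iff.1 hO u hu
  filter_upwards [Metric.ball_mem_nhds u hr] with v hv
  exact ((convex_ball u r).segment_subset (Metric.mem_ball_self hr) hv).trans h

theorem tr_convex {C : Set M} (hC : Convex ℝ C) (hU : C ⊆ U) {a b : Σ u, Q u} (ha : a.1 ∈ C)
    (h : Tr τ C a b) : τ a.1 b.1 a.2 = b.2 := by
  refine Flat.tr (s := fun v => τ a.1 v a.2) (fun u v huv => ?_) h (L.self _ (hU ha) _)
  exact L.tri C hC hU _ ha _ (huv (left_mem_segment ℝ u v)) _ (huv (right_mem_segment ℝ u v)) _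

variable [FiniteDimensional ℝ M] {k : ℕ} (hD : Small k Uᶜ) (hk : k + 2 ≤ finrank ℝ M)
include hD hk

omit L in
theorem exists_tr (hO : IsOpen O) (hc : Convex ℝ O) {a b : M} (ha : a ∈ O ∩ U) (hb : b ∈ O ∩ U)
    (x : Q a) : ∃ y, Tr τ (O ∩ U) ⟨a, x⟩ ⟨b, y⟩ := by
  obtain ⟨c, h1, h2⟩ := hD.exists_mid hk hO hc (a := a) (b := b) (by rwa [sdiff_compl])
    (by rwa [sdiff_compl])
  rw [sdiff_compl] at h1 h2
  exact ⟨_, (Tr.step h1 x).trans (Tr.step h2 _)⟩

omit L in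
theorem flat_unique (hO : IsOpen O) (hc : Convex ℝ O) {s s' : ∀ u, Q u} (hs : Flat τ (O ∩ U) s)
    (hs' : Flat τ (O ∩ U) s') {a b : M} (ha : a ∈ O ∩ U) (hb : b ∈ O ∩ U) (e : s a = s' a) :
    s b = s' b := by
  obtain ⟨y, hy⟩ := exists_tr (τ := τ) hD hk hO hc ha hb (s a)
  exact (hs.tr hy rfl).trans (hs'.tr hy e.symm).symm

/-- if loops act trivially there is a flat section through every point -/
theorem exists_flat (hO : IsOpen O) (hc : Convex ℝ O)
    (h : ∀ u x y, Tr τ (O ∩ U) ⟨u, x⟩ ⟨u, y⟩ → x = y) {a : M} (ha : a ∈ O ∩ U) (x : Q a) :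
    ∃ s : ∀ u, Q u, Flat τ (O ∩ U) s ∧ s a = x ∧
      ∀ u ∈ O ∩ U, Tr τ (O ∩ U) ⟨a, x⟩ ⟨u, s u⟩ := by
  have h1 : ∀ u, ∃ y : Q u, u ∈ O ∩ U → Tr τ (O ∩ U) ⟨a, x⟩ ⟨u, y⟩ := fun u => by
    by_cases hu : u ∈ O ∩ U
    · obtain ⟨y, hy⟩ := exists_tr (τ := τ) hD hk hO hc ha hu x
      exact ⟨y, fun _ => hy⟩
    · exact ⟨τ a u x, fun h => absurd h hu⟩
  choose s hs using h1
  refine ⟨s, fun u v huv => h v _ _ ?_, (h a _ _ (hs a ha)).symm, hs⟩
  exact (L.tr_symm inter_subset_right ((hs u (huv (left_mem_segment ℝ u v))).trans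
    (Tr.step huv _))).trans (hs v (huv (right_mem_segment ℝ u v)))

variable {S : Set M}
  (hl : ∀ p, p ∉ U → p ∉ S → ∃ N ∈ 𝓝 p, ∀ u x y, Tr τ (N ∩ U) ⟨u, x⟩ ⟨u, y⟩ → x = y)
include hl

theorem exists_ball {p : M} (hp : p ∉ S) : ∃ r > 0, ∀ a ∈ Metric.ball p r ∩ U, ∀ x : Q a,
    ∃ s : ∀ u, Q u, Flat τ (Metric.ball p r ∩ U) s ∧ s a = x := by
  have : ∃ r > 0, ∀ u x y, Tr τ (Metric.ball p r ∩ U) ⟨u, x⟩ ⟨u, y⟩ → x = y := by
    by_cases hU : p ∈ U
    · obtain ⟨r, hr, h⟩ := Metric.isOpen_iff.1 L.isOpen p hU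
      refine ⟨r, hr, fun u x y hxy => ?_⟩
      rw [inter_eq_left.2 h] at hxy
      rcases ReflTransGen.cases_head hxy with e | ⟨c, hc, -⟩
      · exact eq_of_heq (Sigma.mk.inj e).2
      · have hu : u ∈ Metric.ball p r := hc.1 (left_mem_segment ℝ _ _)
        exact (L.self u (h hu) x).symm.trans (L.tr_convex (convex_ball p r) h hu hxy)
    · obtain ⟨N, hN, h⟩ := hl p hU hp
      obtain ⟨r, hr, h'⟩ := Metric.mem_nhds_iff.1 hN
      exact ⟨r, hr, fun u x y hxy => h u x y (hxy.mono (inter_subset_inter_left _ h'))⟩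
  obtain ⟨r, hr, h⟩ := this
  refine ⟨r, hr, fun a ha x => ?_⟩
  obtain ⟨s, h1, h2, -⟩ := L.exists_flat hD hk Metric.isOpen_ball (convex_ball p r) h ha x
  exact ⟨s, h1, h2⟩

/-- continuation along a segment -/
theorem exists_tube {a b : M} (hab : Disjoint (segment ℝ a b) S) (ha : a ∈ U) (x : Q a) :
    ∃ O, IsOpen O ∧ Convex ℝ O ∧ segment ℝ a b ⊆ O ∧
      ∃ s : ∀ u, Q u, Flat τ (O ∩ U) s ∧ s a = x := by
  let γ : ℝ →ᵃ[ℝ] M := AffineMap.lineMap a b
  let E : ℝ → Prop := fun t => ∃ O, IsOpen O ∧ Convex ℝ O ∧ segment ℝ a (γ t) ⊆ O ∧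
    ∃ s : ∀ u, Q u, Flat τ (O ∩ U) s ∧ s a = x
  have hγ : ∀ t t', segment ℝ (γ t) (γ t') = γ '' uIcc t t' := fun t t' => by
    rw [← segment_eq_uIcc, image_segment]
  have h0 : γ 0 = a := AffineMap.lineMap_apply_zero a b
  have h1 : γ 1 = b := AffineMap.lineMap_apply_one a b
  have hS : ∀ t ∈ Icc (0 : ℝ) 1, γ t ∉ S := fun t ht => disjoint_left.1 hab (by
    rw [← h0, ← h1, hγ, uIcc_of_le zero_le_one]
    exact mem_image_of_mem _ ht)
  have key : ∀ t ∈ Icc (0 : ℝ) 1, ∃ B ∈ 𝓝 (γ t), ∀ t₁ t₂, γ t₁ ∈ B → γ t₂ ∈ B → E t₁ → E t₂ := by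
    intro t ht
    obtain ⟨r, hr, h⟩ := L.exists_ball hD hk hl (hS t ht)
    refine ⟨_, Metric.ball_mem_nhds _ hr, ?_⟩
    rintro t₁ t₂ e₁ e₂ ⟨O, hO, hc, hs, s, hf, hx⟩
    obtain ⟨c, hc1, hc2⟩ := hD.exists_notMem (by omega)
      ((hO.inter Metric.isOpen_ball).mem_nhds ⟨hs (right_mem_segment ℝ _ _), e₁⟩)
    have hcU : c ∈ U := not_not.1 hc2
    obtain ⟨s', hf', hx'⟩ := h c ⟨hc1.2, hcU⟩ (s c)
    have hag : ∀ w ∈ O, w ∈ Metric.ball (γ t) r → w ∈ U → s w = s' w := fun w w1 w2 w3 =>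
      flat_unique hD hk (hO.inter Metric.isOpen_ball) (hc.inter (convex_ball _ r))
        (hf.mono fun z hz => ⟨hz.1.1, hz.2⟩) (hf'.mono fun z hz => ⟨hz.1.2, hz.2⟩) ⟨hc1, hcU⟩
        ⟨⟨w1, w2⟩, w3⟩ hx'.symm
    have hsub : segment ℝ a (γ t₂) ⊆ O ∪ Metric.ball (γ t) r := by
      refine Subset.trans ?_ (union_subset_union hs ((convex_ball _ r).segment_subset e₁ e₂))
      rw [← h0, hγ, hγ, hγ, ← image_union]
      exact image_mono uIcc_subset_uIcc_union_uIcc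
    have hcp : IsCompact (segment ℝ a (γ t₂)) := by
      rw [← h0, hγ]
      exact isCompact_uIcc.image γ.continuous_of_finiteDimensional
    obtain ⟨δ, hδ, hth⟩ := hcp.exists_thickening_subset_open (hO.union Metric.isOpen_ball) hsub
    classical
    refine ⟨_, Metric.isOpen_thickening, (convex_segment _ _).thickening δ,
      Metric.self_subset_thickening hδ _, fun w => if w ∈ O then s w else s' w,
      L.flat_of_local inter_subset_right fun u hu => ?_,
      by simp only [hs (left_mem_segment ℝ _ _), if_true, hx]⟩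
    rcases hth hu.1 with h2 | h2
    · filter_upwards [eventually_segment (hO.inter L.isOpen) ⟨h2, hu.2⟩] with v hv
      rw [if_pos h2, if_pos (hv (right_mem_segment ℝ u v)).1, hf u v hv]
    · filter_upwards [eventually_segment (Metric.isOpen_ball.inter L.isOpen) ⟨h2, hu.2⟩] with v hv
      have hv' := hv (right_mem_segment ℝ u v)
      have e1 : (if u ∈ O then s u else s' u) = s' u := by
        split_ifs with h3
        exacts [hag u h3 h2 hu.2, rfl]
      have e2 : (if v ∈ O then s v else s' v) = s' v := by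
        split_ifs with h3
        exacts [hag v h3 hv'.1 hv'.2, rfl]
      rw [e1, e2, hf' u v hv]
  have hE0 : E 0 := by
    obtain ⟨r, hr, h⟩ := L.exists_ball hD hk hl (hS 0 ⟨le_rfl, zero_le_one⟩)
    rw [h0] at h
    refine ⟨_, Metric.isOpen_ball, convex_ball a r, ?_, h a ⟨Metric.mem_ball_self hr, ha⟩ x⟩
    rw [h0, segment_same]
    exact singleton_subset_iff.2 (Metric.mem_ball_self hr)
  have hE1 : E 0 → E 1 := isPreconnected_Icc.induction₂' (fun t t' => E t → E t')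
    (fun t ht => by
      obtain ⟨B, hB, h⟩ := key t ht
      filter_upwards [mem_nhdsWithin_of_mem_nhds
        (γ.continuous_of_finiteDimensional.continuousAt hB)] with t' ht'
      exact ⟨h t t' (mem_of_mem_nhds hB) ht', h t' t ht' (mem_of_mem_nhds hB)⟩)
    (fun _ _ _ _ _ _ h h' => h' ∘ h) ⟨le_rfl, zero_le_one⟩ ⟨zero_le_one, le_rfl⟩
  rw [← h1]
  exact hE1 hE0

/-- **A local system which is trivial near all points outside a set of codimension three is
trivial.** -/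
theorem cover {l : ℕ} (hS : Small l S) (hl' : l + 3 ≤ finrank ℝ M) (hSU : Disjoint U S) {u : M}
    (hu : u ∈ U) {x y : Q u} (h : Tr τ U ⟨u, x⟩ ⟨u, y⟩) : x = y := by
  let R : ∀ p, Q p → (Σ u, Q u) → Prop := fun p z a => ∃ O, IsOpen O ∧ Convex ℝ O ∧ p ∈ O ∧
    a.1 ∈ O ∧ ∃ s : ∀ u, Q u, Flat τ (O ∩ U) s ∧ s p = z ∧ s a.1 = a.2
  have key : ∀ a b, Tr τ U a b →
      ∃ Z, Small (l + 2) Z ∧ ∀ p ∈ U, p ∉ Z → ∀ z, R p z a → R p z b := by
    intro a b hab
    induction hab with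
    | refl => exact ⟨∅, small_empty _, fun _ _ _ _ h => h⟩
    | @tail b c _ h2 ih =>
      obtain ⟨Z, hZ, ih⟩ := ih
      refine ⟨_, hZ.union (hS.shadow₂ (hSU.mono_left h2.1)), fun p hp hpZ z hz => ?_⟩
      simp only [mem_union, mem_ofPred_eq, not_or, not_exists, not_and, not_not] at hpZ
      have hc := convex_segment (𝕜 := ℝ) b.1 c.1
      have h3 := hc.isPreconnected.induction₂'
        (fun v w => R p z ⟨v, τ b.1 v b.2⟩ → R p z ⟨w, τ b.1 w b.2⟩) (fun v hv => ?_)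
        (fun _ _ _ _ _ _ h h' => h' ∘ h) (left_mem_segment ℝ _ _) (right_mem_segment ℝ _ _)
      · rw [h2.2, L.self _ (h2.1 (left_mem_segment ℝ _ _))] at h3
        exact h3 (ih p hp hpZ.1 z hz)
      obtain ⟨O, hO, hcO, hs, s, hf, hsz⟩ := L.exists_tube hD hk hl (a := p) (b := v)
        (by rw [segment_symm]; exact hpZ.2 v hv) hp z
      have hpO := hs (left_mem_segment ℝ _ _)
      have hvO := hs (right_mem_segment ℝ _ _)
      have h4 : ∀ w ∈ segment ℝ b.1 c.1, ∀ w' ∈ segment ℝ b.1 c.1, w ∈ O → w' ∈ O →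
          R p z ⟨w, τ b.1 w b.2⟩ → R p z ⟨w', τ b.1 w' b.2⟩ := by
        rintro w hw w' hw' h5 h6 ⟨O', hO', hcO', hp', hw2, s', hf', hz', e⟩
        have h7 : s w = s' w := flat_unique hD hk (hO.inter hO') (hcO.inter hcO')
          (hf.mono fun z hz => ⟨hz.1.1, hz.2⟩) (hf'.mono fun z hz => ⟨hz.1.2, hz.2⟩)
          ⟨⟨hpO, hp'⟩, hp⟩ ⟨⟨h5, hw2⟩, h2.1 hw⟩ (hsz.trans hz'.symm)
        refine ⟨O, hO, hcO, hpO, h6, s, hf, hsz, ?_⟩
        change s w' = τ b.1 w' b.2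
        rw [← hf w w' (subset_inter (hcO.segment_subset h5 h6)
          ((hc.segment_subset hw hw').trans h2.1)), h7, e,
          L.tri _ hc h2.1 _ (left_mem_segment ℝ _ _) _ hw _ hw']
      filter_upwards [mem_nhdsWithin_of_mem_nhds (hO.mem_nhds hvO), self_mem_nhdsWithin]
        with w h5 h6
      exact ⟨h4 v hv w h6 hvO h5, h4 w h6 v hv h5 hvO⟩
  obtain ⟨Z, hZ, hR⟩ := key _ _ h
  obtain ⟨p, hp, hpZ⟩ := (hZ.union ((hS.shadow (disjoint_left.1 hSU hu)).le
    (by omega))).exists_notMem (by omega) (L.isOpen.mem_nhds hu)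
  simp only [mem_union, mem_ofPred_eq, not_or, not_not] at hpZ
  obtain ⟨O, hO, hcO, hs, s, hf, hx⟩ := L.exists_tube hD hk hl hpZ.2 hu x
  have huO := hs (left_mem_segment ℝ _ _)
  have hpO := hs (right_mem_segment ℝ _ _)
  obtain ⟨O', hO', hcO', hp', hu', s', hf', hz', e⟩ :=
    hR p hp hpZ.1 (s p) ⟨O, hO, hcO, hpO, huO, s, hf, rfl, hx⟩
  have h7 : s u = s' u := flat_unique hD hk (hO.inter hO') (hcO.inter hcO')
    (hf.mono fun z hz => ⟨hz.1.1, hz.2⟩) (hf'.mono fun z hz => ⟨hz.1.2, hz.2⟩)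
    ⟨⟨hpO, hp'⟩, hp⟩ ⟨⟨huO, hu'⟩, hu⟩ hz'.symm
  exact hx.symm.trans (h7.trans e)

end LocSys

end Vale.Agent.P269.Mono
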