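import Vale.Agent.P291Z.Fl2
import Vale.Agent.P269.Mono.Small

/-!
# P269, monodromy: definitions (helper19)
-/

namespace Vale.Agent.P269.Mono

open Set Topology Filter Module Function Vale.Agent.P291Z Vale.Agent.P291Z.Fl

/-- the standard quadratic form -/
def qf {ι : Type} [Fintype ι] (z : ι → ℂ) : ℂ := ∑ i, z i ^ 2

/-- the standard Hermitian form -/
noncomputable def nq {ι : Type} [Fintype ι] (z : ι → ℂ) : ℝ := ∑ i, ‖z i‖ ^ 2

/-- the closed Milnor fibre of a node -/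
def Mil (n : ℕ) (r : ℂ) : Set (Fin (n + 1) → ℂ) := {z | qf z = r ∧ nq z ≤ 1}

/-- the family of the Milnor fibres -/
def Tub (n : ℕ) {B : Type} (c : B → ℂ) : Set (B × (Fin (n + 1) → ℂ)) := {w | w.2 ∈ Mil n (c w.1)}

/-- `p : E → B` is the union of a family of Milnor fibres and of a trivial family -/
structure Tube (n : ℕ) {B E O : Type} [TopologicalSpace B] [TopologicalSpace E]
    [TopologicalSpace O] (p : E → B) (c : B → ℂ) (J : B × (Fin (n + 1) → ℂ) → E) (Ψ : B × O → E)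
    (O' : Set O) : Prop where
  cont_p : Continuous p
  cont_c : Continuous c
  cont_J : ContinuousOn J (Tub n c)
  inj_J : InjOn J (Tub n c)
  p_J : ∀ w ∈ Tub n c, p (J w) = w.1
  cont_Ψ : Continuous Ψ
  inj_Ψ : Injective Ψ
  p_Ψ : ∀ w, p (Ψ w) = w.1
  cover : ∀ e, e ∈ J '' Tub n c ∨ e ∈ range Ψ
  bd : ∀ w ∈ Tub n c, J w ∈ range Ψ ↔ nq w.2 = 1
  bd' : ∀ w, Ψ w ∈ J '' Tub n c ↔ w.2 ∈ O'

/-- polynomial functions -/
def Pol (V : Type) [NormedAddCommGroup V] [NormedSpace ℂ V] : Subalgebra ℂ (V → ℂ) :=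
  Algebra.adjoin ℂ {f | ∃ ℓ : V →L[ℂ] ℂ, f = ℓ}

section Pol

variable {V W : Type} [NormedAddCommGroup V] [NormedSpace ℂ V] [NormedAddCommGroup W]
  [NormedSpace ℂ W]

theorem pol_clm (ℓ : V →L[ℂ] ℂ) : (ℓ : V → ℂ) ∈ Pol V := Algebra.subset_adjoin ⟨ℓ, rfl⟩

theorem pol_const (c : ℂ) : (fun _ => c) ∈ Pol V := (Pol V).algebraMap_mem c

theorem pol_induction {P : (V → ℂ) → Prop} (h1 : ∀ ℓ : V →L[ℂ] ℂ, P ℓ) (h2 : ∀ c, P fun _ => c)
    (h3 : ∀ f g, P f → P g → P (f + g)) (h4 : ∀ f g, P f → P g → P (f * g)) {f : V → ℂ}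
    (hf : f ∈ Pol V) : P f := by
  induction hf using Algebra.adjoin_induction with
  | mem x hx =>
    obtain ⟨ℓ, rfl⟩ := hx
    exact h1 ℓ
  | algebraMap c => exact h2 c
  | add f g _ _ hf hg => exact h3 f g hf hg
  | mul f g _ _ hf hg => exact h4 f g hf hg

theorem pol_contDiff {f : V → ℂ} (hf : f ∈ Pol V) {n : WithTop ℕ∞} : ContDiff ℂ n f :=
  pol_induction (P := fun f => ContDiff ℂ n f) (fun ℓ => ℓ.contDiff) (fun _ => contDiff_const)
    (fun _ _ => ContDiff.add) (fun _ _ => ContDiff.mul) hf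

theorem pol_comp {f : V → ℂ} (hf : f ∈ Pol V) {g : W → V}
    (hg : ∀ ℓ : V →L[ℂ] ℂ, (fun w => ℓ (g w)) ∈ Pol W) : (fun w => f (g w)) ∈ Pol W :=
  pol_induction (P := fun f => (fun w => f (g w)) ∈ Pol W) hg pol_const
    (fun _ _ => (Pol W).add_mem) (fun _ _ => (Pol W).mul_mem) hf

theorem pol_eval {m : Type} (P : MvPolynomial m ℂ) {g : V → m → ℂ}
    (hg : ∀ i, (fun v => g v i) ∈ Pol V) : (fun v => MvPolynomial.eval (g v) P) ∈ Pol V := by
  induction P using MvPolynomial.induction_on with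
  | C a => simpa using pol_const a
  | add p q hp hq =>
    simp only [map_add]
    exact (Pol V).add_mem hp hq
  | mul_X p i hp =>
    simp only [map_mul, MvPolynomial.eval_X]
    exact (Pol V).mul_mem hp (hg i)

theorem pol_pi {κ : Type} [Fintype κ] {g : V → κ → ℂ} (hg : ∀ k, (fun v => g v k) ∈ Pol V)
    (ν : (κ → ℂ) →L[ℂ] ℂ) : (fun v => ν (g v)) ∈ Pol V := by
  classical
  have : (fun v => ν (g v)) = ∑ k, ν (Pi.single k 1) • fun v => g v k := by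
    ext v
    conv_lhs => rw [pi_eq_sum_univ' (g v)]
    simp [mul_comm]
  rw [this]
  exact (Pol V).sum_mem fun k _ => (Pol V).smul_mem (hg k) _

end Pol

/-- the equations of the critical points of `f₀ (u, ·)` on the zero set of `f' (u, ·)` -/
noncomputable def cr {M E Y : Type} [NormedAddCommGroup E] [NormedSpace ℂ E]
    [NormedAddCommGroup Y] [NormedSpace ℂ Y] (f₀ : M × E → ℂ) (f' : M × E → Y) (u : M)
    (w : E × (Y →L[ℂ] ℂ)) : (E →L[ℂ] ℂ) × Y :=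
  (fderiv ℂ (fun y => f₀ (u, y)) w.1 + w.2.comp (fderiv ℂ (fun y => f' (u, y)) w.1), f' (u, w.1))

/-- a complete linear system of tuples of homogeneous polynomials -/
structure CI (M m κ : Type) [AddCommGroup M] [Module ℂ M] where
  /-- the polynomials -/
  F : M →ₗ[ℂ] κ → MvPolynomial m ℂ
  /-- the degrees -/
  d : κ → ℕ
  pos : ∀ k, 0 < d k
  hom : ∀ u k, (F u k).IsHomogeneous (d k)
  surj : ∀ G : κ → MvPolynomial m ℂ, (∀ k, (G k).IsHomogeneous (d k)) → ∃ u, F u = G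

/-- affine coordinates -/
def aff {m : Type} [DecidableEq m] (i₀ : m) (ξ : {i // i ≠ i₀} → ℂ) : m → ℂ :=
  fun i => if h : i = i₀ then 1 else ξ ⟨i, h⟩

theorem aff_self {m : Type} [DecidableEq m] (i₀ : m) (ξ : {i // i ≠ i₀} → ℂ) : aff i₀ ξ i₀ = 1 :=
  dif_pos rfl

theorem aff_ne {m : Type} [DecidableEq m] {i₀ : m} (ξ : {i // i ≠ i₀} → ℂ) (i : {i // i ≠ i₀}) :
    aff i₀ ξ i = ξ i :=
  dif_neg i.2

theorem aff_ne_zero {m : Type} [DecidableEq m] (i₀ : m) (ξ : {i // i ≠ i₀} → ℂ) : aff i₀ ξ ≠ 0 :=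
  fun h => one_ne_zero ((aff_self i₀ ξ).symm.trans (congrFun h i₀))

theorem pol_aff {V m : Type} [NormedAddCommGroup V] [NormedSpace ℂ V] [DecidableEq m] {i₀ : m}
    {g : V → {i // i ≠ i₀} → ℂ} (hg : ∀ i, (fun v => g v i) ∈ Pol V) (i : m) :
    (fun v => aff i₀ (g v) i) ∈ Pol V := by
  by_cases h : i = i₀
  · simpa [aff, h] using pol_const 1
  · simpa [aff, h] using hg ⟨i, h⟩

namespace CI

variable {M m κ : Type} [NormedAddCommGroup M] [NormedSpace ℂ M] [Fintype m] [Fintype κ]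
  (S : CI M m κ)

/-- the equations -/
noncomputable def ev (u : M) (x : m → ℂ) : κ → ℂ := fun k => MvPolynomial.eval x (S.F u k)

omit [Fintype m] [Fintype κ] in
theorem ev_add (u v : M) (x : m → ℂ) : S.ev (u + v) x = S.ev u x + S.ev v x := by
  ext k
  simp [ev]

omit [Fintype m] [Fintype κ] in
theorem ev_smul (c : ℂ) (u : M) (x : m → ℂ) : S.ev (c • u) x = c • S.ev u x := by
  ext k
  simp [ev]

omit [Fintype m] [Fintype κ] in
theorem ev_hom (u : M) (c : ℂ) (x : m → ℂ) (k : κ) :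
    S.ev u (c • x) k = c ^ S.d k * S.ev u x k := by
  have h := S.hom u k
  simp only [ev, MvPolynomial.eval_eq, Finset.mul_sum]
  refine Finset.sum_congr rfl fun a ha => ?_
  rw [← h (MvPolynomial.mem_support_iff.1 ha), Finsupp.weight_apply, Finsupp.sum,
    ← Finset.prod_pow_eq_pow_sum, mul_left_comm, ← Finset.prod_mul_distrib]
  simp [mul_pow]

omit [Fintype m] [Fintype κ] in
theorem ev_smul_eq_zero {u : M} {c : ℂ} (hc : c ≠ 0) {x : m → ℂ} :
    S.ev u (c • x) = 0 ↔ S.ev u x = 0 := by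
  simp [funext_iff, ev_hom, hc]

omit [Fintype m] [Fintype κ] in
theorem pol_ev [FiniteDimensional ℂ M] {V : Type} [NormedAddCommGroup V] [NormedSpace ℂ V]
    {g₁ : V → M} {g₂ : V → m → ℂ} (h₁ : ∀ ℓ : M →L[ℂ] ℂ, (fun v => ℓ (g₁ v)) ∈ Pol V)
    (h₂ : ∀ i, (fun v => g₂ v i) ∈ Pol V) (k : κ) : (fun v => S.ev (g₁ v) (g₂ v) k) ∈ Pol V := by
  let b := Module.finBasis ℂ M
  have : (fun v => S.ev (g₁ v) (g₂ v) k) = ∑ a, (fun v => LinearMap.toContinuousLinearMap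
      (b.coord a) (g₁ v)) * fun v => MvPolynomial.eval (g₂ v) (S.F (b a) k) := by
    ext v
    conv_lhs => rw [← b.sum_repr (g₁ v), ev, map_sum, Finset.sum_apply, map_sum]
    simp [-Basis.sum_repr]
  rw [this]
  exact (Pol V).sum_mem fun a _ => (Pol V).mul_mem (h₁ _) (pol_eval _ h₂)

theorem contDiff_ev [FiniteDimensional ℂ M] {n : WithTop ℕ∞} :
    ContDiff ℂ n fun p : M × (m → ℂ) => S.ev p.1 p.2 :=
  contDiff_pi.2 fun k => pol_contDiff (S.pol_ev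
    (fun ℓ => pol_clm (ℓ.comp (ContinuousLinearMap.fst ℂ M (m → ℂ))))
    (fun i => pol_clm ((ContinuousLinearMap.proj i).comp (ContinuousLinearMap.snd ℂ M (m → ℂ)))) k)

/-- `x` is a singular point of the cone over the member `u` -/
def Sing (u : M) (x : m → ℂ) : Prop :=
  x ≠ 0 ∧ S.ev u x = 0 ∧ ¬Surjective (fderiv ℂ (S.ev u) x)

/-- the smooth members -/
def U : Set M := {u | ∀ x, ¬S.Sing u x}

/-- the member `u`, in the space of projectors of rank one -/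
def X (u : M) : Set (Matrix m m ℂ) := {A | ∃ x, x ≠ 0 ∧ S.ev u x = 0 ∧ A = prj x}

/-- the family over `B` -/
def XX {B : Type} (γ : B → M) : Set (B × Matrix m m ℂ) := {p | p.2 ∈ S.X (γ p.1)}

variable [DecidableEq m]

/-- the main equation in affine coordinates -/
noncomputable def f₀ (i₀ : m) (j₀ : κ) (p : M × ({i // i ≠ i₀} → ℂ)) : ℂ :=
  S.ev p.1 (aff i₀ p.2) j₀

/-- the other equations in affine coordinates -/
noncomputable def f' (i₀ : m) (j₀ : κ) (p : M × ({i // i ≠ i₀} → ℂ)) : {j // j ≠ j₀} → ℂ :=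
  fun j => S.ev p.1 (aff i₀ p.2) j.1

omit [Fintype κ] in
theorem pol_aux [FiniteDimensional ℂ M] (i₀ : m) (k : κ) :
    (fun p : M × ({i // i ≠ i₀} → ℂ) => S.ev p.1 (aff i₀ p.2) k) ∈ Pol _ :=
  S.pol_ev (g₁ := Prod.fst) (g₂ := fun p : M × ({i // i ≠ i₀} → ℂ) => aff i₀ p.2)
    (fun ℓ => pol_clm (ℓ.comp (ContinuousLinearMap.fst ℂ M ({i // i ≠ i₀} → ℂ))))
    (pol_aff (g := Prod.snd) fun i => pol_clm ((ContinuousLinearMap.proj i).comp
      (ContinuousLinearMap.snd ℂ M ({i // i ≠ i₀} → ℂ)))) k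

omit [Fintype κ] in
theorem pol_f₀ [FiniteDimensional ℂ M] (i₀ : m) (j₀ : κ) : S.f₀ i₀ j₀ ∈ Pol _ :=
  S.pol_aux i₀ j₀

variable [DecidableEq κ]

theorem pol_f' [FiniteDimensional ℂ M] (i₀ : m) (j₀ : κ) (ν : ({j // j ≠ j₀} → ℂ) →L[ℂ] ℂ) :
    (fun p => ν (S.f' i₀ j₀ p)) ∈ Pol _ :=
  pol_pi (g := S.f' i₀ j₀) (fun j => S.pol_aux i₀ j.1) ν

/-- the member `u` has exactly one singular point, which is a node -/
def Good (i₀ : m) (j₀ : κ) (u : M) : Prop :=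
  ∃ w, S.f₀ i₀ j₀ (u, w.1) = 0 ∧ cr (S.f₀ i₀ j₀) (S.f' i₀ j₀) u w = 0 ∧
    Injective (fderiv ℂ (cr (S.f₀ i₀ j₀) (S.f' i₀ j₀) u) w) ∧
    ∀ x, S.Sing u x → prj x = prj (aff i₀ w.1)

end CI

end Vale.Agent.P269.Mono
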