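import Vale.Agent.P291Z.Flow
import Vale.Agent.P291Z.T15

/-!
# P269, monodromy: vanishing of cohomology with compact supports in low degrees (helper19)

The theorem of Andreotti and Grauert by the bumping method.
-/

namespace Vale.Agent.P269.Mono

open Set Topology Filter Module Function TopologicalSpace Vale.Agent.P291Z unitInterval
open scoped ContDiff Manifold

variable {X Y Z U : Type} [TopologicalSpace X] [TopologicalSpace Y] [TopologicalSpace Z]
  [TopologicalSpace U]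

/-- no cohomology with compact supports in degrees less than `q` -/
def Low (X : Type) [TopologicalSpace X] (q : ℤ) : Prop := ∀ k < q, ∀ c ∈ Hc.deg X k, c = 0

theorem Low.mono {q q' : ℤ} (h : Low X q) (e : q' ≤ q) : Low X q' :=
  fun k hk => h k (hk.trans_le e)

theorem Low.of_subsingleton (h : Subsingleton (Hc X)) (q : ℤ) : Low X q :=
  fun _ _ _ _ => Subsingleton.elim _ _

theorem low_zero : Low X 0 := fun _ hk _ hc => Hc.eq_zero_of_neg hc hk

theorem Low.of_homeomorph {q : ℤ} (h : Low Y q) (e : X ≃ₜ Y) : Low X q := fun k hk c hc => by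
  apply (Hc.equiv e.symm).injective
  rw [map_zero, Hc.equiv_apply]
  exact h k hk _ (Hc.pull_deg _ hc)

theorem Low.open_closed [MetrizableSpace X] [LocallyCompactSpace X] {i : Z → X}
    (hi : IsClosedEmbedding i) {j : U → X} (hj : IsOpenEmbedding j) (hc : range j = (range i)ᶜ)
    {q : ℤ} (h : Low U q) (h' : Low Z q) : Low X q := fun k hk c hc' => by
  obtain ⟨c', h1, rfl⟩ := Hc.exists_push_deg hi hj hc hc' (h' k hk _ (Hc.pull_deg _ hc'))
  rw [h k hk c' h1, map_zero]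

theorem low_vec (V : Type) [NormedAddCommGroup V] [NormedSpace ℝ V] [FiniteDimensional ℝ V] :
    Low V (finrank ℝ V) := fun _ hk _ hc => by
  obtain ⟨t, ht, -⟩ := exists_isGen V
  exact ht.eq_zero hk.ne hc

theorem isOpenEmbedding_incl {S T : Set X} (h : S ⊆ T) (hS : IsOpen S) :
    IsOpenEmbedding (inclusion h) :=
  .inclusion h (hS.preimage continuous_subtype_val)

theorem isClosedEmbedding_incl {S T : Set X} (h : S ⊆ T) (hS : IsClosed S) :
    IsClosedEmbedding (inclusion h) :=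
  .inclusion h (hS.preimage continuous_subtype_val)

theorem isClosedEmbedding_sdiff (T : Set X) {S : Set X} (hS : IsOpen S) :
    IsClosedEmbedding (inclusion (sdiff_subset : T \ S ⊆ T)) := by
  refine .inclusion _ ?_
  have : (Subtype.val ⁻¹' (T \ S) : Set T) = Subtype.val ⁻¹' Sᶜ := by ext x; simp
  rw [this]
  exact hS.isClosed_compl.preimage continuous_subtype_val

theorem isOpenEmbedding_sdiff (T : Set X) {S : Set X} (hS : IsClosed S) :
    IsOpenEmbedding (inclusion (sdiff_subset : T \ S ⊆ T)) := by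
  refine .inclusion _ ?_
  have : (Subtype.val ⁻¹' (T \ S) : Set T) = Subtype.val ⁻¹' Sᶜ := by ext x; simp
  rw [this]
  exact hS.isOpen_compl.preimage continuous_subtype_val

omit [TopologicalSpace X] in
theorem range_sdiff {S T : Set X} (h : S ⊆ T) :
    range (inclusion (sdiff_subset : T \ S ⊆ T)) = (range (inclusion h))ᶜ := by
  rw [range_inclusion, range_inclusion]
  ext x
  simp

theorem Low.congr {S T : Set X} {q : ℤ} (h : Low S q) (e : ∀ x, x ∈ S ↔ x ∈ T) : Low T q :=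
  Set.ext e ▸ h

theorem Low.image {e : X → Y} (he : IsEmbedding e) {S : Set X} {q : ℤ} (h : Low S q) :
    Low (e '' S) q :=
  h.of_homeomorph (he.homeomorphImage S).symm

section Sets

variable [MetrizableSpace X] [LocallyCompactSpace X]

theorem low_of_sdiff {S T : Set X} (hT : IsLocallyClosed T) (hS : IsOpen S) (h : S ⊆ T) {q : ℤ}
    (h1 : Low S q) (h2 : Low ↥(T \ S) q) : Low T q := by
  have := hT.locallyCompactSpace
  exact Low.open_closed (isClosedEmbedding_sdiff T hS) (isOpenEmbedding_incl h hS)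
    (by rw [range_sdiff h, compl_compl]) h1 h2

theorem low_of_fib {B : Type} [TopologicalSpace B] [T2Space B] [LocallyCompactSpace B]
    {S : Set X} (hS : IsLocallyClosed S) {p : X → B} (hp : Continuous fun x : S => p x.1) {q : ℤ}
    (h : ∀ b, Low ↥(S ∩ p ⁻¹' {b}) q) : Low S q := fun k hk c hc => by
  have := hS.locallyCompactSpace
  refine Hc.deg_eq_zero_of_fib (F := fun b => (S ∩ p ⁻¹' {b} : Set X))
    (i := fun b => inclusion inter_subset_left) hp (fun b => ?_)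
    (fun b n hn => h b n (hn.trans_lt hk)) le_rfl hc
  have e : range (inclusion (inter_subset_left : S ∩ p ⁻¹' {b} ⊆ S)) =
      (fun x : S => p x.1) ⁻¹' {b} := by
    rw [range_inclusion]; ext x; simp
  exact ⟨⟨IsEmbedding.inclusion _, e ▸ isClosed_singleton.preimage hp⟩, e⟩

end Sets

/-- half open intervals -/
theorem null_interval {J : Set ℝ} (hJ : IsLocallyClosed J) (hc : J.OrdConnected) {r : ℝ}
    (hr : IsLeast J r) (hm : ∀ t ∈ J, ∃ t' ∈ J, t < t') : Null J := by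
  have := hJ.locallyCompactSpace
  refine Hc.subsingleton_of_flow fun K hK => ?_
  obtain ⟨m, hm1, hm2⟩ := (hK.insert ⟨r, hr.1⟩).exists_isMaxOn (insert_nonempty _ _)
    continuous_subtype_val.continuousOn
  obtain ⟨b, hb, hmb⟩ := hm m.1 m.2
  have hrb : r ≤ b := hr.2 hb
  have hmem : ∀ p : I × J, max p.2.1 (r + p.1.1 * (b - r)) ∈ J := fun p => by
    rcases max_choice p.2.1 (r + p.1.1 * (b - r)) with e | e <;> rw [e]
    · exact p.2.2
    · exact hc.out hr.1 hb ⟨by nlinarith [p.1.2.1], by nlinarith [p.1.2.2]⟩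
  have hcont : Continuous fun p : I × J => (⟨_, hmem p⟩ : J) := by fun_prop
  refine ⟨_, hcont, ?_, fun x => Subtype.ext ?_, fun x hx => ?_⟩
  · have h1 : IsCompact (Subtype.val ⁻¹' Icc r m.1 : Set J) := by
      rw [Subtype.isCompact_iff, image_preimage_eq_of_subset]
      · exact isCompact_Icc
      · rw [Subtype.range_coe]
        exact hc.out hr.1 m.2
    refine (isCompact_univ.prod h1).of_isClosed_subset (hK.isClosed.preimage hcont) fun p hp => ?_
    exact ⟨trivial, hr.2 p.2.2, (le_max_left _ _).trans (hm2 (mem_insert_of_mem _ hp))⟩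
  · simpa using hr.2 x.2
  · have h1 : max x.1 (r + (1 : I).1 * (b - r)) ≤ m.1 := hm2 (mem_insert_of_mem _ hx)
    have h2 := (le_max_right _ _).trans h1
    simp only [Icc.coe_one, one_mul] at h2
    linarith

variable {V : Type} [NormedAddCommGroup V] [NormedSpace ℝ V] [FiniteDimensional ℝ V]

omit [FiniteDimensional ℝ V] in
theorem isClosedEmbedding_ray (x : V) {v : V} (hv : v ≠ 0) :
    IsClosedEmbedding fun t : ℝ => x + t • v :=
  (Homeomorph.addLeft x).isClosedEmbedding.comp (isClosedEmbedding_smul_left hv)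

/-- the difference of two star shaped open sets -/
theorem null_rad {C C' : Set V} (hC : IsOpen C) (hC' : IsOpen C') {x : V} (hx : x ∈ C)
    (hs : StarConvex ℝ x C) (hs' : StarConvex ℝ x C') : Null (C' \ C) := by
  have hl : IsLocallyClosed (C' \ C) := hC'.isLocallyClosed.inter hC.isClosed_compl.isLocallyClosed
  have hne : ∀ y ∈ C' \ C, y - x ≠ 0 := fun y hy h => hy.2 (sub_eq_zero.1 h ▸ hx)
  refine null_of_fib hl (p := fun y => ‖y - x‖⁻¹ • (y - x)) ?_ fun v => ?_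
  · have hc : Continuous fun y : ↥(C' \ C) => y.1 - x := by fun_prop
    exact (hc.norm.inv₀ fun y => norm_ne_zero_iff.2 (hne y.1 y.2)).smul hc
  rcases eq_empty_or_nonempty (C' \ C ∩ (fun y => ‖y - x‖⁻¹ • (y - x)) ⁻¹' {v}) with h | ⟨y, hy, e⟩
  · rw [h]
    exact null_empty
  have hv : ‖v‖ = 1 := by
    rw [← show _ = v from e, norm_smul, norm_inv, norm_norm,
      inv_mul_cancel₀ (norm_ne_zero_iff.2 (hne y hy))]
  have hv0 : v ≠ 0 := by
    rintro rfl
    simp at hv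
  have he := isClosedEmbedding_ray x hv0
  have hrep : ∀ z ∈ C' \ C, ‖z - x‖⁻¹ • (z - x) = v → z = x + ‖z - x‖ • v := fun z hz h => by
    rw [← h, smul_inv_smul₀ (norm_ne_zero_iff.2 (hne z hz)), add_sub_cancel]
  have hstar : ∀ {D : Set V}, StarConvex ℝ x D → ∀ s t : ℝ, 0 ≤ s → s ≤ t → x + t • v ∈ D →
      x + s • v ∈ D := fun hD s t h0 h1 h2 => by
    rcases (h0.trans h1).eq_or_lt with h3 | h3
    · rwa [le_antisymm h1 (h3 ▸ h0)]
    · have := hD.add_smul_mem h2 (div_nonneg h0 h3.le) ((div_le_one h3).2 h1)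
      rwa [smul_smul, div_mul_cancel₀ _ h3.ne'] at this
  let A : Set ℝ := {t | 0 ≤ t ∧ x + t • v ∉ C}
  let J : Set ℝ := A ∩ {t | x + t • v ∈ C'}
  have hA : IsClosed A := (isClosed_Ici (a := 0)).inter (hC.isClosed_compl.preimage he.continuous)
  have hO : IsOpen {t : ℝ | x + t • v ∈ C'} := hC'.preimage he.continuous
  have hyJ : ‖y - x‖ ∈ J := by
    refine ⟨⟨norm_nonneg _, ?_⟩, ?_⟩
    · rw [← hrep y hy e]
      exact hy.2
    · change x + _ • v ∈ C'
      rw [← hrep y hy e]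
      exact hy.1
  have hb : BddBelow A := ⟨0, fun t ht => ht.1⟩
  have hr := hA.csInf_mem ⟨_, hyJ.1⟩ hb
  have hJ : Null J := null_interval (hA.isLocallyClosed.inter hO.isLocallyClosed)
    ⟨fun s hs1 t ht u hu => ⟨⟨hs1.1.1.trans hu.1, fun h => hs1.1.2 (hstar hs s u hs1.1.1 hu.1 h)⟩,
      hstar hs' u t (hs1.1.1.trans hu.1) hu.2 ht.2⟩⟩ (r := sInf A)
    ⟨⟨hr, hstar hs' _ _ hr.1 (csInf_le hb hyJ.1) hyJ.2⟩, fun t ht => csInf_le hb ht.1⟩
    fun t ht => by
      obtain ⟨t', h1, h2⟩ := ((eventually_mem_nhdsWithin (a := t) (s := Ioi t)).and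
        (mem_nhdsWithin_of_mem_nhds (hO.mem_nhds ht.2))).exists
      exact ⟨t', ⟨⟨ht.1.1.trans h1.le, fun h => ht.1.2 (hstar hs t t' ht.1.1 h1.le h)⟩, h2⟩, h1⟩
  refine (hJ.of_embedding he.isEmbedding).congr fun z => ⟨?_, ?_⟩
  · rintro ⟨hz, h⟩
    refine ⟨‖z - x‖, ⟨⟨norm_nonneg _, ?_⟩, ?_⟩, (hrep z hz h).symm⟩
    · rw [← hrep z hz h]
      exact hz.2
    · change x + _ • v ∈ C'
      rw [← hrep z hz h]
      exact hz.1
  · rintro ⟨t, ht, rfl⟩
    refine ⟨⟨ht.2, ht.1.2⟩, ?_⟩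
    have h0 : t ≠ 0 := by
      rintro rfl
      exact ht.1.2 (by simpa using hx)
    change ‖x + t • v - x‖⁻¹ • (x + t • v - x) = v
    rw [add_sub_cancel_left, norm_smul, hv, mul_one, Real.norm_of_nonneg ht.1.1, inv_smul_smul₀ h0]

omit [FiniteDimensional ℝ V] in
theorem nonempty_homeomorph_ball (x : V) {r : ℝ} (hr : 0 < r) :
    Nonempty (Metric.ball x r ≃ₜ V) := by
  let e : OpenPartialHomeomorph V V := OpenPartialHomeomorph.univBall x r
  exact ⟨((Homeomorph.setCongr (OpenPartialHomeomorph.univBall_target x hr).symm).trans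
    e.toHomeomorphSourceTarget.symm).trans ((Homeomorph.setCongr
      (OpenPartialHomeomorph.univBall_source x r)).trans (Homeomorph.Set.univ V))⟩

theorem low_ball (x : V) {r : ℝ} (hr : 0 < r) : Low (Metric.ball x r) (finrank ℝ V) :=
  (low_vec V).of_homeomorph (nonempty_homeomorph_ball x hr).some

theorem low_star {C : Set V} (hC : IsOpen C) {x : V} (hx : x ∈ C) (hs : StarConvex ℝ x C) :
    Low C (finrank ℝ V) := by
  obtain ⟨r, hr, h⟩ := Metric.isOpen_iff.1 hC x hx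
  exact low_of_sdiff hC.isLocallyClosed Metric.isOpen_ball h (low_ball x hr)
    (Low.of_subsingleton (null_rad Metric.isOpen_ball hC (Metric.mem_ball_self hr)
      ((convex_ball x r).starConvex (Metric.mem_ball_self hr)) hs) _)

theorem low_convex {C C' : Set V} (hC : IsOpen C) (hC' : IsOpen C') (h : C ⊆ C') (hc : Convex ℝ C)
    (hc' : Convex ℝ C') : Low ↥(C' \ C) (finrank ℝ V) := by
  rcases C.eq_empty_or_nonempty with rfl | ⟨x, hx⟩
  · rw [sdiff_empty]
    rcases C'.eq_empty_or_nonempty with rfl | ⟨x, hx⟩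
    · exact Low.of_subsingleton null_empty _
    · exact low_star hC' hx (hc'.starConvex hx)
  · exact Low.of_subsingleton (null_rad hC hC' hx (hc.starConvex hx) (hc'.starConvex (h hx))) _

/-- the second derivative in the direction `v` -/
noncomputable def hess (φ : V → ℝ) (y v : V) : ℝ := fderiv ℝ (fderiv ℝ φ) y v v

omit [FiniteDimensional ℝ V] in
theorem hasDerivAt_line {φ : V → ℝ} {a v : V} {t : ℝ} (h : ContDiffAt ℝ 2 φ (a + t • v)) :
    HasDerivAt (fun t : ℝ => φ (a + t • v)) (fderiv ℝ φ (a + t • v) v) t ∧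
      HasDerivAt (fun t : ℝ => fderiv ℝ φ (a + t • v) v) (hess φ (a + t • v) v) t := by
  have h1 : HasDerivAt (fun t : ℝ => a + t • v) v t := by
    simpa using ((hasDerivAt_id t).smul_const v).const_add a
  refine ⟨(h.differentiableAt (by simp)).hasFDerivAt.comp_hasDerivAt t h1, ?_⟩
  have h2 := ((h.fderiv_right (m := 1) (by norm_num)).differentiableAt
    (by simp)).hasFDerivAt.comp_hasDerivAt t h1
  simpa [hess] using h2.clm_apply (hasDerivAt_const t v)

theorem exists_pos_hess {φ : V → ℝ} {x : V} (h : ContDiffAt ℝ 2 φ x) {E : Submodule ℝ V}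
    (hE : ∀ v ∈ E, v ≠ 0 → 0 < hess φ x v) :
    ∃ δ > 0, ∀ᶠ y in 𝓝 x, ∀ v ∈ E, δ * ‖v‖ ^ 2 ≤ hess φ y v := by
  obtain ⟨m, hm, h1⟩ := ((isCompact_sphere (0 : V) 1).inter_right
    E.closed_of_finiteDimensional).exists_forall_le' (f := fun v => hess φ x v) (a := 0)
    (Continuous.continuousOn (by unfold hess; fun_prop)) fun v hv => hE v hv.2 (by
      rintro rfl
      simpa using hv.1)
  have h2 : ∀ v ∈ E, m * ‖v‖ ^ 2 ≤ hess φ x v := fun v hv => by
    rcases eq_or_ne v 0 with rfl | h0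
    · simp [hess]
    have h3 := norm_pos_iff.2 h0
    have := h1 (‖v‖⁻¹ • v) ⟨by simp [norm_smul, h3.ne'], E.smul_mem _ hv⟩
    simp only [hess, map_smul, smul_apply, smul_eq_mul] at this
    rw [← mul_assoc, ← mul_inv, ← pow_two, le_inv_mul_iff₀ (by positivity)] at this
    rwa [mul_comm]
  have h3 := (h.fderiv_right (m := 1) (by norm_num)).continuousAt_fderiv (by simp)
  refine ⟨m / 2, by positivity, ?_⟩
  filter_upwards [h3 (Metric.ball_mem_nhds _ (half_pos hm))] with y hy v hv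
  have h4 := (fderiv ℝ (fderiv ℝ φ) y - fderiv ℝ (fderiv ℝ φ) x).le_opNorm₂ v v
  have h5 : ‖fderiv ℝ (fderiv ℝ φ) y - fderiv ℝ (fderiv ℝ φ) x‖ ≤ m / 2 := by
    have h7 : dist (fderiv ℝ (fderiv ℝ φ) y) (fderiv ℝ (fderiv ℝ φ) x) < m / 2 := hy
    exact (dist_eq_norm (fderiv ℝ (fderiv ℝ φ) y) (fderiv ℝ (fderiv ℝ φ) x) ▸ h7).le
  have h6 : |hess φ y v - hess φ x v| ≤ m / 2 * ‖v‖ ^ 2 := by
    refine h4.trans ?_
    rw [mul_assoc, ← pow_two]
    exact mul_le_mul_of_nonneg_right h5 (by positivity)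
  linarith [h2 v hv, (abs_le.1 h6).1]

omit [FiniteDimensional ℝ V] in
theorem exists_fderiv_le {F : Type} [NormedAddCommGroup F] [NormedSpace ℝ F] {f : V → F}
    (h : ContDiff ℝ 1 f) (hc : HasCompactSupport f) :
    ∃ C, 0 ≤ C ∧ ∀ y v, ‖fderiv ℝ f y v‖ ≤ C * ‖v‖ := by
  obtain ⟨C, hC⟩ := (h.continuous_fderiv (by simp)).bounded_above_of_compact_support (hc.fderiv ℝ)
  exact ⟨C, (norm_nonneg _).trans (hC 0), fun y v => (fderiv ℝ f y).le_of_opNorm_le (hC y) v⟩

omit [FiniteDimensional ℝ V] in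
theorem exists_hess_le {χ : V → ℝ} (h : ContDiff ℝ 2 χ) (hc : HasCompactSupport χ) :
    ∃ C, 0 ≤ C ∧ ∀ y v, hess χ y v ≤ C * ‖v‖ ^ 2 := by
  obtain ⟨C, h0, hC⟩ := exists_fderiv_le (h.fderiv_right (m := 1) (by norm_num)) (hc.fderiv ℝ)
  refine ⟨C, h0, fun y v => (le_abs_self _).trans ?_⟩
  have := (fderiv ℝ (fderiv ℝ χ) y v).le_of_opNorm_le (hC y v) v
  rwa [mul_assoc, ← pow_two] at this

omit [FiniteDimensional ℝ V] in
theorem convexOn_line {ι : Type} {ψ : V → ℝ} {χ : ι → V → ℝ} (hχ : ∀ l, ContDiff ℝ 2 (χ l))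
    (t : Finset ι) {ε : ℝ} {a v : V} (h1 : ∀ τ ∈ Icc (0 : ℝ) 1, ContDiffAt ℝ 2 ψ (a + τ • v))
    (h2 : ∀ τ ∈ Icc (0 : ℝ) 1, ε * ∑ l ∈ t, hess (χ l) (a + τ • v) v ≤ hess ψ (a + τ • v) v) :
    ConvexOn ℝ (Icc 0 1) fun τ : ℝ => ψ (a + τ • v) - ε * ∑ l ∈ t, χ l (a + τ • v) := by
  have d1 := fun τ (hτ : τ ∈ Icc (0 : ℝ) 1) => hasDerivAt_line (h1 τ hτ)
  have d2 := fun (τ : ℝ) l => hasDerivAt_line (a := a) (v := v) (t := τ) (hχ l).contDiffAt
  have d3 := fun τ hτ => (d1 τ hτ).1.sub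
    ((HasDerivAt.fun_sum fun l (_ : l ∈ t) => (d2 τ l).1).const_mul ε)
  have d4 := fun τ hτ => (d1 τ hτ).2.sub
    ((HasDerivAt.fun_sum fun l (_ : l ∈ t) => (d2 τ l).2).const_mul ε)
  exact convexOn_of_hasDerivWithinAt2_nonneg (convex_Icc 0 1)
    (fun τ hτ => (d3 τ hτ).continuousAt.continuousWithinAt)
    (fun τ hτ => (d3 τ (interior_subset hτ)).hasDerivWithinAt)
    (fun τ hτ => (d4 τ (interior_subset hτ)).hasDerivWithinAt)
    fun τ hτ => sub_nonneg.2 (h2 τ (interior_subset hτ))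

omit [FiniteDimensional ℝ V] in
theorem convex_slice {B : Set V} (hB : Convex ℝ B) {g : V → ℝ} {E : Submodule ℝ V}
    (hg : ∀ a, ∀ v ∈ E, (∀ τ ∈ Icc (0 : ℝ) 1, a + τ • v ∈ B) →
      ConvexOn ℝ (Icc 0 1) fun τ : ℝ => g (a + τ • v)) (c : ℝ) (x : V) :
    Convex ℝ ((fun e : E => x + e.1) ⁻¹' (B ∩ {y | g y < c})) := by
  rw [convex_iff_add_mem]
  intro e he e' he' α β hα hβ hαβ
  have hb : ∀ τ ∈ Icc (0 : ℝ) 1, x + e + τ • (e' - e : V) ∈ B := fun τ hτ => by
    have := hB.add_smul_sub_mem he.1 he'.1 hτ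
    rwa [add_sub_add_left_eq_sub] at this
  have hβ' : β ∈ Icc (0 : ℝ) 1 := ⟨hβ, by linarith⟩
  have e1 : x + ((α • e + β • e' : E) : V) = x + e + β • (e' - e : V) := by
    rw [show α = 1 - β by linarith]
    push_cast
    module
  have e2 : x + e + (1 : ℝ) • (e' - e : V) = x + e' := by module
  have h5 := ((hg _ _ (E.sub_mem e'.2 e.2) hb).convex_lt c).segment_subset (x := 0) (y := 1)
    ⟨⟨le_rfl, zero_le_one⟩, by simpa using he.2⟩
    ⟨⟨zero_le_one, le_rfl⟩, by rw [e2]; exact he'.2⟩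
    (show β ∈ segment ℝ 0 1 by rwa [segment_eq_Icc zero_le_one])
  rw [mem_preimage, e1]
  exact ⟨hb β hβ', h5.2⟩

/-- one bump -/
theorem low_bump {W W' B : Set V} (hW : IsOpen W) (hW' : IsOpen W') (hB : IsOpen B) (h : W ⊆ W')
    (hd : W' \ W ⊆ B) {E : Submodule ℝ V}
    (hc : ∀ x, Convex ℝ ((fun e : E => x + e.1) ⁻¹' (B ∩ W)))
    (hc' : ∀ x, Convex ℝ ((fun e : E => x + e.1) ⁻¹' (B ∩ W'))) {q : ℕ} (hq : q ≤ finrank ℝ E)
    (h0 : Low W q) : Low W' q := by
  refine low_of_sdiff hW'.isLocallyClosed hW h h0 ?_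
  obtain ⟨E', hE'⟩ := E.exists_isCompl
  let π : V →L[ℝ] E' := LinearMap.toContinuousLinearMap (Submodule.projectionOnto _ _ hE'.symm)
  have hπ : ∀ v, π v = 0 ↔ v ∈ E := fun v => Submodule.projectionOnto_apply_eq_zero_iff _
  refine low_of_fib (hW'.isLocallyClosed.inter hW.isClosed_compl.isLocallyClosed)
    (p := π) (π.continuous.comp continuous_subtype_val) fun x => ?_
  have hπx : π x = x := Submodule.projectionOnto_apply_left hE'.symm x
  have he : IsEmbedding fun e : E => x.1 + e.1 :=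
    (Homeomorph.addLeft x.1).isEmbedding.comp IsEmbedding.subtypeVal
  have h3 := ((low_convex ((hB.inter hW).preimage he.continuous)
    ((hB.inter hW').preimage he.continuous)
    (preimage_mono (inter_subset_inter_right _ h)) (hc x) (hc' x)).mono
      (Int.ofNat_le.2 hq)).image he
  refine h3.congr fun y => Iff.symm ⟨?_, ?_⟩
  · rintro ⟨hy, hy'⟩
    have h4 : y - x ∈ E := (hπ _).1 (by rw [map_sub, hπx, sub_eq_zero]; exact hy')
    refine ⟨⟨y - x, h4⟩, ?_, add_sub_cancel _ _⟩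
    simp only [Set.mem_sdiff, mem_preimage, add_sub_cancel]
    exact ⟨⟨hd hy, hy.1⟩, fun h => hy.2 h.2⟩
  · rintro ⟨e, he', rfl⟩
    refine ⟨⟨he'.1.2, fun h => he'.2 ⟨he'.1.1, h⟩⟩, ?_⟩
    change π (x + e) = x
    rw [map_add, hπx, (hπ _).2 e.2, add_zero]

theorem exists_bumps {ι : Type} [Fintype ι] {K : Set V} (hK : IsClosed K) {B : ι → Set V}
    (hB : ∀ i, IsOpen (B i)) (h : K ⊆ ⋃ i, B i) :
    ∃ χ : ι → V → ℝ, (∀ i, ContDiff ℝ ∞ (χ i)) ∧ (∀ i, tsupport (χ i) ⊆ B i) ∧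
      (∀ i x, 0 ≤ χ i x) ∧ (∀ x, ∑ i, χ i x ≤ 1) ∧ ∀ x ∈ K, ∑ i, χ i x = 1 := by
  obtain ⟨ρ, hρ⟩ := SmoothPartitionOfUnity.exists_isSubordinate 𝓘(ℝ, V) hK B hB h
  refine ⟨fun i => ρ i, fun i => contMDiff_iff_contDiff.1 (ρ i).contMDiff, hρ, ρ.nonneg,
    fun x => ?_, fun x hx => ?_⟩
  · have := ρ.sum_le_one x
    rwa [finsum_eq_sum_of_fintype] at this
  · have := ρ.sum_eq_one hx
    rwa [finsum_eq_sum_of_fintype] at this

omit [NormedSpace ℝ V] [FiniteDimensional ℝ V] in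
theorem isOpen_sub {Ω : Set V} (hΩ : IsOpen Ω) {ψ : V → ℝ} (hψ : ContinuousOn ψ Ω) (a : ℝ) :
    IsOpen {x | x ∈ Ω ∧ ψ x < a} :=
  hψ.isOpen_inter_preimage hΩ isOpen_Iio

theorem exists_small_mul {ι : Type} [Finite ι] (S : ℝ) {δ : ι → ℝ} (hδ : ∀ i, 0 < δ i) :
    ∃ ε > 0, ε ≤ 1 ∧ ∀ i, ε * S ≤ δ i := by
  have h3 : ∀ᶠ ε in 𝓝 (0 : ℝ), ε ≤ 1 ∧ ∀ i, ε * S ≤ δ i := by
    refine (eventually_le_nhds one_pos).and (eventually_all.2 fun i => ?_)
    have : ContinuousAt (fun ε : ℝ => ε * S) 0 := by fun_prop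
    exact this.eventually (eventually_le_nhds (by simpa using hδ i))
  obtain ⟨ε, h4, h5⟩ := ((eventually_mem_nhdsWithin (a := (0 : ℝ)) (s := Ioi 0)).and
    (mem_nhdsWithin_of_mem_nhds h3)).exists
  exact ⟨ε, h4, h5⟩

theorem low_step {Ω : Set V} (hΩ : IsOpen Ω) {ψ : V → ℝ}
    (hψ : ∀ x ∈ Ω, ContDiffAt ℝ 2 ψ x) {b : ℝ} (hK : IsCompact {x | x ∈ Ω ∧ ψ x ≤ b + 1}) {q : ℕ}
    (hq : ∀ x ∈ Ω, ∃ E : Submodule ℝ V, q ≤ finrank ℝ E ∧ ∀ v ∈ E, v ≠ 0 → 0 < hess ψ x v) :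
    ∃ ε > 0, ∀ a ≤ b, Low ↥{x | x ∈ Ω ∧ ψ x < a} q → Low ↥{x | x ∈ Ω ∧ ψ x < a + ε} q := by
  classical
  have hψc : ContinuousOn ψ Ω := fun x hx => (hψ x hx).continuousAt.continuousWithinAt
  have h1 : ∀ x : Ω, ∃ (E : Submodule ℝ V) (δ r : ℝ), q ≤ finrank ℝ E ∧ 0 < δ ∧ 0 < r ∧
      ∀ y ∈ Metric.ball x.1 r, y ∈ Ω ∧ ∀ v ∈ E, δ * ‖v‖ ^ 2 ≤ hess ψ y v := fun x => by
    obtain ⟨E, h1, h2⟩ := hq x x.2
    obtain ⟨δ, h3, h4⟩ := exists_pos_hess (hψ x x.2) h2
    obtain ⟨r, h5, h6⟩ := Metric.mem_nhds_iff.1 (inter_mem (hΩ.mem_nhds x.2) h4)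
    exact ⟨E, δ, r, h1, h3, h5, fun y hy => h6 hy⟩
  choose E δ r hE hδ hr hB using h1
  obtain ⟨s, hs⟩ := hK.elim_finite_subcover (fun x : Ω => Metric.ball x.1 (r x))
    (fun _ => Metric.isOpen_ball) fun y hy => mem_iUnion.2 ⟨⟨y, hy.1⟩, Metric.mem_ball_self (hr _)⟩
  obtain ⟨χ, hχ, hsupp, hpos, hle, hone⟩ := exists_bumps hK.isClosed
    (B := fun i : s => Metric.ball i.1.1 (r i)) (fun _ => Metric.isOpen_ball) fun y hy => by
      obtain ⟨i, hi, h⟩ := mem_iUnion₂.1 (hs hy)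
      exact mem_iUnion.2 ⟨⟨i, hi⟩, h⟩
  have hχ2 : ∀ i, ContDiff ℝ 2 (χ i) := fun i => (hχ i).of_le (WithTop.coe_le_coe.2 le_top)
  choose C hC0 hC using fun i => exists_hess_le (hχ2 i) ((isCompact_closedBall i.1.1
    (r i)).of_isClosed_subset (isClosed_tsupport _) ((hsupp i).trans Metric.ball_subset_closedBall))
  obtain ⟨ε, hε, hε1, hε2⟩ := exists_small_mul (∑ l, C l) fun i : s => hδ i
  refine ⟨ε, hε, fun a ha h0 => ?_⟩
  let g : Finset s → V → ℝ := fun t x => ψ x - ε * ∑ l ∈ t, χ l x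
  let W : Finset s → Set V := fun t => {x | x ∈ Ω ∧ g t x < a}
  have hW : ∀ t, IsOpen (W t) := fun t => isOpen_sub hΩ (hψc.sub (continuous_const.mul
    (continuous_finsetSum _ fun l _ => (hχ l).continuous)).continuousOn) a
  have hconv : ∀ t (i : s) (x : V),
      Convex ℝ ((fun e : E i => x + e.1) ⁻¹' (Metric.ball i.1.1 (r i) ∩ W t)) := by
    intro t i x
    have e : Metric.ball i.1.1 (r i) ∩ W t = Metric.ball i.1.1 (r i) ∩ {y | g t y < a} :=
      Set.ext fun y => and_congr_right fun hy => and_iff_right (hB i y hy).1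
    rw [e]
    refine convex_slice (convex_ball _ _) (fun y v hv hb => ?_) a x
    refine convexOn_line hχ2 t (fun τ hτ => hψ _ (hB i _ (hb τ hτ)).1) fun τ hτ => ?_
    have a1 := (hB i _ (hb τ hτ)).2 _ hv
    have a2 : ∑ l ∈ t, hess (χ l) (y + τ • v) v ≤ (∑ l, C l) * ‖v‖ ^ 2 := by
      refine (Finset.sum_le_sum fun l _ => hC l _ _).trans ?_
      rw [← Finset.sum_mul]
      exact mul_le_mul_of_nonneg_right (Finset.sum_le_sum_of_subset_of_nonneg
        (Finset.subset_univ t) fun l _ _ => hC0 l) (by positivity)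
    have a3 := mul_le_mul_of_nonneg_right (hε2 i) (sq_nonneg ‖v‖)
    have a4 := mul_le_mul_of_nonneg_left a2 hε.le
    nlinarith
  have hind : ∀ t, Low (W t) q := by
    intro t
    induction t using Finset.induction_on with
    | empty => exact h0.congr fun x => by simp [W, g]
    | insert i t hi ih =>
      refine low_bump (hW t) (hW _) Metric.isOpen_ball (fun x hx => ⟨hx.1, lt_of_le_of_lt ?_ hx.2⟩)
        (fun y hy => hsupp i (subset_tsupport _ fun h => hy.2 ⟨hy.1.1, ?_⟩)) (hconv t i)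
        (hconv _ i) (hE i) ih
      · simp only [g, Finset.sum_insert hi]
        nlinarith [hpos i x]
      · simpa [g, Finset.sum_insert hi, h] using hy.1.2
  refine (hind Finset.univ).congr fun x => and_congr_right fun hx =>
    Iff.symm ⟨fun h => ?_, fun h => ?_⟩
  · simp only [g, hone x ⟨hx, by linarith⟩]
    linarith
  · have := hle x
    simp only [g] at h
    nlinarith

/-- **The theorem of Andreotti and Grauert**, real form: an exhaustion function whose Hessian has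
`q` positive directions kills the cohomology with compact supports in degrees less than `q`. -/
theorem low_of_exhaustion {Ω : Set V} (hΩ : IsOpen Ω) {ψ : V → ℝ}
    (hψ : ∀ x ∈ Ω, ContDiffAt ℝ 2 ψ x) (hK : ∀ a, IsCompact {x | x ∈ Ω ∧ ψ x ≤ a}) {q : ℕ}
    (hq : ∀ x ∈ Ω, ∃ E : Submodule ℝ V, q ≤ finrank ℝ E ∧ ∀ v ∈ E, v ≠ 0 → 0 < hess ψ x v) :
    Low Ω q := by
  have hψc : ContinuousOn ψ Ω := fun x hx => (hψ x hx).continuousAt.continuousWithinAt
  have hall : ∀ b, Low ↥{x | x ∈ Ω ∧ ψ x < b} q := by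
    intro b
    obtain ⟨ε, hε, h⟩ := low_step hΩ hψ (hK (b + 1)) hq
    obtain ⟨m, hm⟩ := ((hK b).image_of_continuousOn (hψc.mono fun x hx => hx.1)).bddBelow
    have h1 : ∀ n : ℕ, ∀ a ≤ b, a ≤ m + n * ε → Low ↥{x | x ∈ Ω ∧ ψ x < a} q := by
      intro n
      induction n with
      | zero =>
        intro a ha h1
        refine Low.of_subsingleton (null_of_forall_not fun x hx => ?_) _
        have := hm ⟨x, ⟨hx.1, hx.2.le.trans ha⟩, rfl⟩
        simp only [Nat.cast_zero, zero_mul, add_zero] at h1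
        linarith [hx.2]
      | succ n ih =>
        intro a ha h1
        have := h (a - ε) (by linarith) (ih _ (by linarith) (by push_cast at h1; linarith))
        rwa [sub_add_cancel] at this
    obtain ⟨n, hn⟩ := exists_nat_ge ((b - m) / ε)
    exact h1 n b le_rfl (by rw [div_le_iff₀ hε] at hn; linarith)
  rintro k hk _ ⟨a, ha, hd, rfl⟩
  have := hΩ.locallyCompactSpace
  obtain ⟨b, hb⟩ := ((mem_Zc.1 ha).1.image (continuousOn_iff_continuous_domRestrict.1 hψc)).bddAbove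
  have hj := isOpenEmbedding_incl (S := {x | x ∈ Ω ∧ ψ x < b + 1}) (T := Ω) (fun x hx => hx.1)
    (isOpen_sub hΩ hψc _)
  rw [← Hc.push_cls hj ha fun x hx =>
    ⟨⟨x.1, x.2, (hb ⟨x, hx, rfl⟩).trans_lt (lt_add_one b)⟩, rfl⟩,
    hall _ k hk _ (cls_mem_deg (hd.pull _)), map_zero]

end Vale.Agent.P269.Mono
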