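import Vale.Agent.P269.Mono.Defs
import Vale.Agent.P269.Mono.Low
import Vale.Agent.P269.Orb.Ori

/-!
# P269, monodromy: exact sequences for compact spaces (helper40)
-/

namespace Vale.Agent.P269.Mono.PL

open Set Topology Filter Module Function TopologicalSpace Vale.Agent.P291Z Vale.Agent.P291Z.Fl

variable {X Y Z U : Type} [TopologicalSpace X] [TopologicalSpace Y] [TopologicalSpace Z]
  [TopologicalSpace U]

theorem exists_toH [CompactSpace X] {k : ℤ} {a : H X} (h : H.IsDeg k a) :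
    ∃ c ∈ Hc.deg X k, toH c = a := by
  obtain ⟨c, rfl⟩ := toH_bijective.2 a
  exact ⟨_, Hc.comp_mem k c, by rw [toH_comp, h.comp_eq]⟩

theorem exists_deg {f : C(X, Y)} {k : ℤ} {c : H Y} (h : H.IsDeg k (H.map f c)) :
    ∃ c', H.IsDeg k c' ∧ H.map f c' = H.map f c :=
  ⟨H.comp k c, H.isDeg_comp k c, by rw [← H.comp_map, h.comp_eq]⟩

theorem map_map' {f : C(X, Y)} {g : C(Y, Z)} {k : C(X, Z)} (e : ∀ x, g (f x) = k x) (c : H Z) :
    H.map f (H.map g c) = H.map k c := by
  rw [H.map_map, show g.comp f = k from ContinuousMap.ext e]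

theorem map_smul_one (f : C(X, Y)) (z : ℂ) : H.map f (z • 1) = z • 1 := by
  rw [H.map_smulC, map_one]

theorem eq_zero_of_smul_one {k : ℤ} (hk : k ≠ 0) {a : H X} (h : H.IsDeg k a) {z : ℂ}
    (e : a = z • 1) : a = 0 := by
  rw [← h.comp_eq, e, map_smul, H.isDeg_one.comp_ne hk, smul_zero]

theorem bij_of_acyc [Nonempty X] (hX : Acyc X) (hY : Acyc Y) (f : C(X, Y)) :
    Bijective (H.map f) := by
  refine ⟨(injective_iff_map_eq_zero _).2 fun c hc => ?_, fun c => ?_⟩
  · obtain ⟨z, rfl⟩ := hY c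
    rw [map_smul_one, smul_eq_zero] at hc
    rw [hc.resolve_right hcls_one_ne_zero, zero_smul]
  · obtain ⟨z, rfl⟩ := hX c
    exact ⟨_, map_smul_one f z⟩

theorem acyc_of_inj {f : C(X, Y)} (hf : Injective (H.map f)) (h : Acyc X) : Acyc Y := fun c =>
  let ⟨z, hz⟩ := h (H.map f c)
  ⟨z, hf (hz.trans (map_smul_one f z).symm)⟩

theorem oemb {f : Z → X} (hf : IsClosedEmbedding f) {j : U → X} (hj : IsEmbedding j)
    (hc : range j = (range f)ᶜ) : IsOpenEmbedding j :=
  ⟨hj, hc ▸ hf.isClosed_range.isOpen_compl⟩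

section les

variable [MetrizableSpace X] [CompactSpace X] {f : C(Z, X)} (hf : IsClosedEmbedding f)
  {j : U → X} (hj : IsOpenEmbedding j) (hc : range j = (range f)ᶜ)
include hf

omit [MetrizableSpace X] in
theorem bij_iff : Bijective (H.map f) ↔ Bijective (Hc.pull (IsPr.of_isClosedEmbedding hf)) := by
  have := hf.compactSpace
  have h2 : H.map f ∘ toH = toH ∘ Hc.pull (IsPr.of_isClosedEmbedding hf) :=
    funext fun c => (toH_pull _ c).symm
  rw [← Bijective.of_comp_iff _ toH_bijective, h2, Bijective.of_comp_iff' toH_bijective]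

include hj hc

theorem bij_of_null (h : Subsingleton (Hc U)) : Bijective (H.map f) :=
  (bij_iff hf).2 (Hc.pull_bijective_of_subsingleton hf hj hc h)

theorem null_of_bij (h : Bijective (H.map f)) : Subsingleton (Hc U) := by
  rw [bij_iff hf] at h
  refine subsingleton_of_forall_eq 0 fun c => ?_
  obtain ⟨b, rfl⟩ := (Hc.exact_conn_push hf hj hc c).1 (h.1 (by
    rw [(Hc.exact_push_pull hf hj hc).apply_apply_eq_zero, map_zero]))
  obtain ⟨b, rfl⟩ := h.2 b
  exact (Hc.exact_pull_conn hf hj hc).apply_apply_eq_zero b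

theorem surj_of_inj {k : ℤ} (h : ∀ c ∈ Hc.deg U (k + 1), Hc.push hj c = 0 → c = 0) {a : H Z}
    (ha : H.IsDeg k a) : ∃ e, H.IsDeg k e ∧ H.map f e = a := by
  have := hf.compactSpace
  obtain ⟨a, h1, rfl⟩ := exists_toH ha
  obtain ⟨e, h2, rfl⟩ := Hc.exists_pull_deg hf hj hc h1 (h _ (Hc.conn_deg hf hj hc h1)
    ((Hc.exact_conn_push hf hj hc).apply_apply_eq_zero a))
  exact ⟨_, toH_deg h2, (toH_pull _ e).symm⟩

end les

theorem bij_of_null' [MetrizableSpace X] [CompactSpace Z] {S N : Set X} (hS : IsCompact S)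
    {f : C(Z, S)} (hf : Injective f) (hN : Null N) (e : ∀ x, x ∈ N ↔ x ∈ S ∧ ∀ z, (f z).1 ≠ x) :
    Bijective (H.map f) := by
  have := isCompact_iff_compactSpace.1 hS
  have h1 := f.continuous.isClosedEmbedding hf
  have h2 : N ⊆ S := fun x hx => ((e x).1 hx).1
  have h3 : range (inclusion h2) = (range f)ᶜ := by
    rw [range_inclusion]
    ext x
    simp [e, Subtype.ext_iff]
  exact bij_of_null h1 (oemb h1 (IsEmbedding.inclusion h2) h3) h3 hN

theorem null_compl [MetrizableSpace X] [CompactSpace X] (h : Acyc X) (v : X) :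
    Null ({v}ᶜ : Set X) := by
  have h1 : IsClosedEmbedding (ContinuousMap.const Unit v) :=
    (ContinuousMap.continuous _).isClosedEmbedding (injective_of_subsingleton _)
  exact null_of_bij h1 isOpen_compl_singleton.isOpenEmbedding_subtypeVal
    (Subtype.range_coe.trans (congrArg compl range_const.symm))
    (bij_of_acyc acyc_of_subsingleton h _)

theorem Null.of_image {e : X → Y} (he : IsEmbedding e) {S : Set X} (h : Null (e '' S)) : Null S :=
  Hc.subsingleton_of_homeomorph (he.homeomorphImage S) h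

theorem null_prod [MetrizableSpace X] [LocallyCompactSpace X] [MetrizableSpace Y]
    [LocallyCompactSpace Y] {N : Set X} (hl : IsLocallyClosed N) (hN : Null N) {O : Set Y}
    (hO : IsClosed O) : Null (N ×ˢ O) := by
  refine null_of_fib ((hl.preimage continuous_fst).inter
    (hO.isLocallyClosed.preimage continuous_snd)) (p := Prod.snd) (by fun_prop) fun o => ?_
  by_cases h : o ∈ O
  · refine (hN.of_embedding (isEmbedding_prodMkLeft o)).congr fun x => ⟨?_, ?_⟩
    · rintro ⟨hx, rfl⟩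
      exact ⟨x.1, hx.1, rfl⟩
    · rintro ⟨b, hb, rfl⟩
      exact ⟨⟨hb, h⟩, rfl⟩
  · exact null_of_forall_not fun x hx => h ((show x.2 = o from hx.2) ▸ hx.1.2)

section mv

variable {G A T W : Type} [TopologicalSpace G] [TopologicalSpace A] [TopologicalSpace T]
  [TopologicalSpace W] [MetrizableSpace G] [CompactSpace G] {a : C(A, G)} {t : C(T, G)}
  {u : C(W, A)} {w : C(W, T)} (ha : IsClosedEmbedding a) (ht : IsClosedEmbedding t)
  (hw : IsClosedEmbedding w) (sq : ∀ x, t (w x) = a (u x)) (cov : ∀ g, g ∉ range a → g ∈ range t)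
  (int : ∀ x, t x ∈ range a → x ∈ range w)
include sq cov int

omit [MetrizableSpace G] [CompactSpace G] in
theorem mv_range : range (fun x : ((range w)ᶜ : Set T) => t x) = (range a)ᶜ := by
  ext g
  constructor
  · rintro ⟨x, rfl⟩ h
    exact x.2 (int _ h)
  · intro h
    obtain ⟨x, rfl⟩ := cov g h
    refine ⟨⟨x, ?_⟩, rfl⟩
    rintro ⟨y, rfl⟩
    exact h ⟨_, (sq y).symm⟩

include ha ht hw

/-- Mayer-Vietoris, existence -/
theorem half_mv {α : H A} {τ : H T} (e : H.map u α = H.map w τ) : ∃ γ, H.map a γ = α := by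
  have := ha.compactSpace
  have := ht.compactSpace
  have := hw.compactSpace
  have := ht.isEmbedding.metrizableSpace
  have := ha.isEmbedding.t2Space
  have hc := mv_range sq cov int
  have hj := oemb ha (ht.isEmbedding.comp IsEmbedding.subtypeVal) hc
  have hj' := hw.isClosed_range.isOpen_compl.isOpenEmbedding_subtypeVal
  obtain ⟨α, rfl⟩ := toH_bijective.2 α
  obtain ⟨τ, rfl⟩ := toH_bijective.2 τ
  rw [← toH_pull (IsPr.of_compact u.continuous), ← toH_pull (IsPr.of_isClosedEmbedding hw)] at e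
  have h1 := Hc.pull_conn ha hj hc hw hj' Subtype.range_coe (IsPr.of_isClosedEmbedding ht)
    (IsPr.of_compact u.continuous) IsPr.id sq (fun _ => rfl) α
  rw [Hc.pull_id _ fun _ => rfl, toH_bijective.1 e,
    (Hc.exact_pull_conn hw hj' Subtype.range_coe).apply_apply_eq_zero] at h1
  obtain ⟨γ, rfl⟩ := (Hc.exact_pull_conn ha hj hc α).1 h1
  exact ⟨_, (toH_pull _ γ).symm⟩

/-- Mayer-Vietoris, uniqueness -/
theorem mv_inj {k : ℤ} {γ : H G} (hγ : H.IsDeg k γ) (h1 : H.map a γ = 0) (h2 : H.map t γ = 0)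
    (hs : ∀ b, H.IsDeg (k - 1) b → ∃ τ, H.map w τ = b) : γ = 0 := by
  have := ha.compactSpace
  have := ht.compactSpace
  have := hw.compactSpace
  have := ht.isEmbedding.metrizableSpace
  have hc := mv_range sq cov int
  have hj := oemb ha (ht.isEmbedding.comp IsEmbedding.subtypeVal) hc
  have hj' := hw.isClosed_range.isOpen_compl.isOpenEmbedding_subtypeVal
  obtain ⟨γ, h3, rfl⟩ := exists_toH hγ
  rw [← toH_pull (IsPr.of_isClosedEmbedding ha), map_eq_zero_iff _ toH_bijective.1] at h1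
  rw [← toH_pull (IsPr.of_isClosedEmbedding ht), map_eq_zero_iff _ toH_bijective.1] at h2
  obtain ⟨c, h4, rfl⟩ := Hc.exists_push_deg ha hj hc h3 h1
  rw [Hc.pull_push hj hj' _ IsPr.id (fun _ => rfl) (by
    rintro x ⟨y, hy⟩
    exact ⟨y, ht.injective hy⟩), Hc.pull_id _ fun _ => rfl] at h2
  obtain ⟨b, h5, rfl⟩ := Hc.exists_conn_deg hw hj' Subtype.range_coe h4 h2
  obtain ⟨τ, h6⟩ := hs _ (toH_deg h5)
  obtain ⟨τ, rfl⟩ := toH_bijective.2 τ
  rw [← toH_pull (IsPr.of_isClosedEmbedding hw)] at h6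
  rw [← toH_bijective.1 h6, (Hc.exact_pull_conn hw hj' Subtype.range_coe).apply_apply_eq_zero,
    map_zero, map_zero]

end mv

theorem cemb {S T C : Set X} (h : S ⊆ T) (hC : IsClosed C) (e : ∀ x ∈ T, x ∈ S ↔ x ∈ C) :
    IsClosedEmbedding (inclusion h) :=
  .inclusion h (by
    rw [show (Subtype.val ⁻¹' S : Set T) = Subtype.val ⁻¹' C from Set.ext fun x => e x.1 x.2]
    exact hC.preimage continuous_subtype_val)

/-- extension of classes over a family over the circle -/
theorem ext_arc {E : Type} [TopologicalSpace E] [MetrizableSpace E] [CompactSpace E]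
    [CompactSpace X] {L Y V Q R : Set E} (hL : IsClosed L) (hY : IsClosed Y) (hV : IsOpen V)
    {i : C(X, Q)} (hi : Injective i) (hQ : ∀ e, e ∈ Q ↔ e ∈ Y ∧ (e ∈ L ∨ ∃ x, (i x).1 = e))
    (hQY : Q ⊆ Y) (hiV : ∀ x, (i x).1 ∉ V) (hR : ∀ e, e ∈ R ↔ (∃ x, (i x).1 = e) ∨ e ∈ Y ∧ e ∈ V)
    (hl : IsLocallyClosed R) (h1 : Null (L ∩ R)) (h2 : Null (L ∩ (Y \ R))) {k : ℤ}
    (hs : ∀ b : H {x | (i x).1 ∈ L}, H.IsDeg (k - 1) b →
      ∃ x, H.map ⟨Subtype.val, continuous_subtype_val⟩ x = b)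
    {d : H Q} (hd : H.IsDeg k d) (h0 : H.map i d = 0) :
    ∃ y : H Y, H.map (ContinuousMap.inclusion hQY) y = d := by
  have hic : Continuous fun x => (i x).1 := by fun_prop
  have hii : Injective fun x => (i x).1 := Subtype.val_injective.comp hi
  have hQc : IsClosed Q := by
    rw [show Q = Y ∩ (L ∪ range fun x => (i x).1) from Set.ext hQ]
    exact hY.inter (hL.union (isCompact_range hic).isClosed)
  have := isCompact_iff_compactSpace.1 hQc.isCompact
  have := isCompact_iff_compactSpace.1 hY.isCompact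
  have := hl.locallyCompactSpace
  have := (hL.isLocallyClosed.inter hl).locallyCompactSpace
  have hZ : IsClosed {x | (i x).1 ∈ L} := hL.preimage hic
  have := isCompact_iff_compactSpace.1 hZ.isCompact
  have hQV : IsClosed (Q \ V) := hQc.sdiff hV
  have := isCompact_iff_compactSpace.1 hQV.isCompact
  -- the class is supported over the open arc
  let i₁ : C(X, ↥(Q \ V)) := ⟨fun x => ⟨(i x).1, (i x).2, hiV x⟩, hic.subtype_mk _⟩
  have b1 : Bijective (H.map i₁) := bij_of_null' hQV.isCompact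
    (fun x y h => hii (Subtype.mk.inj h)) h2 fun e => by
      simp only [mem_inter_iff, Set.mem_sdiff, hQ, hR, i₁, ContinuousMap.coe_mk]
      grind
  have e1 : H.map (ContinuousMap.inclusion (sdiff_subset : Q \ V ⊆ Q)) d = 0 :=
    b1.1 (by rw [map_map' (k := i) fun _ => rfl, h0, map_zero])
  obtain ⟨d, hd', rfl⟩ := exists_toH hd
  have c1 := isClosedEmbedding_incl (sdiff_subset : Q \ V ⊆ Q) hQV
  have r1 : range (inclusion (inter_subset_left : Q ∩ V ⊆ Q)) =
      (range (inclusion (sdiff_subset : Q \ V ⊆ Q)))ᶜ := by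
    rw [range_inclusion, range_inclusion]
    ext x
    simp
  have o1 := oemb c1 (IsEmbedding.inclusion _) r1
  rw [← toH_pull (f := ContinuousMap.inclusion _) (IsPr.of_isClosedEmbedding c1),
    map_eq_zero_iff _ toH_bijective.1] at e1
  obtain ⟨d₁, hd₁, rfl⟩ := Hc.exists_push_deg c1 o1 r1 hd' e1
  -- it is a boundary
  let ζ : {x | (i x).1 ∈ L} → ↥(L ∩ R) := fun z => ⟨(i z.1).1, z.2, (hR _).2 (.inl ⟨_, rfl⟩)⟩
  have c2 : IsClosedEmbedding ζ := ((hic.comp continuous_subtype_val).subtype_mk _).isClosedEmbedding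
    fun x y h => Subtype.ext (hii (Subtype.mk.inj h))
  have s2 : Q ∩ V ⊆ L ∩ R := fun e he => by
    simp only [mem_inter_iff, hQ, hR] at he ⊢
    grind
  have r2 : range (inclusion s2) = (range ζ)ᶜ := by
    rw [range_inclusion]
    ext ⟨e, he, he'⟩
    simp only [mem_inter_iff, hQ, mem_ofPred_eq, mem_compl_iff, mem_range, ζ, Subtype.exists]
    rw [hR] at he'
    grind
  have o2 := oemb c2 (IsEmbedding.inclusion _) r2
  obtain ⟨b, hb, rfl⟩ := Hc.exists_conn_deg c2 o2 r2 hd₁ (h1.elim _ _)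
  obtain ⟨x, hx⟩ := hs _ (toH_deg hb)
  obtain ⟨x, rfl⟩ := toH_bijective.2 x
  have p3 : IsPr (Subtype.val : {x | (i x).1 ∈ L} → X) :=
    IsPr.of_isClosedEmbedding hZ.isClosedEmbedding_subtypeVal
  rw [← toH_pull (f := ⟨Subtype.val, continuous_subtype_val⟩) p3] at hx
  let ρ : X → R := fun x => ⟨(i x).1, (hR _).2 (.inl ⟨_, rfl⟩)⟩
  have c3 : IsClosedEmbedding ρ := (hic.subtype_mk _).isClosedEmbedding
    fun x y h => hii (Subtype.mk.inj h)
  have s3 : Y ∩ V ⊆ R := fun e he => (hR e).2 (.inr he)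
  have r3 : range (inclusion s3) = (range ρ)ᶜ := by
    rw [range_inclusion]
    ext ⟨e, he⟩
    simp only [mem_inter_iff, mem_ofPred_eq, mem_compl_iff, mem_range, ρ, Subtype.mk.injEq]
    rw [hR] at he
    grind
  have o3 := oemb c3 (IsEmbedding.inclusion _) r3
  have p4 : IsPr (inclusion (inter_subset_inter_left V hQY)) := IsPr.of_isClosedEmbedding
    (cemb _ hQc fun x hx => and_iff_left hx.2)
  have p5 : IsPr (inclusion (inter_subset_right : L ∩ R ⊆ R)) := IsPr.of_isClosedEmbedding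
    (cemb _ hL fun x hx => and_iff_left hx)
  have o6 : IsOpenEmbedding (inclusion (inter_subset_left : Y ∩ V ⊆ Y)) :=
    .inclusion _ (by
      rw [Subtype.preimage_coe_self_inter]
      exact hV.preimage continuous_subtype_val)
  have p6 : IsPr (inclusion hQY) := IsPr.of_isClosedEmbedding (isClosedEmbedding_incl hQY hQc)
  refine ⟨toH (Hc.push o6 (Hc.conn c3 o3 r3 x)), ?_⟩
  rw [← toH_pull (f := ContinuousMap.inclusion hQY) p6, ← toH_bijective.1 hx]
  congr 1
  refine (Hc.pull_push o6 o1 p6 p4 (fun _ => rfl) ?_ _).trans ?_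
  · rw [range_inclusion, range_inclusion]
    exact fun x hx => ⟨x.2, hx.2⟩
  · rw [Hc.pull_conn c3 o3 r3 c2 o2 r2 p5 p3 p4 (fun _ => rfl) fun _ => rfl]

end Vale.Agent.P269.Mono.PL
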