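import Vale.Agent.P269.Defs.Chart
import Vale.Agent.P269.Mono.PL0

set_option linter.unusedSectionVars false

/-!
# P269, degenerations `b c = t`: definitions (helper19)
-/

namespace Vale.Agent.P269.Mono

open Set Topology Filter Module Function TopologicalSpace Vale.Agent.P291Z MvPolynomial
open scoped ContDiff ComplexConjugate

/-- the map of orbit spaces induced by an inclusion -/
def qinc {A W : Type} [NormedRing A] [NormedAddCommGroup W] (act : A → W → W) {S S' : Set W}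
    (h : S ⊆ S') : C(Quo act S, Quo act S') :=
  ⟨Quot.map (inclusion h) fun _ _ e => e,
    continuous_quot_lift _ (continuous_quot_mk.comp (continuous_inclusion h))⟩

variable {R J K : Type} [Fintype R] [Fintype J] [Fintype K] [DecidableEq R]

/-- the part of the cone where `b c` lies in `A` -/
def ovr (T : Tgt R J K) (b c : J) (A : Set ℂ) : Set (J → ℂ) := {x | x ∈ T.cone ∧ x b * x c ∈ A}

/-- the part of the cone where the coordinates in `Z` vanish -/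
def cut (T : Tgt R J K) (Z : Set J) : Set (J → ℂ) := {x | x ∈ T.cone ∧ ∀ j ∈ Z, x j = 0}

theorem ovr_mono (T : Tgt R J K) (b c : J) {A A' : Set ℂ} (h : A ⊆ A') :
    ovr T b c A ⊆ ovr T b c A' := fun _ hx => ⟨hx.1, h hx.2⟩

theorem cut_anti (T : Tgt R J K) {Z Z' : Set J} (h : Z ⊆ Z') : cut T Z' ⊆ cut T Z :=
  fun _ hx => ⟨hx.1, fun j hj => hx.2 j (h hj)⟩

theorem cut_left (T : Tgt R J K) (b c : J) {A : Set ℂ} (h : 0 ∈ A) : cut T {b} ⊆ ovr T b c A :=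
  fun x hx => ⟨hx.1, by rwa [hx.2 b rfl, zero_mul]⟩

theorem cut_right (T : Tgt R J K) (b c : J) {A : Set ℂ} (h : 0 ∈ A) : cut T {c} ⊆ ovr T b c A :=
  fun x hx => ⟨hx.1, by rwa [hx.2 c rfl, mul_zero]⟩

/-- The function `t = b c` on the target is a simple degeneration over the disc of radius `r`. -/
structure Dg (T : Tgt R J K) (i : R) (b c : J) (r : ℝ) : Prop where
  ne : b ≠ c
  pos : 0 < r
  wb : T.w b = Pi.single i 1
  wc : T.w c = -Pi.single i 1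
  hom : ∃ χ : K → R → ℤ, ∀ k, ∀ α ∈ (T.F k).support, ∀ l, ∑ j, α j * T.w j l = χ k l
  openU : IsOpen T.U
  invU : ∀ t, IsUnit t → ∀ x ∈ T.U, T.act t x ∈ T.U
  amp : ∃ θ : R → ℤ, ∀ e : R → ℤ, (e = θ ∨ ∃ l, e = θ + Pi.single l 1) →
    ∀ x ∈ ovr T b c (Metric.closedBall 0 r),
      ∃ α : J → ℕ, (∀ l, ∑ j, α j * T.w j l = e l) ∧ ∏ j, x j ^ α j ≠ 0
  cpt : ∃ C ⊆ T.cone, IsCompact C ∧ ∀ x ∈ ovr T b c (Metric.closedBall 0 r),
    ∃ t, IsUnit t ∧ T.act t x ∈ C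
  reg : ∀ x ∈ ovr T b c (Metric.closedBall 0 r), ∀ y : K → ℂ, ∃ v : J → ℂ, v b = 0 ∧ v c = 0 ∧
    ∀ k, ∑ j, v j * eval x (pderiv j (T.F k)) = y k

/-- the elements of the compact torus -/
def Uni (t : R → ℂ) : Prop := ∀ l, ‖t l‖ = 1

/-- the level set of the gauge `μ` -/
def lev (T : Tgt R J K) (b c : J) (r : ℝ) (μ : (J → ℂ) → R → ℝ) : Set (J → ℂ) :=
  {x | x ∈ ovr T b c (Metric.closedBall 0 r) ∧ μ x = 0}

/-- `μ` fixes the non compact part of the torus; near `b = c = 0` the level set is a submersion over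
the coordinates `b`, `c`. -/
structure Gau (T : Tgt R J K) (b c : J) (r : ℝ) (O : Set (J → ℂ)) (μ : (J → ℂ) → R → ℝ) (ε : ℝ) :
    Prop where
  isOpen : IsOpen O
  sub : O ⊆ T.U
  inv : ∀ t, IsUnit t → ∀ x ∈ O, T.act t x ∈ O
  sup : ovr T b c (Metric.closedBall 0 r) ⊆ O
  smooth : ContDiffOn ℝ ∞ μ O
  act : ∀ t, IsUnit t → ∀ x ∈ O, ∀ l, μ (T.act t x) l = μ x l + Real.log ‖t l‖
  cpt : IsCompact (lev T b c r μ)
  pos : 0 < ε
  le : ε ^ 2 ≤ r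
  surj : ∀ x ∈ lev T b c r μ, ‖x b‖ ^ 2 + ‖x c‖ ^ 2 ≤ ε ^ 2 → ∀ (y : K → ℂ) (z : R → ℝ),
    ∃ v : J → ℂ, v b = 0 ∧ v c = 0 ∧ (∀ k, ∑ j, v j * eval x (pderiv j (T.F k)) = y k) ∧
      fderiv ℝ μ x v = z

/-- the punctured quadrant -/
def Qd (ε t : ℝ) : Set (ℝ × ℝ) :=
  {z | 0 ≤ z.1 ∧ 0 ≤ z.2 ∧ z ≠ 0 ∧ z.1 ^ 2 + z.2 ^ 2 < ε ^ 2 ∧ z.1 * z.2 ≤ t}

/-- `E` is the union of a trivial family over `[0, t]` and of a family of hyperbolas -/
structure DTube (ε t : ℝ) {E O S : Type} [TopologicalSpace E] [TopologicalSpace O]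
    [TopologicalSpace S] (β γ : E → ℝ) (Ψ : Icc 0 t × O → E) (Θ : S × Qd ε t → E) : Prop where
  pos : 0 < t
  lt : 2 * t < ε ^ 2
  pos' : 0 < ε
  cont_β : Continuous β
  cont_γ : Continuous γ
  β_nonneg : ∀ e, 0 ≤ β e
  γ_nonneg : ∀ e, 0 ≤ γ e
  le : ∀ e, β e * γ e ≤ t
  cont_Ψ : Continuous Ψ
  inj_Ψ : Injective Ψ
  range_Ψ : ∀ e, e ∈ range Ψ ↔ ε ^ 2 ≤ β e ^ 2 + γ e ^ 2
  mul_Ψ : ∀ w, β (Ψ w) * γ (Ψ w) = w.1
  emb_Θ : IsEmbedding Θ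
  range_Θ : ∀ e, e ∈ range Θ ↔ (β e, γ e) ∈ Qd ε t
  val_Θ : ∀ w, (β (Θ w), γ (Θ w)) = w.2

end Vale.Agent.P269.Mono
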