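import Vale.Agent.P269.Mono.MV

/-!
# P269: the abstract topology of a degeneration `b c = t`
-/

namespace Vale.Agent.P269.Mono

open Set Topology Filter Module Function TopologicalSpace Vale.Agent.P291Z MvPolynomial
open scoped ContDiff ComplexConjugate
open Vale.Agent.P291Z.Fl

namespace DgA

theorem deg_of_inj {X Y : Type} [TopologicalSpace X] [TopologicalSpace Y] {f : Hc X →ₗ[ℂ] Hc Y}
    (hi : Injective f) {r : ℤ} (hf : ∀ k, ∀ c ∈ Hc.deg X k, f c ∈ Hc.deg Y (k + r)) {k : ℤ}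
    {c : Hc X} (h : f c ∈ Hc.deg Y (k + r)) : c ∈ Hc.deg X k :=
  Hc.mem_deg_iff.2 (hi ((Hc.comp_map hf k c).symm.trans (Hc.comp_of_mem h)))

theorem toH_ofH {X : Type} [TopologicalSpace X] [CompactSpace X] (a : H X) :
    toH (MVA.ofH X a) = a := (LinearEquiv.ofBijective toH toH_bijective).apply_symm_apply a

theorem null_Ico (a b : ℝ) : Null (Ico a b) := by
  rcases le_or_gt b a with h | h
  · exact null_of_forall_not fun x hx => (hx.1.trans_lt hx.2).not_ge h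
  · exact null_interval isLocallyClosed_Ico ordConnected_Ico (isLeast_Ico h) fun x hx =>
      ⟨(x + b) / 2, ⟨by linarith [hx.1, hx.2], by linarith [hx.2]⟩, by linarith [hx.2]⟩

theorem null_Ioc (a b : ℝ) : Null (Ioc a b) :=
  ((null_Ico (-b) (-a)).of_embedding (Homeomorph.neg ℝ).isEmbedding).congr fun x =>
    ⟨fun h => ⟨-x, ⟨neg_le_neg h.2, neg_lt_neg h.1⟩, neg_neg x⟩, by
      rintro ⟨y, h, rfl⟩
      exact ⟨lt_neg_of_lt_neg h.2, neg_le_of_neg_le h.1⟩⟩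

variable {ε t : ℝ}

theorem op_sq {X : Type} [TopologicalSpace X] {f g : X → ℝ} (hf : Continuous f) (hg : Continuous g)
    (c : ℝ) : IsOpen {x | f x ^ 2 + g x ^ 2 < c} :=
  isOpen_lt ((hf.pow 2).add (hg.pow 2)) continuous_const

theorem op_mul {X : Type} [TopologicalSpace X] {f g : X → ℝ} (hf : Continuous f) (hg : Continuous g)
    (c : ℝ) : IsOpen {x | f x * g x < c} := isOpen_lt (hf.mul hg) continuous_const

/-- the part of the quarter disc below the hyperbola -/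
theorem null_low (ht : 0 < t) (h : 2 * t < ε ^ 2) :
    Null {z : ℝ × ℝ | 0 < z.1 ∧ 0 < z.2 ∧ z.1 ^ 2 + z.2 ^ 2 < ε ^ 2 ∧ z.1 * z.2 ≤ t} := by
  obtain ⟨c, hc, h1, h2⟩ : ∃ c : ℝ, 0 < c ∧ t < c ^ 2 ∧ 2 * c ^ 2 < ε ^ 2 :=
    ⟨√((2 * t + ε ^ 2) / 4), Real.sqrt_pos.2 (by linarith),
      by rw [Real.sq_sqrt (by linarith)]; linarith, by rw [Real.sq_sqrt (by linarith)]; linarith⟩
  have o1 : IsOpen {z : ℝ × ℝ | 0 < z.1} := isOpen_lt continuous_const continuous_fst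
  have o2 : IsOpen {z : ℝ × ℝ | 0 < z.2} := isOpen_lt continuous_const continuous_snd
  have pos : ∀ {y a b : ℝ}, 0 < y → 0 ≤ a → 0 ≤ b → a + b = 1 → 0 < a * c + b * y :=
    fun {y a b} hy ha hb hab => (convex_Ioi (0 : ℝ)) hc hy ha hb hab
  refine (null_rad (C := {z : ℝ × ℝ | 0 < z.1 ∧ 0 < z.2 ∧ t < z.1 * z.2})
    (C' := {z : ℝ × ℝ | 0 < z.1 ∧ 0 < z.2 ∧ z.1 ^ 2 + z.2 ^ 2 < ε ^ 2}) (x := (c, c))
    (o1.inter (o2.inter (isOpen_lt continuous_const (continuous_fst.mul continuous_snd))))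
    (o1.inter (o2.inter (op_sq continuous_fst continuous_snd _))) ⟨hc, hc, by linarith⟩
    ?_ ?_).congr fun z => ?_
  · rintro ⟨x, y⟩ ⟨hx, hy, h3⟩ a b ha hb hab
    refine ⟨pos hx ha hb hab, pos hy ha hb hab, ?_⟩
    show t < (a * c + b * x) * (a * c + b * y)
    have h4 : 2 * t < c * (x + y) := by
      refine lt_of_pow_lt_pow_left₀ 2 (by positivity) ?_
      have h5 : t * t < c ^ 2 * (x * y) := mul_lt_mul'' h1 h3 ht.le ht.le
      nlinarith [mul_nonneg (sq_nonneg c) (sq_nonneg (x - y))]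
    have h5 : t = a ^ 2 * t + a * b * (2 * t) + b ^ 2 * t := by
      rw [show a ^ 2 * t + a * b * (2 * t) + b ^ 2 * t = (a + b) ^ 2 * t by ring, hab]; ring
    have h6 := mul_le_mul_of_nonneg_left h4.le (mul_nonneg ha hb)
    have h7 := mul_le_mul_of_nonneg_left h1.le (sq_nonneg a)
    have h8 := mul_le_mul_of_nonneg_left h3.le (sq_nonneg b)
    rcases ha.eq_or_lt with rfl | ha'
    · rw [zero_add] at hab
      subst hab
      simpa using h3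
    · have h9 := mul_lt_mul_of_pos_left h1 (pow_pos ha' 2)
      dsimp only at h8
      nlinarith
  · rintro ⟨x, y⟩ ⟨hx, hy, h3⟩ a b ha hb hab
    refine ⟨pos hx ha hb hab, pos hy ha hb hab, ?_⟩
    show (a * c + b * x) ^ 2 + (a * c + b * y) ^ 2 < ε ^ 2
    have h4 : a * (2 * c ^ 2) + b * (x ^ 2 + y ^ 2) < ε ^ 2 :=
      (convex_Iio (ε ^ 2)) h2 h3 ha hb hab
    obtain rfl : b = 1 - a := by linarith
    nlinarith [mul_nonneg (mul_nonneg ha hb) (sq_nonneg (c - x)),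
      mul_nonneg (mul_nonneg ha hb) (sq_nonneg (c - y))]
  · simp only [mem_ofPred_eq, Set.mem_sdiff, not_and, not_lt]
    tauto

theorem lc_up : IsLocallyClosed
    {z : ℝ × ℝ | 0 ≤ z.1 ∧ 0 < z.2 ∧ z.1 ^ 2 + z.2 ^ 2 < ε ^ 2 ∧ z.1 * z.2 < t} :=
  (isClosed_le continuous_const continuous_fst).isLocallyClosed.inter
    ((isOpen_lt continuous_const continuous_snd).inter ((op_sq continuous_fst continuous_snd _).inter
      (op_mul continuous_fst continuous_snd _))).isLocallyClosed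

theorem null_up (ht : 0 < t) :
    Null {z : ℝ × ℝ | 0 ≤ z.1 ∧ 0 < z.2 ∧ z.1 ^ 2 + z.2 ^ 2 < ε ^ 2 ∧ z.1 * z.2 < t} := by
  refine null_of_fib lc_up (p := Prod.snd) (by fun_prop) fun b => ?_
  by_cases hb : 0 < b ∧ b ^ 2 < ε ^ 2
  · have hU : IsOpen {x : ℝ | x ^ 2 + b ^ 2 < ε ^ 2 ∧ x * b < t} :=
      (op_sq continuous_id continuous_const _).inter (op_mul continuous_id continuous_const _)
    have h1 : Null (Ici 0 ∩ {x : ℝ | x ^ 2 + b ^ 2 < ε ^ 2 ∧ x * b < t}) := by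
      refine null_interval (isClosed_Ici.isLocallyClosed.inter hU.isLocallyClosed)
        ⟨fun x hx y hy z hz => ?_⟩ (r := 0) ⟨⟨mem_Ici.2 le_rfl, by simpa using hb.2, by simpa using ht⟩,
          fun x hx => hx.1⟩ fun x hx => ?_
      · have h2 : 0 ≤ z := hx.1.trans hz.1
        exact ⟨h2, by linarith [pow_le_pow_left₀ h2 hz.2 2, hy.2.1],
          (mul_le_mul_of_nonneg_right hz.2 hb.1.le).trans_lt hy.2.2⟩
      · obtain ⟨y, h2, h3⟩ := ((eventually_nhdsWithin_of_eventually_nhds (s := Ioi x)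
          (hU.mem_nhds hx.2)).and self_mem_nhdsWithin).exists
        exact ⟨y, ⟨le_trans hx.1 (le_of_lt h3), h2⟩, h3⟩
    refine (h1.of_embedding (isEmbedding_prodMkLeft b)).congr fun z => ⟨?_, ?_⟩
    · rintro ⟨hz, rfl⟩
      exact ⟨z.1, ⟨hz.1, hz.2.2⟩, rfl⟩
    · rintro ⟨x, hx, rfl⟩
      exact ⟨⟨hx.1, hb.1, hx.2⟩, rfl⟩
  · refine null_of_forall_not ?_
    rintro z ⟨hz, rfl⟩
    exact hb ⟨hz.2.1, by linarith [sq_nonneg z.1, hz.2.2.1]⟩

end DgA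

section Abs
variable {ε t : ℝ} {E O S : Type} [TopologicalSpace E] [TopologicalSpace O] [TopologicalSpace S]
  [MetrizableSpace E] [CompactSpace E] [MetrizableSpace O] [CompactSpace O] [MetrizableSpace S]
  [CompactSpace S] {β γ : E → ℝ} {Ψ : Icc 0 t × O → E} {Θ : S × Qd ε t → E}

omit [CompactSpace E] [MetrizableSpace E] [MetrizableSpace O] [CompactSpace O] in
theorem DTube.null_in (h : DTube ε t β γ Ψ Θ) {N : Set (ℝ × ℝ)} (hl : IsLocallyClosed N)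
    (hN : Null N) (hs : N ⊆ Qd ε t) : Null {e | (β e, γ e) ∈ N} := by
  have he : IsEmbedding fun w : S × Qd ε t => (w.2.1, w.1) :=
    (IsEmbedding.subtypeVal.prodMap IsEmbedding.id).comp (Homeomorph.prodComm _ _).isEmbedding
  have h1 : Null {w : S × Qd ε t | w.2.1 ∈ N} := PL.Null.of_image he
    ((PL.null_prod hl hN (isClosed_univ (X := S))).congr fun x => ⟨by
      rintro ⟨w, hw, rfl⟩
      exact ⟨hw, trivial⟩, fun hx => ⟨(x.2, ⟨x.1, hs hx.1⟩), hx.1, rfl⟩⟩)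
  refine (h1.of_embedding h.emb_Θ).congr fun e => ⟨fun hx => ?_, ?_⟩
  · obtain ⟨w, rfl⟩ := (h.range_Θ e).2 (hs hx)
    exact ⟨w, by rwa [mem_ofPred_eq, h.val_Θ] at hx, rfl⟩
  · rintro ⟨w, hw, rfl⟩
    rwa [mem_ofPred_eq, h.val_Θ]

omit [CompactSpace E] [MetrizableSpace S] [CompactSpace S] in
theorem DTube.null_out (h : DTube ε t β γ Ψ Θ) {J : Set ℝ} (hl : IsLocallyClosed J) (hJ : Null J)
    (hs : J ⊆ Icc 0 t) : Null {e | ε ^ 2 ≤ β e ^ 2 + γ e ^ 2 ∧ β e * γ e ∈ J} := by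
  have he : IsEmbedding (Prod.map Subtype.val id : Icc 0 t × O → ℝ × O) :=
    IsEmbedding.subtypeVal.prodMap IsEmbedding.id
  have h1 : Null {w : Icc 0 t × O | w.1.1 ∈ J} := PL.Null.of_image he
    ((PL.null_prod hl hJ (isClosed_univ (X := O))).congr fun x => ⟨by
      rintro ⟨w, hw, rfl⟩
      exact ⟨hw, trivial⟩, fun hx => ⟨(⟨x.1, hs hx.1⟩, x.2), hx.1, rfl⟩⟩)
  refine (h1.of_embedding (h.cont_Ψ.isClosedEmbedding h.inj_Ψ).isEmbedding).congr fun e =>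
    ⟨fun hx => ?_, ?_⟩
  · obtain ⟨w, rfl⟩ := (h.range_Ψ e).2 hx.1
    exact ⟨w, by rw [mem_ofPred_eq, ← h.mul_Ψ w]; exact hx.2, rfl⟩
  · rintro ⟨w, hw, rfl⟩
    exact ⟨(h.range_Ψ _).1 ⟨w, rfl⟩, by rwa [h.mul_Ψ]⟩

theorem DTube.bij (h : DTube ε t β γ Ψ Θ) {X : Type} [TopologicalSpace X] {i : C(X, E)}
    (hi : IsClosedEmbedding i) (hr : ∀ e, e ∈ range i ↔ β e * γ e = 0) : Bijective (H.map i) := by
  have ho := hi.isClosed_range.isOpen_compl
  have c1 := h.cont_β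
  have c2 := h.cont_γ
  refine PL.bij_of_null hi ho.isOpenEmbedding_subtypeVal Subtype.range_coe (null_union
    ho.isLocallyClosed (O := {e | β e ^ 2 + γ e ^ 2 < ε ^ 2}) (isOpen_lt (by fun_prop)
      continuous_const) ?_ ?_)
  · refine (h.null_in ?_ (DgA.null_low h.pos h.lt) fun z hz =>
      ⟨hz.1.le, hz.2.1.le, fun h0 => hz.1.ne' (congrArg Prod.fst h0), hz.2.2⟩).congr fun e => ?_
    · exact ((isOpen_lt continuous_const continuous_fst).isLocallyClosed.inter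
        ((isOpen_lt continuous_const continuous_snd).isLocallyClosed.inter
          ((DgA.op_sq continuous_fst continuous_snd _).isLocallyClosed.inter (isClosed_le
            (continuous_fst.mul continuous_snd) continuous_const).isLocallyClosed)))
    · simp only [mem_inter_iff, mem_compl_iff, hr, mem_ofPred_eq, mul_eq_zero, not_or]
      exact ⟨fun ⟨⟨h1, h2⟩, h3⟩ => ⟨(h.β_nonneg e).lt_of_ne' h1, (h.γ_nonneg e).lt_of_ne' h2, h3,
        h.le e⟩, fun ⟨h1, h2, h3, _⟩ => ⟨⟨h1.ne', h2.ne'⟩, h3⟩⟩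
  · refine (h.null_out isLocallyClosed_Ioc (DgA.null_Ioc 0 t) Ioc_subset_Icc_self).congr fun e => ?_
    simp only [mem_inter_iff, mem_compl_iff, hr, mem_ofPred_eq, not_lt, mem_Ioc]
    exact ⟨fun ⟨h1, h2⟩ => ⟨h2, (mul_nonneg (h.β_nonneg e) (h.γ_nonneg e)).lt_of_ne' h1, h.le e⟩,
      fun ⟨h1, h2, _⟩ => ⟨h2.ne', h1⟩⟩

theorem DTube.exists_equiv (h : DTube ε t β γ Ψ Θ) {W : Type} [TopologicalSpace W] {j : W → E}
    (hj : IsEmbedding j) (hj' : ∀ e, e ∈ range j ↔ γ e = 0 ∧ β e < ε) :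
    ∃ κ : Hc W ≃ₗ[ℂ] Hc {e | β e * γ e ≠ t}, ∀ k, ∀ a ∈ Hc.deg W k, κ a ∈ Hc.deg _ k := by
  have c1 := h.cont_β
  have c2 := h.cont_γ
  let V : Set E := {e | β e * γ e ≠ t}
  let A : Set E := {e | β e ^ 2 + γ e ^ 2 < ε ^ 2 ∧ β e * γ e < t}
  have hV : IsOpen V := isOpen_ne_fun (by fun_prop) continuous_const
  have hA : IsOpen A := (DgA.op_sq c1 c2 _).inter (DgA.op_mul c1 c2 _)
  have hAV : A ⊆ V := fun e he => he.2.ne
  have := hV.locallyCompactSpace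
  have := hA.locallyCompactSpace
  have n1 : Null (V \ A) :=
    (h.null_out isLocallyClosed_Ico (DgA.null_Ico 0 t) Ico_subset_Icc_self).congr fun e => by
      simp only [V, A, Set.mem_sdiff, mem_ofPred_eq, not_and, not_lt, mem_Ico]
      exact ⟨fun ⟨h1, h2⟩ => ⟨not_lt.1 fun h3 => h1 ((h.le e).antisymm (h2 h3)),
        mul_nonneg (h.β_nonneg e) (h.γ_nonneg e), (h.le e).lt_of_ne h1⟩,
        fun ⟨h1, _, h2⟩ => ⟨h2.ne, fun h3 => absurd h1 h3.not_ge⟩⟩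
  have b1 := Hc.push_bijective_of_subsingleton (isClosedEmbedding_sdiff V hA)
    (isOpenEmbedding_incl hAV hA) (by rw [range_sdiff hAV, compl_compl]) n1
  have m1 : ∀ e, e ∈ range j ↔ e ∈ A ∧ γ e = 0 := fun e => by
    rw [hj']
    refine ⟨fun ⟨h1, h2⟩ => ⟨⟨?_, ?_⟩, h1⟩, fun ⟨h1, h2⟩ => ⟨h2, ?_⟩⟩
    · rw [h1]; simpa using pow_lt_pow_left₀ h2 (h.β_nonneg e) two_ne_zero
    · rw [h1, mul_zero]; exact h.pos
    · exact lt_of_pow_lt_pow_left₀ 2 h.pos'.le (by linarith [h1.1, sq_nonneg (γ e)])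
  let j' : W → A := fun x => ⟨j x, ((m1 _).1 ⟨x, rfl⟩).1⟩
  have r1 : range j' = Subtype.val ⁻¹' {e | γ e = 0} := by
    ext e
    exact ⟨by rintro ⟨x, rfl⟩; exact ((m1 _).1 ⟨x, rfl⟩).2, fun he =>
      let ⟨x, hx⟩ := (m1 e.1).2 ⟨e.2, he⟩; ⟨x, Subtype.ext hx⟩⟩
  have hZ : IsClosed {e | γ e = 0} := isClosed_eq c2 continuous_const
  have e1 : IsClosedEmbedding j' := ⟨hj.codRestrict _ _, r1 ▸ hZ.preimage continuous_subtype_val⟩
  have n2 : Null (A \ {e | γ e = 0}) := (h.null_in DgA.lc_up (DgA.null_up h.pos) fun z hz =>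
      ⟨hz.1, hz.2.1.le, fun h0 => hz.2.1.ne' (congrArg Prod.snd h0), hz.2.2.1, hz.2.2.2.le⟩).congr
    fun e => ⟨fun he => ⟨h.β_nonneg e, (h.γ_nonneg e).lt_of_ne' he.2, he.1⟩,
      fun he => ⟨he.2.2, he.2.1.ne'⟩⟩
  have b2 := Hc.pull_bijective_of_subsingleton e1 (isOpenEmbedding_sdiff A hZ) (by
    rw [r1, range_inclusion]
    ext e
    exact and_iff_right e.2) n2
  refine ⟨(LinearEquiv.ofBijective _ b2).symm ≪≫ₗ LinearEquiv.ofBijective _ b1, fun k a ha => ?_⟩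
  refine Hc.push_deg _ (DgA.deg_of_inj b2.1 (r := 0)
    (fun k c hc => by rw [add_zero]; exact Hc.pull_deg _ hc) ?_)
  rw [add_zero]
  exact ((LinearEquiv.ofBijective _ b2).apply_symm_apply a).symm ▸ ha

open MVA in
theorem DTube.les (h : DTube ε t β γ Ψ Θ) {X D W : Type} [TopologicalSpace X] [TopologicalSpace D]
    [TopologicalSpace W] [MetrizableSpace D] [CompactSpace D] {i : C(X, E)} (hi : IsClosedEmbedding i)
    (hr : ∀ e, e ∈ range i ↔ β e * γ e = t) {j : W → E} (hj : IsEmbedding j)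
    (hj' : ∀ e, e ∈ range j ↔ γ e = 0 ∧ β e < ε) (θ : Hc D ≃ₗ[ℂ] Hc W)
    (hθ : ∀ k, ∀ a ∈ Hc.deg D k, θ a ∈ Hc.deg W (k + 2)) :
    ∃ (α : H D →ₗ[ℂ] H E) (ρ : H X →ₗ[ℂ] H D),
      (∀ k a, H.IsDeg k a → H.IsDeg (k + 2) (α a)) ∧ (∀ k a, H.IsDeg k a → H.IsDeg (k - 1) (ρ a)) ∧
      Exact α (H.map i) ∧ Exact (H.map i) ρ ∧ Exact ρ α := by
  have := hi.compactSpace
  obtain ⟨κ₀, hκ₀⟩ := h.exists_equiv hj hj'
  let κ := θ ≪≫ₗ κ₀
  have hκ : ∀ k, ∀ a ∈ Hc.deg D k, κ.toLinearMap a ∈ Hc.deg _ (k + 2) :=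
    fun k a ha => hκ₀ _ _ (hθ k a ha)
  have hc : range (Subtype.val : {e | β e * γ e ≠ t} → E) = (range i)ᶜ := by
    rw [Subtype.range_coe]
    exact Set.ext fun e => (hr e).not.symm
  have ho := PL.oemb hi IsEmbedding.subtypeVal hc
  refine ⟨toH ∘ₗ Hc.push ho ∘ₗ κ.toLinearMap ∘ₗ ofH D,
    toH ∘ₗ κ.symm.toLinearMap ∘ₗ Hc.conn hi ho hc ∘ₗ ofH X,
    fun k a ha => toH_deg (Hc.push_deg ho (hκ k _ (ofH_deg ha))),
    fun k a ha => toH_deg (DgA.deg_of_inj κ.injective hκ ?_), fun x => ?_, fun z => ?_, fun a => ?_⟩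
  · rw [show k - 1 + 2 = k + 1 by ring]
    exact (κ.apply_symm_apply _).symm ▸ Hc.conn_deg hi ho hc (ofH_deg ha)
  · rw [exact_push hi ho hc]
    refine ⟨fun ⟨c, e⟩ => ⟨toH (κ.symm c), ?_⟩, fun ⟨a, e⟩ => ⟨_, e⟩⟩
    rw [← e]
    show toH (Hc.push ho (κ (ofH D (toH (κ.symm c))))) = _
    rw [ofH_toH, κ.apply_symm_apply]
  · show toH (κ.symm (Hc.conn hi ho hc (ofH X z))) = 0 ↔ _
    rw [map_eq_zero_iff _ toH_bijective.1, map_eq_zero_iff _ κ.symm.injective]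
    exact exact_map hi ho hc z
  · refine (exact_conn hi ho hc (κ (ofH D a))).trans (exists_congr fun z => ?_)
    show _ ↔ toH (κ.symm (Hc.conn hi ho hc (ofH X z))) = a
    rw [← κ.symm_apply_eq, ← toH_bijective.1.eq_iff, DgA.toH_ofH]

end Abs

end Vale.Agent.P269.Mono
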