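import Vale.Agent.P269.Mono.Dg
import Vale.Agent.P269.Orb.Brg

set_option linter.unusedSectionVars false
set_option linter.style.haveILetI false

/-!
# P269, degenerations: conservation of the fundamental class, abstract part
-/

namespace Vale.Agent.P269.Mono

open Set Topology Filter Module Function TopologicalSpace Vale.Agent.P291Z Vale.Agent.P269.Holo
  Vale.Agent.P269.Orb

namespace DgI

/-- the orientation cocycle at the point `s` -/
noncomputable def wt (s : ℂ) : Coch ℂ := pull (fun z => z - s) (δ wind)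

theorem wt_eq (s : ℂ) : wt s = δ (pull (fun z => z - s) wind) := (δ_pull _ _).symm

theorem isCo_wt (s : ℂ) : IsCo {s} 1 (wt s) :=
  ⟨by rw [wt_eq]; exact cocycle_δ _, isDeg_wind.δ.pull _, fun z hz =>
    sub_eq_zero.1 (supp_δ_wind (supp_pull (f := fun z => z - s) (by fun_prop) _ hz))⟩

theorem eventually_eq_of_exp {h : ℂ → ℂ} {z : ℂ} (hc : ContinuousAt h z)
    (he : ∀ᶠ w in 𝓝 z, Complex.exp (h w) = Complex.exp (h z)) : ∀ᶠ w in 𝓝 z, h w = h z := by
  filter_upwards [he, hc.eventually (Metric.ball_mem_nhds _ one_pos)] with w h1 h2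
  obtain ⟨n, hn⟩ := Complex.exp_eq_exp_iff_exists_int.1 h1
  have h3 : ‖(n : ℂ) * (2 * Real.pi * Complex.I)‖ < 1 := by
    rwa [dist_eq_norm, hn, add_sub_cancel_left] at h2
  have h4 : |(n : ℝ)| * (2 * Real.pi) < 1 := by
    simpa [abs_of_pos Real.pi_pos] using h3
  have h5 : n = 0 := by
    by_contra h0
    have h6 : (1 : ℝ) ≤ |(n : ℝ)| := by exact_mod_cast Int.one_le_abs h0
    nlinarith [Real.pi_gt_three]
  rw [hn, h5]
  simp

theorem isCompact_seg (t : ℂ) : IsCompact (segment ℝ 0 t) := by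
  rw [segment_eq_image]
  exact isCompact_Icc.image (by fun_prop)

theorem slit_of_notMem {t z : ℂ} (hz : z ∉ segment ℝ 0 t) :
    z ≠ 0 ∧ z - t ≠ 0 ∧ (z - t) / z ∈ Complex.slitPlane := by
  have h0 : z ≠ 0 := fun h => hz (h ▸ left_mem_segment ℝ 0 t)
  refine ⟨h0, fun h => hz (sub_eq_zero.1 h ▸ right_mem_segment ℝ 0 t), ?_⟩
  by_contra h
  rw [Complex.mem_slitPlane_iff, not_or, not_lt, not_not] at h
  set u := ((z - t) / z).re with hu
  have h1 : (z - t) / z = u := Complex.ext rfl (by simpa using h.2)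
  have h2 : (0 : ℝ) < 1 - u := by linarith [h.1]
  have h3 : ((1 - u : ℝ) : ℂ) ≠ 0 := Complex.ofReal_ne_zero.2 h2.ne'
  refine hz ⟨1 - (1 - u)⁻¹, (1 - u)⁻¹, sub_nonneg.2 (inv_le_one_of_one_le₀ (by linarith [h.1])),
    (inv_pos.2 h2).le, by ring, ?_⟩
  rw [div_eq_iff h0] at h1
  rw [smul_zero, zero_add, Complex.real_smul, Complex.ofReal_inv, inv_mul_eq_iff_eq_mul₀ h3]
  push_cast
  linear_combination -h1

theorem cohom_wt (t : ℂ) : Cohom (segment ℝ 0 t) (wt t) (wt 0) := by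
  refine ⟨pull (fun z => z - t) wind - pull (fun z => z - 0) wind -
    δ (fn fun w => Complex.log ((w - t) / w) / (2 * Real.pi * Complex.I)), fun z hz => ?_, ?_⟩
  · by_contra h
    obtain ⟨h0, h1, h2⟩ := slit_of_notMem h
    have h3 := Van.pull (f := fun w => w - t) (x := z) (by fun_prop) (wind_local h1)
    have h4 := Van.pull (f := fun w => w - 0) (x := z) (by fun_prop)
      (wind_local (z := z - 0) (by rwa [sub_zero]))
    have h5 : δ (fn ((fun w => Complex.log ((w - t) / (z - t)) / (2 * Real.pi * Complex.I)) -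
        (fun w => Complex.log ((w - 0) / (z - 0)) / (2 * Real.pi * Complex.I)) -
        fun w => Complex.log ((w - t) / w) / (2 * Real.pi * Complex.I))) ∈ Van z := by
      have h6 := eventually_eq_of_exp (z := z) (h := fun w => Complex.log ((w - t) / (z - t)) -
        Complex.log (w / z) - Complex.log ((w - t) / w))
        (((ContinuousAt.clog (by fun_prop) (by simp [div_self h1])).sub
          (ContinuousAt.clog (by fun_prop) (by simp [div_self h0]))).sub
          (ContinuousAt.clog (ContinuousAt.div (by fun_prop) continuousAt_id h0) h2)) (by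
        filter_upwards [eventually_ne_nhds h0, eventually_ne_nhds (sub_ne_zero.1 h1)] with w k0 k1
        have k2 := sub_ne_zero.2 k1
        simp only [Complex.exp_sub, Complex.exp_log (div_ne_zero k2 h1),
          Complex.exp_log (div_ne_zero k0 h0), Complex.exp_log (div_ne_zero k2 k0),
          Complex.exp_log (div_ne_zero h1 h1), Complex.exp_log (div_ne_zero h0 h0),
          Complex.exp_log (div_ne_zero h1 h0)]
        field_simp)
      refine δ_fn_van.2 (h6.mono fun w hw => ?_)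
      simp only [Pi.sub_apply, sub_zero, ← sub_div]
      exact congrArg (· / (2 * Real.pi * Complex.I)) hw
    rw [map_sub, ← δ_pull, pull_fn] at h3 h4
    rw [fn_sub, fn_sub, map_sub, map_sub] at h5
    refine (?_ : _ ∈ Van z) hz
    convert add_mem (sub_mem h3 h4) h5 using 1
    simp only [Function.comp_def]
    abel
  · rw [map_sub, map_sub, δ_δ, sub_zero, ← wt_eq, ← wt_eq, sub_self]
    exact supp_zero

theorem locCo_wind : LocCo (pull (fun w : Fin 1 → ℂ => w 0) (δ wind)) 1 := by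
  simpa [tau] using locCo_tau (n := 1)

section top

variable {X Y Z : Type} [TopologicalSpace X] [TopologicalSpace Y] [TopologicalSpace Z]

theorem rep_cocycle (e : H X) : supp (δ (rep e)) = ∅ :=
  (Classical.epsilon fun a : Zs X => H.mk a = e).2

theorem hcls_rep (e : H X) : hcls (rep e) = e :=
  (hcls_val _).trans (Classical.epsilon_spec (p := fun a : Zs X => H.mk a = e) (H.mk_surj e))

theorem ev_rep [CompactSpace X] [CompactSpace Y] {f : C(X, Y)} (hf : IsPr f) (β : BM X) (e : H Y) :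
    ev β (rep (H.map f e)) = ev (push f β) (rep e) := by
  have h1 : rep e ∈ Zc Y := ⟨(isClosed_supp _).isCompact, rep_cocycle e⟩
  rw [ev_push hf β h1, ev_eq, ev_eq, (cls_eq_iff_hcls (rep_cocycle _) (hf.pull_Zc h1).2).2]
  rw [hcls_rep, ← H.map_hcls f h1.2, hcls_rep]

theorem val_push_add {l : Y → X} (hl : IsClosedEmbedding l) {l' : Z → X} (hl' : IsClosedEmbedding l')
    {n : ℕ} {β : BM Y} (β' : BM Z) {ψ' : (Fin n → ℂ) → Y} {ψ : (Fin n → ℂ) → X} {μ : ℂ}
    (h : Val β ψ' μ) (e : ∀ᶠ z in 𝓝 0, l (ψ' z) = ψ z) (h0 : ψ 0 ∉ range l') :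
    Val (push l β + push l' β') ψ μ := fun a c h1 h2 h3 => by
  have ha := Zc_of_pt h1 h2
  have h4 : ev β' (pull l' a) = 0 := by
    rw [ev_congr β' (b := 0) fun x hx => h0 ⟨x, h2 (supp_pull hl'.continuous a (by
      rwa [sub_zero] at hx))⟩, ev_eq, cls_zero, map_zero]
  rw [add_ev, ev_push (IsPr.of_isClosedEmbedding hl) β ha,
    ev_push (IsPr.of_isClosedEmbedding hl') β' ha, h4, add_zero]
  refine h _ c ((IsPr.of_isClosedEmbedding hl).pull_Zc ha).2 (fun y hy => hl.injective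
    ((h2 (supp_pull hl.continuous a hy)).trans e.self_of_nhds.symm)) ?_
  rw [pull_pull]
  exact h3.pull_congr e

end top

end DgI

open DgI

variable {A W : Type} [NormedRing A] [NormedAlgebra ℂ A] [NormedAddCommGroup W] [NormedSpace ℂ W]

/-- a free proper holomorphic action on a locally compact set -/
class FP (act : A → W → W) (S : Set W) : Prop extends IsAct act S where
  proper : ProperSMul Aˣ (Sp act S)
  lc : LocallyCompactSpace S
  free : ∀ (x : Sp act S) (g : Aˣ), g • x = x → g = 1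

attribute [instance] FP.proper

variable [FiniteDimensional ℂ A] [FiniteDimensional ℂ W] {act : A → W → W} {S S' : Set W} {n : ℕ}

theorem FP.mono (h : FP act S') (hS : S ⊆ S') (hm : ∀ a, IsUnit a → ∀ x ∈ S, act a x ∈ S)
    (hl : IsLocallyClosed S) : FP act S :=
  haveI := FiniteDimensional.proper ℂ W
  haveI := h.toIsAct.mono hS hm
  { this with
    proper := Sp.properSMul_mono hS
    lc := hl.locallyCompactSpace
    free := fun x g e => h.free (Sp.incl act hS x) g (congrArg (Sp.incl act hS) e) }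

instance [h : FP act S] : Nice (Quo act S) :=
  haveI := h.lc
  nice_quo

theorem FP.preOrb [h : FP act S] : PreOrb Aˣ (Sp.val : Sp act S → W) :=
  haveI := h.lc
  preOrb_sp

theorem FP.stab [h : FP act S] (x : Sp act S) : stab Aˣ x = 1 := stab_eq_one (h.free x)

theorem FP.finite [h : FP act S] (x : Sp act S) : Finite (MulAction.stabilizer Aˣ x) :=
  haveI : Subsingleton (MulAction.stabilizer Aˣ x) :=
    ⟨fun a b => Subtype.ext ((h.free x _ a.2).trans (h.free x _ b.2).symm)⟩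
  inferInstance

theorem FP.holOrb [h : FP act S] (hm : ∀ x : Sp act S, IsMfd Sp.val (finrank ℂ A + n) x) :
    HolOrb Aˣ (Sp.val : Sp act S → W) n :=
  haveI := h.lc
  holOrb_sp hm FP.finite

theorem FP.finrank_le [h : FP act S] {x : Sp act S} {m : ℕ} (hm : IsMfd Sp.val m x) :
    finrank ℂ A ≤ m :=
  haveI := FiniteDimensional.complete ℂ A
  haveI := FiniteDimensional.complete ℂ W
  hm.finrank_le isExp_expU (Sp.holAct x) (Sp.inf_injective_of_finite (FP.finite x))

theorem FP.eq_fundQ [h : FP act S] (ho : HolOrb Aˣ (Sp.val : Sp act S → W) n) {β : BM (Quo act S)}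
    (hβ : P269.IsFund act S β) : β = fundQ Aˣ Sp.val Sp.mk n :=
  haveI := h.lc
  hβ.eq_fundQ ho (isQuo_sp.meets (by rw [eq_univ_of_forall h.free]; exact dense_univ))

theorem FP.isFund [h : FP act S] (ho : HolOrb Aˣ (Sp.val : Sp act S → W) n) :
    P269.IsFund act S (fundQ Aˣ Sp.val Sp.mk n) :=
  haveI := h.lc
  ho.isFund_sp

theorem qinc_mk (h : S ⊆ S') (x : Sp act S) : qinc act h x.mk = (Sp.incl act h x).mk := rfl

theorem qinc_comp {S'' : Set W} (h : S ⊆ S') (h' : S' ⊆ S'') :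
    qinc act h' ∘ qinc act h = qinc act (h.trans h') := funext fun x => by
  obtain ⟨x, rfl⟩ := Sp.surjective_mk x
  rfl

section qinc

variable [IsAct act S] [IsAct act S']

theorem isClosedEmbedding_qinc (h : S ⊆ S') (hc : IsClosed (Subtype.val ⁻¹' S : Set S')) :
    IsClosedEmbedding (qinc act h) :=
  isQuo_sp.isClosedEmbedding isQuo_sp (j := Sp.incl act h) (IsClosedEmbedding.inclusion h hc)
    (Sp.incl_smul h) (qinc_mk h)

theorem isOpenEmbedding_qinc (h : S ⊆ S') (hc : IsOpen (Subtype.val ⁻¹' S : Set S')) :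
    IsOpenEmbedding (qinc act h) :=
  isQuo_sp.isOpenEmbedding isQuo_sp (j := Sp.incl act h) (IsOpenEmbedding.inclusion h hc)
    (Sp.incl_smul h) (qinc_mk h)

theorem mk_mem_range_qinc (h : S ⊆ S') {x : Sp act S'} :
    x.mk ∈ range (qinc act h) ↔ x.val ∈ S := by
  refine ⟨?_, fun hx => ⟨(Sp.of act x.val hx).mk, rfl⟩⟩
  rintro ⟨y, hy⟩
  obtain ⟨y, rfl⟩ := Sp.surjective_mk y
  obtain ⟨g, rfl⟩ := Sp.mk_eq_iff.1 ((qinc_mk h y).symm.trans hy)
  exact (g • y).val_mem

end qinc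

/-- the Gysin class at a regular point of a level set -/
theorem exists_val_gys [FP act S] [FP act S'] (h : S ⊆ S')
    (hm : ∀ x : Sp act S', IsMfd Sp.val (finrank ℂ A + (n + 1)) x) {f : W → ℂ}
    {p : Quo act S' → ℂ} (hp : Continuous p) (hf : ∀ x : Sp act S', p x.mk = f x.val) {s : ℂ}
    (hS : ∀ x ∈ S', x ∈ S ↔ f x = s) (hi : IsClosedEmbedding (qinc act h)) (x : Sp act S)
    (ha : AnalyticAt ℂ f x.val) (hx : ∃ v ∈ tan Sp.val (Sp.incl act h x), fderiv ℂ f x.val v = 1) :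
    ∃ φ : (Fin n → ℂ) → Sp act S, IsSlice Aˣ Sp.val φ ∧ φ 0 = x ∧
      Val (gys (qinc act h) (pull p (wt s)) (fundQ Aˣ Sp.val Sp.mk (n + 1))) (Sp.mk ∘ φ) 1 := by
  haveI := FiniteDimensional.complete ℂ A
  haveI := FiniteDimensional.complete ℂ W
  have ho := FP.holOrb hm
  obtain ⟨v, hv, hv1⟩ := hx
  have hd : HasFDerivAt (fun (w : W) (_ : Fin 1) => f w - s)
      (ContinuousLinearMap.pi fun _ => fderiv ℂ f x.val) x.val :=
    hasFDerivAt_pi.2 fun _ => ha.differentiableAt.hasFDerivAt.sub_const s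
  obtain ⟨φ, φ', h1, h2, h3, h4, h5, h6⟩ := (hm (Sp.incl act h x)).exists_slK_zero isExp_expU
    (Sp.isEmbedding_incl h) (Sp.incl_smul h) (Sp.holAct _)
    (Sp.inf_injective_of_finite (FP.finite _)) (n := n) (f := fun y (_ : Fin 1) => f y.val - s)
    (Φ := fun (w : W) (_ : Fin 1) => f w - s)
    (analyticAt_pi_iff.2 fun _ => ha.sub analyticAt_const) (Eventually.of_forall fun _ => rfl)
    (fun y => ⟨y 0 • v, Submodule.smul_mem _ _ hv, by
      erw [hd.fderiv]
      funext k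
      rw [ContinuousLinearMap.pi_apply, map_smul, hv1, smul_eq_mul, mul_one,
        Subsingleton.elim k 0]⟩)
    (Eventually.of_forall fun y => (Sp.mem_range_incl h).trans ((hS _ y.val_mem).trans
      ⟨fun e => funext fun _ => sub_eq_zero.2 e, fun e => sub_eq_zero.1 (congrFun e 0)⟩))
    (by simp)
  have h7 := isSlice_of_prod (h1.isSl isExp_expU)
  have h8 := ho.val isQuo_sp h7
  rw [FP.stab, Nat.cast_one, ← mul_one (1 : ℂ)] at h8
  refine ⟨φ', h2.isSl isExp_expU, h3, Val.gys (k := 1) hi ⟨?_, (isCo_wt s).deg.pull _, fun y hy => ?_⟩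
    (ho.deg isQuo_sp) (ho.gch isQuo_sp h7).pch h8 one_ne_zero ?_ ?_ ?_⟩
  · rw [δ_pull]
    exact supp_pull_eq_empty hp (isCo_wt s).cocycle
  · obtain ⟨y, rfl⟩ := Sp.surjective_mk y
    exact (mk_mem_range_qinc h).2 ((hS _ y.val_mem).2
      ((hf y).symm.trans ((isCo_wt s).supp (supp_pull hp _ hy))))
  · exact h6.mono fun z hz => by
      simp only [comp_apply, splitL_append]
      exact congrArg Sp.mk hz
  · refine h5.mono fun w hw e => ?_
    simp only [comp_apply, splitL_append] at e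
    rw [← hw]
    exact funext fun _ => sub_eq_zero.2 ((hf _).symm.trans ((isCo_wt s).supp (supp_pull hp _ e)))
  · rw [wt, pull_pull, pull_pull]
    refine locCo_wind.pull_congr (((tendsto_inr _ _).eventually h5).mono fun w hw => ?_)
    simp only [comp_apply, splitL_append, hf]
    exact congrFun hw 0

/-- two classes with the right values on an open part agree there -/
theorem res_eq_res [FP act S] [FP act S'] (h : S ⊆ S') (ho : IsOpen (Subtype.val ⁻¹' S : Set S'))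
    {γ γ' : BM (Quo act S')} (hγ : BM.IsDeg (2 * n) γ) (hγ' : BM.IsDeg (2 * n) γ')
    (e : ∀ x : Sp act S, ∃ φ : (Fin n → ℂ) → Sp act S', IsSlice Aˣ Sp.val φ ∧
      φ 0 = Sp.incl act h x ∧ Val γ (Sp.mk ∘ φ) 1 ∧ Val γ' (Sp.mk ∘ φ) 1) :
    res (qinc act h) γ = res (qinc act h) γ' := by
  have hj : IsOpenEmbedding (Sp.incl act h) := IsOpenEmbedding.inclusion h ho
  have h1 := FP.preOrb.of_open (n := n) hj (Sp.incl_smul h) fun x =>
    (e x).imp fun _ k => ⟨k.1, k.2.1⟩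
  have key : ∀ x : Sp act S, ∃ φ : (Fin n → ℂ) → Sp act S,
      IsSlice Aˣ (fun t => (Sp.incl act h t).val) φ ∧ φ 0 = x ∧
      Val γ (qinc act h ∘ Sp.mk ∘ φ) (stab Aˣ x) ∧ Val γ' (qinc act h ∘ Sp.mk ∘ φ) (stab Aˣ x) :=
    fun x => by
      obtain ⟨φ, k1, k2, k3, k4⟩ := e x
      obtain ⟨φ', k5, k6, k7⟩ := k1.lift_lh (Sp.incl_smul h) (hj.lh x) k2
      have k8 : ∀ᶠ z in 𝓝 0, (Sp.mk ∘ φ) z = (qinc act h ∘ Sp.mk ∘ φ') z :=
        k7.mono fun z hz => congrArg Sp.mk hz.symm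
      rw [FP.stab, Nat.cast_one]
      exact ⟨φ', k5, k6, k3.congr k8, k4.congr k8⟩
  rw [h1.res_eq_of_val isQuo_sp (isOpenEmbedding_qinc h ho) hγ (isQuo_sp.meets dense_univ)
    fun x _ => (key x).imp fun _ k => ⟨k.1, k.2.1, k.2.2.1⟩,
    h1.res_eq_of_val isQuo_sp (isOpenEmbedding_qinc h ho) hγ' (isQuo_sp.meets dense_univ)
    fun x _ => (key x).imp fun _ k => ⟨k.1, k.2.1, k.2.2.2⟩]

/-- the value of the sum of the two components at a point of the first one only -/
theorem val_comp {Y Y' : Set W} [FP act S] [FP act Y] [FP act Y'] (h : Y ⊆ S) (h' : Y' ⊆ S)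
    (hc : IsClosed (Subtype.val ⁻¹' Y : Set S)) (hc' : IsClosed (Subtype.val ⁻¹' Y' : Set S))
    (hu : ∀ x ∈ S, x ∈ Y ∨ x ∈ Y') {β : BM (Quo act Y)} (hβ : P269.IsFund act Y β)
    (β' : BM (Quo act Y')) {φ : (Fin n → ℂ) → Sp act S} (hφ : IsSlice Aˣ Sp.val φ)
    (h0 : (φ 0).val ∉ Y') : Val (push (qinc act h) β + push (qinc act h') β') (Sp.mk ∘ φ) 1 := by
  haveI := (inferInstance : FP act Y).lc
  let y : Sp act Y := Sp.of act (φ 0).val ((hu _ (φ 0).val_mem).resolve_right h0)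
  have hj : LH (Sp.incl act h) y := lh_of_range_mem (Sp.isEmbedding_incl h)
    (mem_of_superset (hc'.isOpen_compl.mem_nhds h0) fun z hz =>
      (Sp.mem_range_incl h).2 ((hu _ z.2).resolve_right hz))
  obtain ⟨φ', k1, -, k2⟩ := hφ.lift_lh (Sp.incl_smul h) hj rfl
  exact val_push_add (isClosedEmbedding_qinc h hc) (isClosedEmbedding_qinc h' hc') β'
    (hβ.val k1 (FP.free _)).2 (k2.mono fun z hz => congrArg Sp.mk hz)
    fun e => h0 ((mk_mem_range_qinc h').1 e)

/-- **conservation of the fundamental class in a degeneration into two components** -/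
theorem push_eq_add {X E Xt Y₁ Y₂ D : Set W} [hX : FP act X] [FP act E] [FP act Xt] [FP act Y₁]
    [FP act Y₂] [FP act D] (hm : ∀ x : Sp act X, IsMfd Sp.val (finrank ℂ A + (n + 1)) x)
    {f : W → ℂ} (ha : ∀ x, AnalyticAt ℂ f x) (hf : ∀ a, IsUnit a → ∀ x ∈ X, f (act a x) = f x)
    {t : ℂ} (hE : ∀ x, x ∈ E ↔ x ∈ X ∧ f x ∈ segment ℝ 0 t) (ht : ∀ x, x ∈ Xt ↔ x ∈ X ∧ f x = t)
    (hY : ∀ x, x ∈ Y₁ ∨ x ∈ Y₂ ↔ x ∈ X ∧ f x = 0) (hD : ∀ x, x ∈ D ↔ x ∈ Y₁ ∧ x ∈ Y₂)
    {C₁ C₂ : Set W} (c₁ : IsClosed C₁) (c₂ : IsClosed C₂) (e₁ : ∀ x ∈ X, x ∈ Y₁ ↔ x ∈ C₁)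
    (e₂ : ∀ x ∈ X, x ∈ Y₂ ↔ x ∈ C₂) (hl : IsLocallyClosed X)
    (reg : ∀ x : Sp act X, x.val ∈ Xt ∨ (f x.val = 0 ∧ x.val ∉ D) →
      ∃ v ∈ tan Sp.val x, fderiv ℂ f x.val v = 1)
    (top : Top (Quo act D) (2 * n - 1)) {β : BM (Quo act Xt)} {β₁ : BM (Quo act Y₁)}
    {β₂ : BM (Quo act Y₂)} (hβ : P269.IsFund act Xt β) (h₁ : P269.IsFund act Y₁ β₁)
    (h₂ : P269.IsFund act Y₂ β₂) (d₁ : BM.IsDeg (2 * n) β₁) (d₂ : BM.IsDeg (2 * n) β₂)
    (i : Xt ⊆ E) (i₁ : Y₁ ⊆ E) (i₂ : Y₂ ⊆ E) :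
    push (qinc act i) β = push (qinc act i₁) β₁ + push (qinc act i₂) β₂ := by
  have cf : Continuous f := continuous_iff_continuousAt.2 fun x => (ha x).continuousAt
  have cl : ∀ {S S' C : Set W}, IsClosed C → (∀ x ∈ S', x ∈ S ↔ x ∈ C) →
      IsClosed (Subtype.val ⁻¹' S : Set S') := fun hC h => by
    rw [show Subtype.val ⁻¹' _ = Subtype.val ⁻¹' _ from Set.ext fun x => h x.1 x.2]
    exact hC.preimage continuous_subtype_val
  let X₀ : Set W := X ∩ f ⁻¹' {0}
  have l₀ : IsLocallyClosed X₀ := hl.inter (isClosed_singleton.preimage cf).isLocallyClosed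
  haveI k₀ : FP act X₀ := hX.mono inter_subset_left (fun a u x hx =>
    ⟨IsAct.mem a u x hx.1, (hf a u x hx.1).trans hx.2⟩) l₀
  let U : Set W := X₀ ∩ (C₁ ∩ C₂)ᶜ
  have hU : ∀ x ∈ X, x ∈ D ↔ x ∈ C₁ ∩ C₂ := fun x hx =>
    (hD x).trans (and_congr (e₁ x hx) (e₂ x hx))
  haveI : FP act U := k₀.mono inter_subset_left (fun a u x hx =>
    ⟨IsAct.mem a u x hx.1, fun k => hx.2 ((hU x hx.1.1).1 (by
      have k1 := IsAct.mem (act := act) (↑u.unit⁻¹ : A) (Units.isUnit _) _
        ((hU _ (IsAct.mem a u x hx.1.1)).2 k)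
      rwa [← IsAct.mul (act := act) _ _ (Units.isUnit _) u x hx.1.1, u.val_inv_mul,
        IsAct.one (act := act) x hx.1.1] at k1))⟩)
    (l₀.inter (c₁.inter c₂).isOpen_compl.isLocallyClosed)
  obtain ⟨p, hp⟩ := (isQuo_sp (act := act) (S := X)).exists_lift (fun x => f x.val)
    fun g x => hf _ g.isUnit _ x.val_mem
  have cp : Continuous p := isQuo_sp.continuous_lift (cf.comp Sp.continuous_val) hp
  have ho := FP.holOrb hm
  have jE : E ⊆ X := fun x hx => ((hE x).1 hx).1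
  have j₀ : X₀ ⊆ E := fun x hx => (hE x).2 ⟨hx.1, by rw [hx.2]; exact left_mem_segment ℝ 0 t⟩
  have j₁ : Y₁ ⊆ X₀ := fun x hx => (hY x).1 (Or.inl hx)
  have j₂ : Y₂ ⊆ X₀ := fun x hx => (hY x).1 (Or.inr hx)
  have jD : D ⊆ X₀ := fun x hx => j₁ ((hD x).1 hx).1
  have cE := isClosedEmbedding_qinc (act := act) jE (cl ((isCompact_seg t).isClosed.preimage cf)
    fun x hx => (hE x).trans (and_iff_right hx))
  have ct := isClosedEmbedding_qinc (act := act) i (cl (isClosed_singleton.preimage cf)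
    fun x hx => (ht x).trans (and_iff_right (jE hx)))
  have c₀ := isClosedEmbedding_qinc (act := act) j₀ (cl (isClosed_singleton.preimage cf)
    fun x hx => and_iff_right (jE hx))
  have c₁' : IsClosed (Subtype.val ⁻¹' Y₁ : Set X₀) := cl c₁ fun x hx => e₁ x hx.1
  have c₂' : IsClosed (Subtype.val ⁻¹' Y₂ : Set X₀) := cl c₂ fun x hx => e₂ x hx.1
  have co : ∀ s, supp (δ (pull p (wt s))) = ∅ := fun s => by
    rw [δ_pull]
    exact supp_pull_eq_empty cp (isCo_wt s).cocycle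
  have su : ∀ {S : Set W} [IsAct act S] (h : S ⊆ X) {B : Set ℂ}, (∀ x ∈ X, f x ∈ B → x ∈ S) →
      p ⁻¹' B ⊆ range (qinc act h) := fun h B hB y hy => by
    obtain ⟨y, rfl⟩ := Sp.surjective_mk y
    exact (mk_mem_range_qinc h).2 (hB _ y.val_mem (by rwa [mem_preimage, hp] at hy))
  have sw : ∀ s, supp (pull p (wt s)) ⊆ p ⁻¹' {s} := fun s =>
    (supp_pull cp _).trans (preimage_mono (isCo_wt s).supp)
  have dg : ∀ {S : Set W} [FP act S] (h : S ⊆ X) (s : ℂ), BM.IsDeg (2 * n)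
      (gys (qinc act h) (pull p (wt s)) (fundQ Aˣ Sp.val Sp.mk (n + 1))) := fun h s => by
    have k := (ho.deg isQuo_sp).gys (qinc act h) ((isCo_wt s).deg.pull p)
    rwa [show (2 * (n + 1 : ℕ) - 2 * (1 : ℕ) : ℤ) = 2 * n by push_cast; ring] at k
  have a1 : gys (qinc act (i.trans jE)) (pull p (wt t)) (fundQ Aˣ Sp.val Sp.mk (n + 1)) = β := by
    have k := fun x : Sp act Xt => exists_val_gys (i.trans jE) hm cp hp
      (fun x hx => (ht x).trans (and_iff_right hx)) (qinc_comp (act := act) i jE ▸ cE.comp ct) x (ha _)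
      (reg _ (Or.inl x.val_mem))
    have k1 := (FP.preOrb (act := act) (S := Xt)).of_open (n := n) (j := id) IsOpenEmbedding.id
      (fun _ _ => rfl) fun x => (k x).imp fun _ k => ⟨k.1, k.2.1⟩
    rw [FP.eq_fundQ (act := act) k1 hβ, ← one_smul ℂ (fundQ Aˣ Sp.val Sp.mk n)]
    exact k1.eq_smul isQuo_sp (dg _ t) (isQuo_sp.meets dense_univ) fun x _ =>
      (k x).imp fun _ k => ⟨1, k.1, k.2.1, k.2.2, by rw [FP.stab, Nat.cast_one, mul_one]⟩
  have a2 : gys (qinc act (j₀.trans jE)) (pull p (wt 0)) (fundQ Aˣ Sp.val Sp.mk (n + 1)) =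
      push (qinc act j₁) β₁ + push (qinc act j₂) β₂ := by
    have oU : IsOpen (Subtype.val ⁻¹' U : Set X₀) := by
      rw [← isClosed_compl_iff]
      exact cl (S := Uᶜ) (c₁.inter c₂) fun x hx => by simp only [U, mem_compl_iff, mem_inter_iff, hx,
        true_and, not_not]
    refine eq_of_res_of_top (isClosedEmbedding_qinc jD (cl (c₁.inter c₂) fun x hx => hU x hx.1))
      (isOpenEmbedding_qinc inter_subset_left oU) (Set.ext fun y => ?_) top (dg _ 0)
      (isDeg_add (d₁.push _) (d₂.push _))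
      (res_eq_res _ oU (dg _ 0) (isDeg_add (d₁.push _) (d₂.push _)) fun x => ?_)
    · obtain ⟨y, rfl⟩ := Sp.surjective_mk y
      rw [mem_compl_iff, mk_mem_range_qinc, mk_mem_range_qinc, hU _ y.val_mem.1]
      exact and_iff_right y.val_mem
    have k0 : x.val ∉ D := fun k => x.val_mem.2 ((hU _ x.val_mem.1.1).1 k)
    obtain ⟨φ, k1, k2, k3⟩ := exists_val_gys (j₀.trans jE) hm cp hp
      (fun x hx => and_iff_right hx) (qinc_comp (act := act) j₀ jE ▸ cE.comp c₀)
      (Sp.incl act inter_subset_left x) (ha _) (reg _ (Or.inr ⟨x.val_mem.1.2, k0⟩))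
    refine ⟨φ, k1, k2, k3, ?_⟩
    by_cases k4 : x.val ∈ Y₂
    · rw [add_comm]
      exact val_comp j₂ j₁ c₂' c₁' (fun x hx => ((hY x).2 hx).symm) h₂ β₁ k1
        fun k => k0 ((hD _).2 ⟨by rwa [k2] at k, k4⟩)
    · exact val_comp j₁ j₂ c₁' c₂' (fun x hx => (hY x).2 hx) h₁ β₂ k1 (by rwa [k2])
  have sE : p ⁻¹' segment ℝ 0 t ⊆ range (qinc act jE) := su jE fun x hx k => (hE x).2 ⟨hx, k⟩
  rw [← a1, ← qinc_comp i jE, push_gys ct cE (co t) (by
      rw [qinc_comp]
      exact (sw t).trans (su _ fun x hx k => (ht x).2 ⟨hx, k⟩)),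
    gys_congr cE (co t) ((sw t).trans ((preimage_mono
      (singleton_subset_iff.2 (right_mem_segment ℝ 0 t))).trans sE)) (co 0) ((sw 0).trans
      ((preimage_mono (singleton_subset_iff.2 (left_mem_segment ℝ 0 t))).trans sE))
      (((cohom_wt t).pull cp).mono sE), ← push_gys c₀ cE (co 0) (by
      rw [qinc_comp]
      exact (sw 0).trans (su _ fun x hx k => ⟨hx, k⟩)), qinc_comp, a2, map_add,
    push_push (.of_isClosedEmbedding (isClosedEmbedding_qinc j₁ c₁')) (.of_isClosedEmbedding c₀),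
    push_push (.of_isClosedEmbedding (isClosedEmbedding_qinc j₂ c₂')) (.of_isClosedEmbedding c₀),
    qinc_comp, qinc_comp]

end Vale.Agent.P269.Mono
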