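import Vale.Agent.P269.Mono.Dg
import Vale.Agent.P269.Mono.Ehr

set_option linter.unusedSectionVars false

/-!
# P269, degenerations `b c = t`: the equations of the level set of the gauge
-/

namespace Vale.Agent.P269.Mono.TO

open Set Topology Filter Module Function TopologicalSpace Vale.Agent.P291Z MvPolynomial
open scoped ContDiff ComplexConjugate RealInnerProductSpace

theorem exists_mul {a : ℂ} (ha : a ≠ 0) : ∃ g : ℂ ≃L[ℝ] ℂ, ∀ x, g x = a * x :=
  ⟨(ContinuousLinearEquiv.unitsEquivAut ℂ (Units.mk0 a ha)).restrictScalars ℝ,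
    fun x => mul_comm x a⟩

theorem exists_diag {ι : Type} (a : ι → ℂ) (ha : ∀ k, a k ≠ 0) :
    ∃ g : (ι → ℂ) ≃L[ℝ] (ι → ℂ), ∀ x k, g x k = a k * x k := by
  choose g hg using fun k => exists_mul (ha k)
  exact ⟨.piCongrRight g, fun x k => hg k _⟩

theorem inner_mul {a : ℂ} (ha : ‖a‖ = 1) (x y : ℂ) : ⟪a * x, a * y⟫ = ⟪x, y⟫ := by
  have h : a * conj a = 1 := by rw [Complex.mul_conj', ha]; simp
  rw [Complex.inner, Complex.inner, map_mul, mul_mul_mul_comm, h, one_mul]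

theorem prop_of {M E F : Type} [TopologicalSpace M] [TopologicalSpace E] [TopologicalSpace F]
    [T2Space M] [T2Space E] [T1Space F] [Zero F] {G : M × E → F} {O A : Set (M × E)} {C : Set M}
    (hG : ContinuousOn G O) (hC : IsClosed C) (hA : IsCompact A) (hO : A ⊆ O)
    (h : ∀ z ∈ O, G z = 0 → z.1 ∈ C → z ∈ A) :
    IsCompact ({z | z ∈ O ∧ G z = 0} ∩ Prod.fst ⁻¹' C) := by
  convert (hA.of_isClosed_subset ((hG.mono hO).preimage_isClosed_of_isClosed hA.isClosed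
    (isClosed_singleton (x := 0))) inter_subset_left).inter_right (hC.preimage continuous_fst)
    using 1
  exact Set.ext fun z => ⟨fun hz => ⟨⟨h z hz.1.1 hz.1.2 hz.2, hz.1.2⟩, hz.2⟩,
    fun hz => ⟨⟨hO hz.1.1, hz.1.2⟩, hz.2⟩⟩

variable {R J K : Type} [Fintype R] [Fintype J] [Fintype K] [DecidableEq R] {T : Tgt R J K} {i : R}
  {b c : J} {r ε : ℝ} {O : Set (J → ℂ)} {μ : (J → ℂ) → R → ℝ}

theorem exists_b (J H : Type) [Fintype J] [NormedAddCommGroup H] [InnerProductSpace ℝ H] :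
    ∃ B : ((J → ℂ) × H) →L[ℝ] ((J → ℂ) × H) →L[ℝ] ℝ,
      (∀ v w, B v w = ∑ j, ⟪v.1 j, w.1 j⟫ + ⟪v.2, w.2⟫) ∧ ∀ v, B v v = 0 → v = 0 := by
  let p : J → ((J → ℂ) × H →L[ℝ] ℂ) := fun j =>
    (ContinuousLinearMap.proj j).comp (ContinuousLinearMap.fst ℝ _ _)
  refine ⟨∑ j, (innerSL ℝ).bilinearComp (p j) (p j) + (innerSL ℝ).bilinearComp
    (ContinuousLinearMap.snd ℝ _ _) (ContinuousLinearMap.snd ℝ _ _), fun v w => ?_, fun v hv => ?_⟩
  · simp [p, -Complex.inner]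
  have h1 : ∑ j, ⟪v.1 j, v.1 j⟫ + ⟪v.2, v.2⟫ = 0 := by simpa [p, -Complex.inner] using hv
  obtain ⟨h2, h3⟩ := (add_eq_zero_iff_of_nonneg (Finset.sum_nonneg fun _ _ => real_inner_self_nonneg)
    real_inner_self_nonneg).1 h1
  exact Prod.ext (funext fun j => inner_self_eq_zero.1 ((Finset.sum_eq_zero_iff_of_nonneg
    fun _ _ => real_inner_self_nonneg).1 h2 j (Finset.mem_univ j))) (inner_self_eq_zero.1 h3)

theorem fd_eval (p : MvPolynomial J ℂ) (x : J → ℂ) :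
    HasFDerivAt (fun z : J → ℂ => eval z p) (∑ j, eval x (pderiv j p) •
      ContinuousLinearMap.proj (R := ℂ) (φ := fun _ : J => ℂ) j) x := by
  classical
  induction p using MvPolynomial.induction_on with
  | C a =>
    simp only [eval_C]
    refine (hasFDerivAt_const a x).congr_fderiv ?_
    ext1 v
    simp
  | add p q hp hq =>
    simp only [map_add]
    refine (hp.fun_add hq).congr_fderiv ?_
    ext1 v
    simp [add_mul, Finset.sum_add_distrib]
  | mul_X p k hp =>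
    have h := hp.fun_mul (hasFDerivAt_apply (𝕜 := ℂ) k x)
    simp only [eval_mul, eval_X]
    refine h.congr_fderiv ?_
    ext1 v
    simp [pderiv_X, Pi.single_apply, add_mul, Finset.sum_add_distrib, Finset.mul_sum, mul_assoc,
      apply_ite (MvPolynomial.eval x)]

theorem cd_eval (p : MvPolynomial J ℂ) : ContDiff ℝ ∞ fun z : J → ℂ => eval z p := by
  simp only [eval_eq']
  fun_prop

theorem eval_act {χ : R → ℤ} {p : MvPolynomial J ℂ}
    (hp : ∀ α ∈ p.support, ∀ l, ∑ j, α j * T.w j l = χ l) {t : R → ℂ} (ht : ∀ l, t l ≠ 0)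
    (x : J → ℂ) : eval (T.act t x) p = (∏ l, t l ^ χ l) * eval x p := by
  rw [eval_eq', eval_eq', Finset.mul_sum]
  refine Finset.sum_congr rfl fun α hα => ?_
  have : ∏ j, (∏ l, t l ^ T.w j l) ^ α j = ∏ l, t l ^ χ l := by
    simp only [← Finset.prod_pow]
    rw [Finset.prod_comm]
    refine Finset.prod_congr rfl fun l _ => ?_
    rw [← hp α hα l, ← Complex.exp_log (ht l)]
    simp only [← Complex.exp_int_mul, ← Complex.exp_nat_mul, ← Complex.exp_sum]
    simp [Finset.sum_mul, mul_assoc]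
  simp only [Tgt.act, mul_pow, Finset.prod_mul_distrib, this]
  ring

theorem act_b (h : Dg T i b c r) (t : R → ℂ) (x : J → ℂ) : T.act t x b = t i * x b := by
  simp [Tgt.act, h.wb, Pi.single_apply, Finset.prod_ite_eq']

theorem act_c (h : Dg T i b c r) (t : R → ℂ) (x : J → ℂ) : T.act t x c = (t i)⁻¹ * x c := by
  simp [Tgt.act, h.wc, Pi.single_apply, Finset.prod_ite_eq']

variable (T μ) in
/-- the equations of the level set -/
noncomputable def PP (x : J → ℂ) : (K → ℂ) × (R → ℝ) := (fun k => eval x (T.F k), μ x)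

variable (h : Dg T i b c r) (g : Gau T b c r O μ ε)
include g

theorem sm : ContDiffOn ℝ ∞ (PP T μ) O :=
  (contDiff_pi.2 fun k => cd_eval (T.F k)).contDiffOn.prodMk g.smooth

theorem fd {x : J → ℂ} (hx : x ∈ O) : HasFDerivAt (PP T μ) (fderiv ℝ (PP T μ) x) x :=
  (((sm g).contDiffAt (g.isOpen.mem_nhds hx)).differentiableAt (by simp)).hasFDerivAt

theorem fd_apply {x : J → ℂ} (hx : x ∈ O) (v : J → ℂ) : fderiv ℝ (PP T μ) x v =
    (fun k => ∑ j, v j * eval x (pderiv j (T.F k)), fderiv ℝ μ x v) := by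
  have h1 := (hasFDerivAt_pi.2 fun k => (fd_eval (T.F k) x).restrictScalars ℝ).prodMk
    ((g.smooth.contDiffAt (g.isOpen.mem_nhds hx)).differentiableAt (by simp)).hasFDerivAt
  rw [(fd g hx).unique h1]
  simp [mul_comm]

theorem mem_lev {x : J → ℂ} :
    x ∈ lev T b c r μ ↔ x ∈ O ∧ PP T μ x = 0 ∧ ‖x b * x c‖ ≤ r :=
  ⟨fun hx => ⟨g.sup hx.1, Prod.ext (funext hx.1.1.2) hx.2, mem_closedBall_zero_iff.1 hx.1.2⟩,
    fun hx => ⟨⟨⟨g.sub hx.1, congrFun (congrArg Prod.fst hx.2.1)⟩,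
      mem_closedBall_zero_iff.2 hx.2.2⟩, congrArg Prod.snd hx.2.1⟩⟩

theorem surj0 {x : J → ℂ} (hx : x ∈ lev T b c r μ) (h1 : ‖x b‖ ^ 2 + ‖x c‖ ^ 2 ≤ ε ^ 2)
    (p : (K → ℂ) × (R → ℝ)) : ∃ v : J → ℂ, v b = 0 ∧ v c = 0 ∧ fderiv ℝ (PP T μ) x v = p := by
  obtain ⟨v, h2, h3, h4, h5⟩ := g.surj x hx h1 p.1 p.2
  exact ⟨v, h2, h3, (fd_apply g (g.sup hx.1) v).trans (Prod.ext (funext h4) h5)⟩

include h

theorem exists_g {t : R → ℂ} (ht : Uni t) : ∃ (g₁ : (J → ℂ) ≃L[ℝ] (J → ℂ))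
    (g' : ((K → ℂ) × (R → ℝ)) ≃L[ℝ] ((K → ℂ) × (R → ℝ))), (∀ x, g₁ x = T.act t x) ∧
      (∀ x ∈ O, T.act t x ∈ O ∧ PP T μ (T.act t x) = g' (PP T μ x)) ∧
      ∀ v w j, ⟪T.act t v j, T.act t w j⟫ = ⟪v j, w j⟫ := by
  have h0 : ∀ l, t l ≠ 0 := fun l => norm_pos_iff.1 ((ht l).symm ▸ one_pos)
  have hu : IsUnit t := Pi.isUnit_iff.2 fun l => (h0 l).isUnit
  have hp : ∀ a : R → ℤ, ∏ l, t l ^ a l ≠ 0 := fun a =>
    Finset.prod_ne_zero_iff.2 fun l _ => zpow_ne_zero _ (h0 l)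
  obtain ⟨χ, hχ⟩ := h.hom
  obtain ⟨g₁, h1⟩ := exists_diag _ fun j => hp (T.w j)
  obtain ⟨g₂, h2⟩ := exists_diag _ fun k => hp (χ k)
  refine ⟨g₁, g₂.prodCongr (.refl ℝ _), fun x => funext (h1 x), fun x hx => ⟨g.inv t hu x hx,
    Prod.ext (funext fun k => (eval_act (hχ k) h0 x).trans (h2 (PP T μ x).1 k).symm) (funext fun l => ?_)⟩,
    fun v w j => inner_mul (by simp [norm_zpow, ht _]) _ _⟩
  refine (g.act t hu x hx l).trans ?_
  rw [ht l, Real.log_one, add_zero]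
  rfl

theorem surj {x : J → ℂ} (hx : x ∈ lev T b c r μ) (p : (K → ℂ) × (R → ℝ)) :
    ∃ v : J → ℂ, x c * v b + x b * v c = 0 ∧ fderiv ℝ (PP T μ) x v = p := by
  obtain ⟨χ, hχ⟩ := h.hom
  obtain ⟨v, h1, h2, h3⟩ := h.reg x hx.1 p.1
  have hO := g.sup hx.1
  obtain ⟨z, hz⟩ : ∃ z, z = p.2 - fderiv ℝ μ x v := ⟨_, rfl⟩
  let a : J → ℂ := fun j => ∑ l, T.w j l * z l
  have d1 : HasDerivAt (fun (s : ℝ) j => Complex.exp (s * a j) * x j) (fun j => a j * x j) 0 :=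
    hasDerivAt_pi.2 fun j => by
      simpa using (((hasDerivAt_id (0 : ℝ)).ofReal_comp.mul_const (a j)).cexp).mul_const (x j)
  have d2 := (fd g hO).comp_hasDerivAt_of_eq 0 d1 (by simp)
  have d3 : HasDerivAt (fun s : ℝ => ((0 : K → ℂ), μ x + s • z)) (0, z) 0 := by
    simpa using (hasDerivAt_const (0 : ℝ) (0 : K → ℂ)).prodMk
      (((hasDerivAt_id (0 : ℝ)).smul_const z).const_add (μ x))
  have e := d2.unique (d3.congr_of_eventuallyEq (Eventually.of_forall fun s => by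
    have h0 : ∀ l, Complex.exp (s * z l) ≠ 0 := fun l => Complex.exp_ne_zero _
    have e1 : (fun j => Complex.exp (s * a j) * x j) = T.act (fun l => Complex.exp (s * z l)) x := by
      ext j
      simp only [a, Tgt.act, Finset.mul_sum, Complex.exp_sum, ← Complex.exp_int_mul, mul_left_comm]
    rw [comp_apply, e1]
    refine Prod.ext (funext fun k => (eval_act (hχ k) h0 x).trans ?_) (funext fun l => ?_)
    · rw [hx.1.1.2 k, mul_zero]
      rfl
    · refine (g.act _ (Pi.isUnit_iff.2 fun l => (h0 l).isUnit) x hO l).trans ?_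
      simp [Complex.norm_exp]))
  refine ⟨v + fun j => a j * x j, ?_, ?_⟩
  · simp [a, h1, h2, h.wb, h.wc, Pi.single_apply]
    ring
  · rw [map_add, e, fd_apply g hO, hz]
    exact Prod.ext (funext fun k => (add_zero _).trans (h3 k)) (add_sub_cancel _ _)

end Vale.Agent.P269.Mono.TO
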