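import Vale.Agent.P269.Mono.WL

set_option linter.unusedSectionVars false

/-!
# P269, monodromy: restriction to the members of a family (helper19)
-/

namespace Vale.Agent.P269.Mono

open Set Topology Filter Module Function TopologicalSpace Vale.Agent.P291Z Vale.Agent.P291Z.Fl

namespace CI

variable {M m κ B B' : Type} [NormedAddCommGroup M] [NormedSpace ℂ M] [Fintype m] [Fintype κ]
  (S : CI M m κ) [TopologicalSpace B] [TopologicalSpace B']

/-- the part of a member where `ρ` is nonnegative -/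
def Out (ρ : M × (m → ℂ) → ℝ) (u : M) : Set (Matrix m m ℂ) :=
  {A | ∃ x, x ≠ 0 ∧ S.ev u x = 0 ∧ 0 ≤ ρ (u, x) ∧ A = prj x}

/-- the part of a member where `ρ` vanishes -/
def Bd (ρ : M × (m → ℂ) → ℝ) (u : M) : Set (Matrix m m ℂ) :=
  {A | ∃ x, x ≠ 0 ∧ S.ev u x = 0 ∧ ρ (u, x) = 0 ∧ A = prj x}

/-- the family over a subset of the parameter space -/
abbrev XS (N : Set M) : Set (N × Matrix m m ℂ) := S.XX (Subtype.val : N → M)

/-- the inclusion of a member -/
def rs (N : Set M) (u : M) (hu : u ∈ N) : C(S.X u, S.XS N) := S.fib Subtype.val ⟨u, hu⟩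

/-- the map to the family over a subset of the parameter space -/
def toS {γ : B → M} (hγ : Continuous γ) (N : Set M) (h : ∀ b, γ b ∈ N) : C(S.XX γ, S.XS N) :=
  ⟨fun p => ⟨(⟨γ p.1.1, h _⟩, p.1.2), p.2⟩, by fun_prop⟩

/-- the classes which extend to the family over `N` -/
noncomputable def I (N : Set M) (u : M) (hu : u ∈ N) : Submodule ℂ (H (S.X u)) :=
  LinearMap.range (H.mapA (S.rs N u hu)).toLinearMap

theorem mem_I {N : Set M} {u : M} {hu : u ∈ N} {x : H (S.X u)} :
    x ∈ S.I N u hu ↔ ∃ e, H.map (S.rs N u hu) e = x := Iff.rfl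

theorem map_fib_toS {γ : B → M} (hγ : Continuous γ) (N : Set M) (h : ∀ b, γ b ∈ N) (b : B)
    (e : H (S.XS N)) : H.map (S.fib γ b) (H.map (S.toS hγ N h) e) = H.map (S.rs N (γ b) (h b)) e :=
  H.map_map _ _ e

theorem I_anti {N N' : Set M} (h : N ⊆ N') {u : M} (hu : u ∈ N) : S.I N' u (h hu) ≤ S.I N u hu := by
  rintro _ ⟨e, rfl⟩
  exact ⟨_, S.map_fib_toS continuous_subtype_val N' (fun b : N => h b.2) ⟨u, hu⟩ e⟩

theorem amb_le_I (N : Set M) (u : M) (hu : u ∈ N) : amb (S.h u) ≤ S.I N u hu := by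
  have := amb_le_range (S.rs N u hu) (S.hh _)
  rwa [rs, map_fib_hh] at this

end CI

end Vale.Agent.P269.Mono
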