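import Vale.Agent.P269.Mono.Defs

/-!
# P269, monodromy: gluing of fibrewise classes
-/

namespace Vale.Agent.P269.Mono

open Set Topology Filter Module Function TopologicalSpace Vale.Agent.P291Z Vale.Agent.P291Z.Fl
open scoped ContDiff

namespace Glue

variable {B E : Type} [TopologicalSpace B] [TopologicalSpace E] {p : C(E, B)}
  {F : B → Type} [∀ b, TopologicalSpace (F b)] {i : ∀ b, C(F b, E)}

/-- a local class is represented by a cochain on the whole space -/
theorem exists_loc (hi : ∀ b, IsFib p b (i b)) {n : ℤ} {σ : ∀ b, H (F b)}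
    (hσ : ∀ b, H.IsDeg n (σ b)) {W : Set B} {e : H (p ⁻¹' W)}
    (he : ∀ b' ∈ W, ∀ i' : C(F b', p ⁻¹' W), (∀ x, (i' x).1 = i b' x) → H.map i' e = σ b') :
    ∃ b, IsDeg n b ∧ ∀ y ∈ interior W, δ b ∈ VanB p y ∧ hcls (pull (i y) b) = σ y := by
  obtain ⟨a, ha, rfl⟩ := hcls_surj e
  have hU : IsOpen (p ⁻¹' interior W) := isOpen_interior.preimage p.continuous
  have hj : p ⁻¹' interior W ⊆ p ⁻¹' W := preimage_mono interior_subset
  obtain ⟨b, h1, h2, -, h3⟩ := (Taut.of_isOpenEmbedding hU.isOpenEmbedding_subtypeVal).surj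
    (isDeg_comp n (pull (inclusion hj) a))
  have h4 := supp_eq_empty.1 (cocycle_comp (cocycle_pull (continuous_inclusion hj) ha) n)
  refine ⟨b, h1, fun y hy => ⟨?_, ?_⟩⟩
  · filter_upwards [isOpen_interior.mem_nhds hy] with y' hy' e he
    exact h3 ⟨e, by rw [mem_preimage, he]; exact hy'⟩ (h4 _)
  · have hm : ∀ x, i y x ∈ p ⁻¹' interior W := fun x => by
      rw [mem_preimage, (hi y).apply]; exact hy
    let i' : C(F y, p ⁻¹' W) := ⟨fun x => ⟨i y x, hj (hm x)⟩, by fun_prop⟩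
    have e1 : pull (i y) b = comp n (pull i' a) := by
      have := congrArg (pull fun x => (⟨i y x, hm x⟩ : p ⁻¹' interior W)) h2
      rw [pull_pull, ← comp_pull, pull_pull] at this
      exact this
    rw [e1, ← H.comp_hcls n (cocycle_pull i'.continuous ha), ← H.map_hcls i' ha,
      he y (interior_subset hy) i' fun _ => rfl, (hσ y).comp_eq]

end Glue

theorem exists_glue {B E ι : Type} [TopologicalSpace B] [TopologicalSpace E] [MetrizableSpace B]
    [CompactSpace B] [MetrizableSpace E] [CompactSpace E] [Finite ι] {p : C(E, B)}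
    {F : B → Type} [∀ b, TopologicalSpace (F b)] {i : ∀ b, C(F b, E)} (hi : ∀ b, IsFib p b (i b))
    {T : ι → H E} {d : ι → ℤ} {n : ℤ} (hT : ∀ j, H.IsDeg (d j) (T j)) (h0 : ∀ j, 0 ≤ d j)
    (hn : ∀ j, d j < n)
    (hs : ∀ b, ∀ k < n, ∀ x, H.IsDeg k x →
      x ∈ Submodule.span ℂ (range fun j => H.map (i b) (T j)))
    (hl : ∀ b, LinearIndependent ℂ fun j => H.map (i b) (T j))
    (hinj : ∀ a : ι →₀ H B, (∀ j, H.IsDeg (n + 1 - d j) (a j)) → H.lh p T a = 0 → a = 0)
    {σ : ∀ b, H (F b)} (hσ : ∀ b, H.IsDeg n (σ b))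
    (hloc : ∀ b, ∃ W ∈ 𝓝 b, ∃ e : H (p ⁻¹' W), ∀ b' ∈ W, ∀ i' : C(F b', p ⁻¹' W),
      (∀ x, (i' x).1 = i b' x) → H.map i' e = σ b') :
    ∃ e : H E, H.IsDeg n e ∧ ∀ b, H.map (i b) e = σ b := by
  have hp : IsPr p := IsPr.of_compact p.continuous
  choose t t1 t2 t3 using fun j => H.isDeg_iff.1 (hT j)
  obtain rfl : T = fun j => hcls (t j) := funext fun j => (t3 j).symm
  have D := hp.lhData t1 t2 h0
  have := fun b => (hi b).compactSpace hp
  have hP : ∀ a : Coch E, (Fam.prop p).mem (supp a) := fun a => hp.prop (isClosed_supp a)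
  have hT' : ∀ b, (fun j => H.map (i b) (hcls (t j))) = toH ∘ fun j => cls (pull (i b) (t j)) :=
    fun b => funext fun j => by
      rw [comp_apply, toH_cls (Zc_of_compact (cocycle_pull (i b).continuous (t1 j))),
        H.map_hcls _ (t1 j)]
  have hex := D.cone_exact (i := fun b => i b) hi (k := n - 1) (fun b k hk c hc => by
    have := hs b k (by omega) _ (toH_deg hc)
    rw [hT', range_comp, ← Submodule.map_span] at this
    obtain ⟨c', h1, h2⟩ := this
    rwa [← toH_bijective.1 h2]) (fun b _ _ => by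
    have := hl b
    rw [hT'] at this
    exact (this.of_comp _).linearIndepOn _) _ le_rfl
  set S := Soft.cone D.isMap
  have hδ : ∀ u : Coch E, S.δ (0, u) = (0, δ u) := fun u => by
    rw [Soft.cone_δ, map_zero, map_zero, neg_zero, zero_add]
    rfl
  obtain ⟨⟨a, b⟩, ⟨ha, hb⟩, hG⟩ := S.exists_section (Soft.cone_glue D.isMap
      (Soft.fs_glue _ d (asSoft_glue _ _ (Fam.local_all _))
        (fun _ hm _ ha => IsDeg.eq_zero ha.1 hm) fun _ => toFinite _)
      (asSoft_glue _ _ (Fam.local_prop D.cont))) (n := n)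
    (fun y z => ∃ b', IsDeg n b' ∧ δ b' ∈ VanB p y ∧ hcls (pull (i y) b') = σ y ∧
      ∃ c ∈ S.deg (n - 1), z - (0, b') - S.δ c ∈ S.Van y)
    (fun x => by
      obtain ⟨W, hW, e, he⟩ := hloc x
      obtain ⟨b, h1, h2⟩ := Glue.exists_loc hi hσ he
      refine ⟨(0, b), ⟨Submodule.zero_mem _, h1, hP b⟩, ?_⟩
      filter_upwards [interior_mem_nhds.2 hW] with y hy
      refine ⟨b, h1, (h2 y hy).1, (h2 y hy).2, 0, Submodule.zero_mem _, ?_⟩
      rw [sub_self, map_zero, sub_zero]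
      exact Submodule.zero_mem _)
    (by
      rintro y z - z' - ⟨b, b1, b2, b3, c, c1, c2⟩ ⟨b', b1', b2', b3', c', c1', c2'⟩
      have z1 := (hi y).pull_mem_Zc (hP b) b2
      have z2 := (hi y).pull_mem_Zc (hP b') b2'
      obtain ⟨u, u1, -, u2⟩ := (hi y).inj D.cont (b1.sub b1') (hP _)
        (by rw [map_sub]; exact (VanB p y).sub_mem b2 b2') (by
          rw [map_sub, ← cls_eq_iff z1 z2, cls_eq_iff_hcls z1.2 z2.2, b3, b3'])
      have u3 : ((0, b) - (0, b') - S.δ (0, u)) ∈ S.Van y := by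
        rw [hδ]
        exact ⟨by simp, u2⟩
      refine ⟨c - c' + (0, u), (S.deg _).add_mem ((S.deg _).sub_mem c1 c1')
        ⟨Submodule.zero_mem _, u1, hP u⟩, ?_⟩
      have := (S.Van y).add_mem ((S.Van y).sub_mem c2 c2') u3
      rw [map_add, map_sub]
      convert this using 1
      abel)
    (by
      rintro y z - z' - c c1 ⟨b, b1, b2, b3, c', c1', c2'⟩ c2
      refine ⟨b, b1, b2, b3, c + c', (S.deg _).add_mem c1 c1', ?_⟩
      have := (S.Van y).add_mem c2 c2'
      rw [map_add]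
      convert this using 1
      abel) hex
  have hc : ∀ y, S.δ (a, b) ∈ S.Van y := fun y => by
    obtain ⟨b', -, b2, -, c, -, c2⟩ := hG y
    have h1 : S.δ (0, b') ∈ S.Van y := by
      rw [hδ]
      exact ⟨Submodule.zero_mem _, b2⟩
    have := (S.Van y).add_mem ((S.Van y).add_mem (S.δ_van y _ c2) h1) (S.δδ c y)
    rw [map_sub, map_sub] at this
    convert this using 1
    abel
  have a1 : ∀ j, supp (δ (a j)) = ∅ := fun j => supp_eq_empty.2 fun y =>
    vanB_id.1 ((D.src.Van y).neg_mem_iff.1 (hc y).1 j)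
  have a2 : ∀ j, IsDeg (n + 1 - d j) (a j) := fun j => IsDeg.cast (ha j).1 (by ring)
  have a3 : ∀ e, lhMap p t a + δ b ∈ Van e := fun e => VanB.van (hc (p e)).2
  have a4 := hinj (a.mapRange hcls hcls_zero) (fun j => hcls_isDeg (a2 j)) (by
    rw [H.lh_hcls p t1 a1, ← hcls_zero]
    refine hcls_eq_of_cohom (c := -b) cocycle_zero (supp_eq_empty.2 fun e => ?_)
    rw [sub_zero, map_neg, sub_neg_eq_add]
    exact a3 e)
  choose f f1 f2 using fun j => exists_prim_of_hcls (a1 j) (a2 j) (DFunLike.congr_fun a4 j)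
  let a' : ι →₀ Coch B := Finsupp.equivFunOnFinite.symm f
  have f3 : ∀ j, IsDeg (n - d j) (a' j) := fun j => (f1 j).cast (by ring)
  have f4 : ∀ y, a - D.src.δ a' ∈ D.src.Van y := fun y j => vanB_id.2 (f2 j y)
  have f5 : supp (δ (b + lhMap p t a')) = ∅ := supp_eq_empty.2 fun e => by
    have := (Van e).sub_mem ((Van e).add_mem (a3 e) (VanB.van (D.isMap.comm a' (p e))))
      (VanB.van (D.isMap.van (p e) _ (f4 _)))
    rw [map_sub, asSoft_δ] at this
    rw [map_add]
    convert this using 1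
    abel
  refine ⟨hcls (b + lhMap p t a'), hcls_isDeg (IsDeg.add hb.1 (D.lh_deg f3)), fun y => ?_⟩
  obtain ⟨b', -, b2, b3, ⟨c, c'⟩, ⟨c1, -⟩, c2, c3⟩ := hG y
  have c4 : a - 0 - -D.src.δ c ∈ D.src.Van y := c2
  have c5 : b - b' - (lhMap p t c + δ c') ∈ VanB p y := c3
  have g1 : D.src.δ (a' + c) ∈ D.src.Van y := by
    have := (D.src.Van y).sub_mem c4 (f4 y)
    rw [map_add]
    convert this using 1
    abel
  let g : ι →₀ Coch B := Finsupp.mapRange.linearMap (coneOp y) (a' + c)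
  have g2 : a' + c - D.src.δ g ∈ D.src.Van y := fun j => by
    have h1 := local_cocycle (vanB_id.1 (g1 j))
    have h2 : IsDeg (n - d j) ((a' + c) j) := (f3 j).add (IsDeg.cast (c1 j).1 (by ring))
    rw [h2.val_single (by have := hn j; omega), zero_smul, sub_zero] at h1
    exact vanB_id.2 h1
  have g3 : b + lhMap p t a' - b' - δ (lhMap p t g + c') ∈ VanB p y := by
    have := (VanB p y).sub_mem ((VanB p y).add_mem c5 (D.isMap.van y _ g2)) (D.isMap.comm g y)
    rw [map_sub, map_add, asSoft_δ] at this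
    rw [map_add]
    convert this using 1
    abel
  rw [H.map_hcls _ f5, ← b3]
  refine hcls_eq_of_cohom (c := pull (i y) (lhMap p t g + c'))
    ((hi y).pull_mem_Zc (hP b') b2).2 (supp_eq_empty.2 fun x => ?_)
  rw [δ_pull, ← map_sub, ← map_sub]
  exact (hi y).pull_van g3 x

end Vale.Agent.P269.Mono
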