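import Vale.Agent.P269.Mono.Loc

/-!
# P269, monodromy: global invariant cycles are ambient (helper87)
-/

namespace Vale.Agent.P269.Mono

open Set Topology Filter Module Function TopologicalSpace Vale.Agent.P291Z Vale.Agent.P291Z.Fl

set_option linter.unusedSectionVars false

variable {M m κ : Type} [NormedAddCommGroup M] [NormedSpace ℂ M] [FiniteDimensional ℂ M]
  [Fintype m] [Fintype κ] (S : CI M m κ)

include S in
theorem CI.four_le_finrank (hm : 2 ≤ Fintype.card m) (j : κ) : 4 ≤ finrank ℝ M := by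
  classical
  obtain ⟨a, b, hab⟩ := Fintype.exists_pair_of_one_lt_card hm
  let L : M →ₗ[ℂ] ℂ × ℂ :=
    { toFun := fun u => (S.ev u (Pi.single a 1) j, S.ev u (Pi.single b 1) j)
      map_add' := fun u v => by simp [S.ev_add]
      map_smul' := fun c u => by simp [S.ev_smul] }
  obtain ⟨u, hu⟩ := S.exists_single j (MvPolynomial.isHomogeneous_X_pow a (S.d j))
  obtain ⟨v, hv⟩ := S.exists_single j (MvPolynomial.isHomogeneous_X_pow b (S.d j))
  have hs : Surjective L := fun p => ⟨p.1 • u + p.2 • v, by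
    simp [L, S.ev_add, S.ev_smul, hu, hv, hab, hab.symm, (S.pos j).ne']⟩
  have h1 := LinearMap.finrank_range_le L
  rw [LinearMap.range_eq_top.2 hs, finrank_top, finrank_prod, finrank_self] at h1
  rw [finrank_real]
  omega

include S in
theorem CI.three_le_finrank (hm : 2 ≤ Fintype.card m) (j : κ) : 3 ≤ finrank ℝ M :=
  (Nat.le_succ 3).trans (S.four_le_finrank hm j)

theorem CI.sec_comp {N : Set M} (e : H (S.XS N)) (k : ℤ) (u : M) :
    S.sec N (H.comp k e) u = H.comp k (S.sec N e u) := by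
  by_cases hu : u ∈ N
  · rw [S.sec_of_mem _ hu, S.sec_of_mem _ hu, H.comp_map]
  · rw [CI.sec, CI.sec, dif_neg hu, dif_neg hu, map_zero]

theorem CI.isDeg_sec {N : Set M} {e : H (S.XS N)} {k : ℤ} (he : H.IsDeg k e) (u : M) :
    H.IsDeg k (S.sec N e u) := by
  rw [← he.comp_eq, S.sec_comp]
  exact H.isDeg_comp _ _

/-- a pencil which avoids a small cone -/
theorem exists_pencil {Z : Set M} {k : ℕ} (hZ : Small k Z) (hk : k + 2 < finrank ℝ M)
    (hc : ∀ u ∈ Z, ∀ c : ℂ, c • u ∈ Z) {u : M} (hu : u ∉ Z) :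
    ∃ w, ∀ s : ℂ × ℂ, s ≠ 0 → s.1 • u + s.2 • w ∉ Z := by
  obtain ⟨w, -, hw⟩ := (hZ.sweep (F := ℂ) (f := fun p : M × ℂ => p.1 + p.2 • u)
    (by fun_prop)).exists_notMem (by rwa [Complex.finrank_real_complex]) (univ_mem (f := 𝓝 u))
  refine ⟨w, fun s hs h => ?_⟩
  rcases eq_or_ne s.2 0 with h2 | h2
  · have h1 : s.1 ≠ 0 := fun h1 => hs (Prod.ext h1 h2)
    exact hu (by simpa [h2, smul_smul, h1] using hc _ h s.1⁻¹)
  · refine hw ⟨_, hc _ h s.2⁻¹, -(s.2⁻¹ * s.1), ?_⟩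
    simp [smul_smul, h2]

variable {n : ℕ} (hn : Fintype.card m = n + Fintype.card κ + 1)
include hn

variable [DecidableEq m] [DecidableEq κ] (h1 : 1 ≤ n) {τ : ∀ u v : M, H (S.X u) →ₗ[ℂ] H (S.X v)}
  (T : S.Tau τ) (hO : ∀ u ∈ S.U, ∃ β : BM (S.X u), Orb.Ori (2 * n) β)
include h1 T hO

theorem CI.kl {j₀ : κ} (hd : 2 ≤ S.d j₀) {σ : ∀ u, H (S.X u)}
    (hσ : Flat (fun a b => τ a b) S.U σ) (hσ' : ∀ u ∈ S.U, H.IsDeg n (σ u)) {u : M}
    (hu : u ∈ S.U) : σ u ∈ amb (S.h u) := by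
  classical
  obtain ⟨i₀⟩ : Nonempty m := Fintype.card_pos_iff.1 (by omega)
  have h4 := S.four_le_finrank (by omega) j₀
  obtain ⟨Z, z1, z2, z3, -, z4⟩ := S.exists_bad (by omega) i₀ hd
  obtain ⟨w, hw⟩ := exists_pencil (z1 (finrank ℝ M - 4) (by omega)) (by omega) z3
    (disjoint_left.1 z2 hu)
  let E : M → Prop := fun y => ∃ p : Σ O : Set M, H (S.XS O), p.1 ∈ 𝓝 y ∧ H.IsDeg n p.2 ∧
    ∀ v ∈ p.1 ∩ S.U, S.sec p.1 p.2 v = σ v
  let σ' : ∀ y, H (S.X y) := fun y => if y ∈ S.U then σ y else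
    if h : E y then S.sec h.choose.1 h.choose.2 y else H.comp n 0
  have d : ∀ y, H.IsDeg n (σ' y) := fun y => by
    simp only [σ']
    split_ifs with a b
    exacts [hσ' y a, S.isDeg_sec b.choose_spec.2.1 y, H.isDeg_comp _ _]
  have key : ∀ y, y ∉ Z → ∃ N ∈ 𝓝 y, ∃ e : H (S.XS N), ∀ y' ∈ N, S.sec N e y' = σ' y' := by
    intro y hy
    by_cases hU : y ∈ S.U
    · have := FiniteDimensional.proper ℂ M
      obtain ⟨r, hr, hb⟩ := Metric.nhds_basis_closedBall.mem_iff.1 (S.isOpen_U.mem_nhds hU)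
      have hc := convex_closedBall y r
      have hy' := Metric.mem_closedBall_self (x := y) hr.le
      obtain ⟨e, he⟩ := (T.bij _ (isCompact_closedBall y r) hc hb y hy').2 (σ y)
      refine ⟨_, Metric.closedBall_mem_nhds y hr, e, fun y' h => ?_⟩
      have hs := hc.segment_subset hy' h
      rw [S.sec_of_mem e h, ← T.spec _ y y' hy' h (subset_inter hs (hs.trans hb)), he]
      simp only [σ', if_pos (hb h)]
      exact hσ y y' (hs.trans hb)
    · obtain ⟨N, n1, n2, n3, -, n4, n5⟩ := S.node_flat hn h1 T hO (z4 y hU hy)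
      obtain ⟨v, hv, e, he⟩ := n4 y n3 hU univ isOpen_univ trivial σ
        (hσ.mono inter_subset_right) fun v hv => hσ' v hv.2
      have e1 : ∀ v' ∈ N ∩ S.U, S.sec N (H.comp n e) v' = σ v' := fun v' hv' =>
        LocSys.flat_unique (S.small_disc (k := finrank ℝ M - 2) (by omega)) (by omega) n1 n2
          (T.flat_sec N _) (hσ.mono inter_subset_right) ⟨hv.1.2, hv.2⟩ hv'
          (by rw [S.sec_comp, he, (hσ' v hv.2).comp_eq])
      refine ⟨N, n1.mem_nhds n3, H.comp n e, fun y' h => ?_⟩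
      by_cases a : y' ∈ S.U
      · simp only [σ', if_pos a]
        exact e1 y' ⟨h, a⟩
      · have b : E y' := ⟨⟨N, H.comp n e⟩, n1.mem_nhds h, H.isDeg_comp _ _, e1⟩
        simp only [σ', if_neg a, dif_pos b]
        obtain ⟨b1, b2, b3⟩ := b.choose_spec
        exact n5 y' h _ b1 _ _ (H.isDeg_comp _ _) b2 fun v' hv' =>
          (e1 v' ⟨hv'.1.2, hv'.2⟩).trans (b3 v' ⟨hv'.1.1, hv'.2⟩).symm
  let ℓ : ℂ × ℂ →L[ℂ] M :=
    (ContinuousLinearMap.toSpanSingleton ℂ u).coprod (ContinuousLinearMap.toSpanSingleton ℂ w)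
  obtain ⟨e, he, h⟩ := S.glue hn (γ := fun s : Metric.sphere (0 : ℂ × ℂ) 1 => ℓ s) (by fun_prop)
    (σ := σ') (fun _ => d _) fun b => by
      obtain ⟨N, hN, e, he⟩ := key (ℓ b) (hw b.1 (ne_zero_of_mem_unit_sphere b))
      exact ⟨N, hN, e, fun b' hb' => he _ hb'⟩
  let b : Metric.sphere (0 : ℂ × ℂ) 1 := ⟨(1, 0), by simp [Prod.norm_def]⟩
  have h5 := S.wl_sphere hn (by simp) ℓ he b
  rw [h b] at h5
  have h6 : ℓ b = u := by simp [ℓ, b]
  have h7 : ∀ v, v = u → σ' v ∈ amb (S.h v) → σ' u ∈ amb (S.h u) := fun v hv => hv ▸ id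
  simpa only [σ', if_pos hu] using h7 _ h6 h5

end Vale.Agent.P269.Mono
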