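import Vale.Agent.P269.Mono.PL1

/-!
# P269, monodromy: the topology of the Picard-Lefschetz formula (helper40)
-/

namespace Vale.Agent.P269.Mono

open Set Topology Filter Module Function TopologicalSpace Vale.Agent.P291Z Vale.Agent.P291Z.Fl PL
open scoped ContDiff

variable {n : ℕ} {r : ℝ}

theorem PL.sph_mil' (hr : 0 < r) (hr1 : r < 1) : Sph (Mil n r) n :=
  sph_mil (P := fun t => t ≤ 1) hr hr1.le (fun _ _ => le_trans)
    (isCompact_mil _).isClosed.isLocallyClosed

theorem mil_top (hn : 1 ≤ n) (hr : 0 < r) (hr1 : r < 1) :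
    ∃ φ : H (Mil n r) →ₗ[ℂ] ℂ, ∀ a, H.IsDeg n a → φ a = 0 → a = 0 := by
  obtain ⟨φ, h1, -⟩ := sph_mil' (n := n) hr hr1
  exact ⟨φ, fun a ha h => eq_zero_of_smul_one (by omega) ha (h1 a h).choose_spec⟩

variable {E O X : Type} [TopologicalSpace E] [TopologicalSpace O] [TopologicalSpace X]
  [MetrizableSpace E] [CompactSpace E] [MetrizableSpace O] [CompactSpace O] {O' : Set O}

/-- the inclusion of a subset -/
def PL.vl (S : Set X) : C(S, X) := ⟨Subtype.val, continuous_subtype_val⟩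

theorem PL.push_inj {U : Type} [TopologicalSpace U] [Nice X] {β : BM X} {k : ℤ}
    (hβ : Orb.Ori (2 * k) β) {j : C(U, X)} (hj : IsOpenEmbedding j) {x : H X}
    (hx : ∀ y : H U, H.IsDeg k y → ∃ c : ℂ, y = c • H.map j x) {a : Hc U} (ha : a ∈ Hc.deg U k)
    (h0 : Hc.push hj a = 0) : a = 0 := by
  have : Nice U := Nice.of_isEmbedding hj.isEmbedding hj.isOpen_range.isLocallyClosed
  refine (Module.forall_dual_apply_eq_zero_iff ℂ a).1 fun γ => ?_
  obtain ⟨t, -, h2, h3⟩ := (hβ.res hj).exists_cap (BM.isDeg_comp k γ)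
  obtain ⟨c, hc⟩ := hx _ (hcls_isDeg (h2.cast (by ring)))
  have := LinearMap.congr_fun h3 a
  rw [cap_apply, res_apply, cext_eq hj, hc, map_smul, LinearMap.smul_apply, map_smul, Hc.push_act,
    h0, map_zero, smul_zero, map_zero, LinearMap.dualMap_apply, Hc.comp_of_mem ha] at this
  exact this.symm

section sets

variable {A T : Set E} (hA : IsClosed A) (hT : IsClosed T) (cov : ∀ e, e ∉ A → e ∈ T)
include hA hT

theorem PL.half_mv_union {α : H A} {τ : H T} {W : Set E} (h1 : W ⊆ A) (h2 : W ⊆ T)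
    (h3 : A ∩ T ⊆ W)
    (e : H.map (ContinuousMap.inclusion h1) α = H.map (ContinuousMap.inclusion h2) τ) :
    ∃ γ : H ↥(A ∪ T), H.map (ContinuousMap.inclusion subset_union_left) γ = α := by
  have := isCompact_iff_compactSpace.1 (hA.union hT).isCompact
  refine half_mv (a := ContinuousMap.inclusion (subset_union_left : A ⊆ A ∪ T))
    (t := ContinuousMap.inclusion (subset_union_right : T ⊆ A ∪ T))
    (u := ContinuousMap.inclusion h1) (w := ContinuousMap.inclusion h2)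
    (isClosedEmbedding_incl subset_union_left hA) (isClosedEmbedding_incl subset_union_right hT)
    (cemb h2 hA fun x hx => ⟨fun h => h1 h, fun h => h3 ⟨h, hx⟩⟩) (fun _ => rfl)
    (fun g hg => ⟨⟨g.1, g.2.resolve_left fun h => hg ⟨⟨g.1, h⟩, rfl⟩⟩, rfl⟩) ?_ e
  rintro x ⟨y, hy⟩
  exact ⟨⟨x.1, h3 ⟨Subtype.mk.inj hy ▸ y.2, x.2⟩⟩, rfl⟩

include cov

theorem PL.half_mv_univ {α : H A}
    (e : H.map (ContinuousMap.inclusion (inter_subset_left : A ∩ T ⊆ A)) α = 0) :
    ∃ γ : H E, H.map (vl A) γ = α := by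
  refine half_mv (a := vl A) (t := vl T)
    (u := ContinuousMap.inclusion (inter_subset_left : A ∩ T ⊆ A))
    (w := ContinuousMap.inclusion (inter_subset_right : A ∩ T ⊆ T)) (τ := 0)
    hA.isClosedEmbedding_subtypeVal hT.isClosedEmbedding_subtypeVal
    (isClosedEmbedding_incl inter_subset_right (hA.inter hT)) (fun _ => rfl)
    (fun g hg => ⟨⟨g, cov g fun h => hg ⟨⟨g, h⟩, rfl⟩⟩, rfl⟩) ?_ (e.trans (map_zero _).symm)
  rintro x ⟨y, hy⟩
  exact ⟨⟨x.1, (show y.1 = x.1 from hy) ▸ y.2, x.2⟩, rfl⟩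

theorem PL.mv_inj_univ {k : ℤ} {γ : H E} (hγ : H.IsDeg k γ) (h1 : H.map (vl A) γ = 0)
    (h2 : H.map (vl T) γ = 0) (hs : ∀ b : H ↥(A ∩ T), H.IsDeg (k - 1) b → ∃ z : ℂ, b = z • 1) :
    γ = 0 := by
  refine mv_inj (a := vl A) (t := vl T)
    (u := ContinuousMap.inclusion (inter_subset_left : A ∩ T ⊆ A))
    (w := ContinuousMap.inclusion (inter_subset_right : A ∩ T ⊆ T))
    hA.isClosedEmbedding_subtypeVal hT.isClosedEmbedding_subtypeVal
    (isClosedEmbedding_incl inter_subset_right (hA.inter hT)) (fun _ => rfl)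
    (fun g hg => ⟨⟨g, cov g fun h => hg ⟨⟨g, h⟩, rfl⟩⟩, rfl⟩) ?_ hγ h1 h2 fun b hb => ?_
  · rintro x ⟨y, hy⟩
    exact ⟨⟨x.1, (show y.1 = x.1 from hy) ▸ y.2, x.2⟩, rfl⟩
  · obtain ⟨z, rfl⟩ := hs b hb
    exact ⟨_, map_smul_one _ z⟩

end sets

section general

variable {B : Type} [TopologicalSpace B] [MetrizableSpace B] [CompactSpace B] {p : E → B}
  {c : B → ℂ} {J : B × (Fin (n + 1) → ℂ) → E} {Ψ : B × O → E} (h : Tube n p c J Ψ O')
include h

omit [MetrizableSpace E] [CompactSpace E] [MetrizableSpace O] [CompactSpace O]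
  [MetrizableSpace B] in
theorem Tube.isCompact_im : IsCompact (J '' Tub n c) := by
  refine IsCompact.image_of_continuousOn ?_ h.cont_J
  exact (isCompact_univ.prod isCompact_nq).of_isClosed_subset
    ((isClosed_eq (continuous_qf.comp continuous_snd) (h.cont_c.comp continuous_fst)).inter
      (isClosed_le (continuous_nq.comp continuous_snd) continuous_const)) fun w hw => ⟨trivial, hw.2⟩

omit [CompactSpace E] [MetrizableSpace O] [MetrizableSpace B] in
theorem Tube.emb_out : IsClosedEmbedding Ψ := h.cont_Ψ.isClosedEmbedding h.inj_Ψ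

omit [CompactSpace E] [MetrizableSpace O] [CompactSpace O] [MetrizableSpace B] in
theorem Tube.isClosed_bd (v : B) : IsClosed O' := by
  rw [show O' = (fun o => Ψ (v, o)) ⁻¹' (J '' Tub n c) from Set.ext fun o => (h.bd' (v, o)).symm]
  exact h.isCompact_im.isClosed.preimage (h.cont_Ψ.comp (Continuous.prodMk_right v))

omit [CompactSpace E] in
theorem Tube.null_out {N : Set B} (hl : IsLocallyClosed N) (hN : Null N) :
    Null (range Ψ ∩ p ⁻¹' N) :=
  ((null_prod hl hN isClosed_univ).of_embedding h.emb_out.isEmbedding).congr fun e =>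
    ⟨by
      rintro ⟨⟨w, rfl⟩, he⟩
      exact ⟨w, ⟨h.p_Ψ w ▸ he, trivial⟩, rfl⟩, by
      rintro ⟨w, hw, rfl⟩
      exact ⟨⟨w, rfl⟩, by rw [mem_preimage, h.p_Ψ]; exact hw.1⟩⟩

variable {v : B} (hv : Null ({v}ᶜ : Set B)) {i : C(X, E)} (hi : IsFib p v i)
include hi

omit [CompactSpace E] [MetrizableSpace O] [MetrizableSpace B] in
theorem Tube.isClosed_out : IsClosed (range i ∪ range Ψ) :=
  hi.emb.isClosed_range.union h.emb_out.isClosed_range

include hv

theorem Tube.bij_out {f : C(X, ↥(range i ∪ range Ψ))} (hf : ∀ x, (f x).1 = i x) :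
    Bijective (H.map f) := by
  have := hi.emb.compactSpace
  refine bij_of_null' (h.isClosed_out hi).isCompact (fun x y e => hi.emb.injective ?_)
    (h.null_out isOpen_compl_singleton.isLocallyClosed hv) fun e => ?_
  · rw [← hf, ← hf, e]
  · have : (∀ z, (f z).1 ≠ e) ↔ e ∉ range i := by simp [hf]
    rw [this, mem_union, hi.range_eq, mem_inter_iff, preimage_compl, mem_compl_iff]
    tauto

omit [CompactSpace E] in
theorem Tube.bij_mil {s : ℂ} (hs : c v = s) :
    ∃ g : C(Mil n s, ↥((range i ∪ range Ψ) ∩ J '' Tub n c)), (∀ z, (g z).1 = J (v, z.1)) ∧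
      Bijective (H.map g) := by
  subst hs
  have := isCompact_iff_compactSpace.1 (isCompact_mil (n := n) (c v))
  have hm : ∀ z : Mil n (c v), (v, z.1) ∈ Tub n c := fun z => z.2
  have hc : Continuous fun z : Mil n (c v) => J (v, z.1) :=
    h.cont_J.comp_continuous ((Continuous.prodMk_right v).comp continuous_subtype_val) hm
  refine ⟨⟨fun z => ⟨J (v, z.1), .inl (hi.exists_eq (h.p_J _ (hm z))), _, hm z, rfl⟩,
    hc.subtype_mk _⟩, fun _ => rfl, bij_of_null' (h.isCompact_im.inter_left (h.isClosed_out hi))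
      (fun x y e => Subtype.ext (congrArg Prod.snd (h.inj_J (hm x) (hm y) (Subtype.mk.inj e))))
      ((null_prod isOpen_compl_singleton.isLocallyClosed hv (h.isClosed_bd v)).of_embedding
        h.emb_out.isEmbedding) fun e => ⟨?_, ?_⟩⟩
  · rintro ⟨w, hw, rfl⟩
    refine ⟨⟨.inr ⟨w, rfl⟩, (h.bd' w).2 hw.2⟩, fun z e => hw.1 ?_⟩
    rw [← h.p_Ψ w, ← e]
    exact h.p_J _ (hm z)
  · rintro ⟨⟨h1, w, hw, rfl⟩, h2⟩
    have h3 : w.1 ≠ v := by
      rintro rfl
      exact h2 ⟨w.2, hw⟩ rfl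
    obtain ⟨u, hu⟩ := h1.resolve_left (by
      rintro ⟨x, hx⟩
      exact h3 (by rw [← h.p_J w hw, ← hx, hi.apply]))
    exact ⟨u, ⟨by rwa [← h.p_Ψ u, hu, h.p_J w hw], (h.bd' u).1 ⟨w, hw, hu.symm⟩⟩, hu⟩

end general

theorem Tube.ext {M : Type} [NormedAddCommGroup M] [NormedSpace ℝ M] [FiniteDimensional ℝ M]
    {C : Set M} (hC : IsCompact C) (hc : Convex ℝ C) {p : E → C} {c : C → ℂ}
    {J : C × (Fin (n + 1) → ℂ) → E} {Ψ : C × O → E} (h : Tube n p c J Ψ O') {v : C}
    {i : C(X, E)} (hi : IsFib p v i) {j : C(Mil n (c v), X)} (hj : ∀ z, i (j z) = J (v, z.1))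
    {x : H X} (hx : H.map j x = 0) : ∃ e, H.map i e = x := by
  have := isCompact_iff_compactSpace.1 hC
  have hv := null_compl (acyc_star hC v.2 (hc.starConvex v.2)) v
  let f : C(X, ↥(range i ∪ range Ψ)) := ⟨fun x => ⟨i x, .inl ⟨x, rfl⟩⟩, by fun_prop⟩
  obtain ⟨a, rfl⟩ := (h.bij_out hv hi (f := f) fun _ => rfl).2 x
  obtain ⟨g, h1, h2⟩ := h.bij_mil hv hi rfl
  obtain ⟨e, rfl⟩ := half_mv_univ (h.isClosed_out hi) h.isCompact_im.isClosed
    (fun e he => (h.cover e).resolve_right fun h => he (.inr h)) (α := a) (h2.1 (by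
      rw [map_zero, ← hx, H.map_map j]
      exact map_map' (fun z => Subtype.ext ((h1 z).trans (hj z).symm)) a))
  exact ⟨e, (map_map' (fun _ => rfl) e).symm⟩

variable (hn : 1 ≤ n) (hr : 0 < r) (hr1 : r < 1) {p : E → Metric.closedBall (0 : ℂ) r}
  {J : Metric.closedBall (0 : ℂ) r × (Fin (n + 1) → ℂ) → E}
  {Ψ : Metric.closedBall (0 : ℂ) r × O → E} (h : Tube n p Subtype.val J Ψ O')
  {v : Metric.closedBall (0 : ℂ) r} (hv : v.1 = r) {i : C(X, E)} (hi : IsFib p v i)

omit [MetrizableSpace E] [CompactSpace E] [MetrizableSpace O] [CompactSpace O] in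
include h in
theorem Tube.exists_ball : ∃ κ : C({z : Fin (n + 1) → ℂ | nq z ≤ 1 ∧ ‖qf z‖ ≤ r}, E),
    Injective κ ∧ range κ = J '' Tub n Subtype.val ∧ (∀ z, (p (κ z)).1 = qf z.1) ∧
      ∀ z, κ z ∈ range Ψ ↔ nq z.1 = 1 := by
  let g : {z : Fin (n + 1) → ℂ | nq z ≤ 1 ∧ ‖qf z‖ ≤ r} →
      Metric.closedBall (0 : ℂ) r × (Fin (n + 1) → ℂ) :=
    fun z => (⟨qf z.1, mem_closedBall_zero_iff.2 z.2.2⟩, z.1)
  have hg : Continuous g :=
    ((continuous_qf.comp continuous_subtype_val).subtype_mk _).prodMk continuous_subtype_val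
  have hm : ∀ z, g z ∈ Tub n Subtype.val := fun z => ⟨rfl, z.2.1⟩
  refine ⟨⟨fun z => J (g z), h.cont_J.comp_continuous hg hm⟩,
    fun x y e => Subtype.ext (congrArg Prod.snd (h.inj_J (hm x) (hm y) e)),
    Subset.antisymm (range_subset_iff.2 fun z => ⟨_, hm z, rfl⟩) ?_,
    fun z => congrArg Subtype.val (h.p_J _ (hm z)), fun z => h.bd _ (hm z)⟩
  rintro _ ⟨w, hw, rfl⟩
  exact ⟨⟨w.2, hw.2, hw.1 ▸ mem_closedBall_zero_iff.1 w.1.2⟩,
    congrArg J (Prod.ext (Subtype.ext hw.1) rfl)⟩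

theorem PL.isCompact_ball : IsCompact {z : Fin (n + 1) → ℂ | nq z ≤ 1 ∧ ‖qf z‖ ≤ r} :=
  isCompact_nq.inter_right (isClosed_le continuous_qf.norm continuous_const)

include hr

theorem PL.acyc_ball : Acyc {z : Fin (n + 1) → ℂ | nq z ≤ 1 ∧ ‖qf z‖ ≤ r} :=
  acyc_star isCompact_ball (x := 0) ⟨by simp [nq], by simp [qf, hr.le]⟩
    (starConvex_nq (P := fun t => t ≤ 1) (Q := fun t => t ≤ r) (fun _ _ => le_trans)
      fun _ _ => le_trans)

omit hr in
theorem PL.null_disc (v : Metric.closedBall (0 : ℂ) r) :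
    Null ({v}ᶜ : Set (Metric.closedBall (0 : ℂ) r)) :=
  null_compl (acyc_star (isCompact_closedBall _ _) v.2 ((convex_closedBall _ _).starConvex v.2)) v

omit [CompactSpace E] [MetrizableSpace O] [CompactSpace O] in
include h in
theorem Tube.acyc_im : Acyc (J '' Tub n Subtype.val) := by
  obtain ⟨κ, h1, h2, -⟩ := h.exists_ball
  have := isCompact_iff_compactSpace.1 (isCompact_ball (n := n) (r := r))
  refine acyc_of_inj (bij_of_null' h.isCompact_im
    (f := ⟨fun z => ⟨κ z, h2 ▸ mem_range_self z⟩, by fun_prop⟩)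
    (fun x y e => h1 (Subtype.mk.inj e)) null_empty fun e => ?_).1 (acyc_ball hr)
  refine iff_of_false (notMem_empty e) fun he => ?_
  obtain ⟨z, hz⟩ := h2.ge he.1
  exact he.2 z hz

include hn hr1 h hv hi

theorem Tube.inj {e : H E} (he : H.IsDeg n e) (h0 : H.map i e = 0) : e = 0 := by
  let f : C(X, ↥(range i ∪ range Ψ)) := ⟨fun x => ⟨i x, .inl ⟨x, rfl⟩⟩, by fun_prop⟩
  obtain ⟨g, -, h2⟩ := h.bij_mil (null_disc v) hi hv
  obtain ⟨φ, h3, h4⟩ := (sph_mil' hr hr1).of_inj h2.1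
  exact mv_inj_univ (h.isClosed_out hi) h.isCompact_im.isClosed
    (fun e he => (h.cover e).resolve_right fun h => he (.inr h)) he
    ((h.bij_out (null_disc v) hi (f := f) fun _ => rfl).1 (by
      rw [map_zero, ← h0, map_map' fun _ => rfl]))
    ((h.acyc_im hr).eq_zero (by omega) (he.map _)) fun b hb => h3 b (h4 _ (by omega) b hb)

omit [MetrizableSpace O] in
theorem Tube.surj_bd {j : C(Mil n r, X)} (hj : ∀ z, i (j z) = J (v, z.1)) {β : BM X}
    (hβ : Orb.Ori (2 * n) β) {x : H X} (hx : H.IsDeg n x) (hne : H.map j x ≠ 0)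
    {b : H {x | i x ∈ range Ψ}} (hb : H.IsDeg (n - 1) b) : ∃ x, H.map (vl _) x = b := by
  have := hi.emb.compactSpace
  have := hi.emb.isEmbedding.metrizableSpace
  have : Nice X := ⟨inferInstance, inferInstance, inferInstance⟩
  have := isCompact_iff_compactSpace.1 (isCompact_mil (n := n) r)
  have s0 : {z : Fin (n + 1) → ℂ | qf z = r ∧ nq z < 1} ⊆ Mil n r := fun z hz => ⟨hz.1, hz.2.le⟩
  have hm : ∀ z : Mil n r, (v, z.1) ∈ Tub n Subtype.val := fun z => ⟨z.2.1.trans hv.symm, z.2.2⟩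
  have hjc : IsClosedEmbedding j := j.continuous.isClosedEmbedding fun x y e =>
    Subtype.ext (congrArg Prod.snd (h.inj_J (hm x) (hm y) (by rw [← hj, ← hj, e])))
  have hZ : IsClosed {x | i x ∈ range Ψ} := h.emb_out.isClosed_range.preimage i.continuous
  have r0 : range (j.comp (ContinuousMap.inclusion s0)) = (range (vl {x | i x ∈ range Ψ}))ᶜ := by
    refine Eq.trans (Set.ext fun x => ⟨?_, fun hx => ?_⟩) (congrArg compl Subtype.range_coe.symm)
    · rintro ⟨z, rfl⟩ hz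
      exact z.2.2.ne ((h.bd _ (hm (inclusion s0 z))).1 (hj _ ▸ hz))
    · obtain ⟨⟨b, z⟩, hw, e⟩ := (h.cover (i x)).resolve_right hx
      obtain rfl : b = v := (h.p_J _ hw).symm.trans (e ▸ hi.apply x)
      exact ⟨⟨z, hw.1.trans hv, lt_of_le_of_ne hw.2 fun h' =>
        hx (show i x ∈ range Ψ from e ▸ (h.bd _ hw).2 h')⟩,
        hi.emb.injective ((hj _).trans e)⟩
  have c0 : IsClosedEmbedding (vl {x | i x ∈ range Ψ}) := hZ.isClosedEmbedding_subtypeVal
  have o0 := oemb c0 (hjc.isEmbedding.comp (IsEmbedding.inclusion s0)) r0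
  have h0 : H.map (j.comp (ContinuousMap.inclusion s0)) x ≠ 0 := fun h0 => hne
    ((vc_bijective (P := fun t => t ≤ 1) hr hr1.le (fun _ _ => le_trans)
      (isCompact_mil _).isClosed.isLocallyClosed).1 (by
        have := congrArg (H.map (vc (n := n) (P := fun t => t < 1) hr hr1)) h0
        rw [H.map_map, map_zero] at this
        exact (H.map_map _ j x).trans (this.trans (map_zero _).symm)))
  have h1 := sph_mil (n := n) (P := fun t => t < 1) hr hr1 (fun _ _ => lt_of_le_of_lt)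
    (isLocallyClosed_mil _ isOpen_Iio.isLocallyClosed)
  exact (surj_of_inj c0 o0 r0 (fun c hc => push_inj hβ o0
    (fun y hy => h1.span (by omega) (hx.map _) h0 hy) (by rwa [sub_add_cancel] at hc)) hb).imp
      fun _ => And.right

omit hn hr1 [MetrizableSpace O] in
theorem Tube.ext_in {k : ℤ} (hk : k ≤ n) {g : H ↥((range i ∪ range Ψ) ∪ {e | ‖(p e).1‖ = r})}
    (hg : H.IsDeg k g) : ∃ ε, H.IsDeg k ε ∧ H.map (vl _) ε = g := by
  obtain ⟨κ, h1, h2, h3, h4⟩ := h.exists_ball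
  have := isCompact_iff_compactSpace.1 (isCompact_ball (n := n) (r := r))
  have s0 : {z : Fin (n + 1) → ℂ | nq z < 1 ∧ ‖qf z‖ < r} ⊆ {z | nq z ≤ 1 ∧ ‖qf z‖ ≤ r} :=
    fun z hz => ⟨hz.1.le, hz.2.le⟩
  have c0 : IsClosedEmbedding (vl ((range i ∪ range Ψ) ∪ {e | ‖(p e).1‖ = r})) :=
    ((h.isClosed_out hi).union (isClosed_eq (continuous_subtype_val.comp h.cont_p).norm
      continuous_const)).isClosedEmbedding_subtypeVal
  have h5 : ∀ x, ‖(p (i x)).1‖ = r := fun x => by rw [hi.apply, hv]; simp [hr.le]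
  have r0 : range (κ ∘ inclusion s0) =
      (range (vl ((range i ∪ range Ψ) ∪ {e | ‖(p e).1‖ = r})))ᶜ := by
    refine Eq.trans (Set.ext fun e => ⟨?_, fun he => ?_⟩) (congrArg compl Subtype.range_coe.symm)
    · rintro ⟨z, rfl⟩ ((⟨x, hx⟩ | hz) | hz)
      · exact z.2.2.ne ((congrArg norm (h3 (inclusion s0 z))).symm.trans
          ((show i x = κ (inclusion s0 z) from hx) ▸ h5 x))
      · exact z.2.1.ne ((h4 _).1 hz)
      · exact z.2.2.ne ((congrArg norm (h3 (inclusion s0 z))).symm.trans hz)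
    · obtain ⟨z, rfl⟩ := h2.ge ((h.cover e).resolve_right fun h' => he (.inl (.inr h')))
      exact ⟨⟨z.1, lt_of_le_of_ne z.2.1 fun h' => he (.inl (.inr ((h4 z).2 h'))),
        lt_of_le_of_ne z.2.2 fun h' => he (.inr ((congrArg norm (h3 z)).trans h'))⟩, rfl⟩
  refine surj_of_inj c0 (oemb c0 ((κ.continuous.isClosedEmbedding h1).isEmbedding.comp
    (IsEmbedding.inclusion s0)) r0) r0 (fun c hc _ => ?_) hg
  refine low_star ((isOpen_lt continuous_nq continuous_const).inter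
    (isOpen_lt continuous_qf.norm continuous_const)) (x := 0) ⟨by simp [nq], by simpa [qf]⟩
    (starConvex_nq (P := fun t => t < 1) (Q := fun t => t < r) (fun _ _ => lt_of_le_of_lt)
      fun _ _ => lt_of_le_of_lt) _ ?_ c hc
  simp only [Module.finrank_pi_fintype, Complex.finrank_real_complex, Finset.sum_const,
    Finset.card_univ, Fintype.card_fin, smul_eq_mul]
  omega

theorem Tube.circle_set {j : C(Mil n r, X)} (hj : ∀ z, i (j z) = J (v, z.1)) {β : BM X}
    (hβ : Orb.Ori (2 * n) β) {i' : C(X, {e : E | ‖(p e).1‖ = r})} (hi' : ∀ x, (i' x).1 = i x)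
    {e : H {e : E | ‖(p e).1‖ = r}} (he : H.IsDeg n e) : H.map j (H.map i' e) = 0 := by
  by_contra hne
  have := hi.emb.compactSpace
  have hx := he.map i'
  have hp : Continuous fun e => (p e).1 := continuous_subtype_val.comp h.cont_p
  have hY : IsClosed {e | ‖(p e).1‖ = r} := isClosed_eq hp.norm continuous_const
  have hA := h.isClosed_out hi
  let f : C(X, ↥(range i ∪ range Ψ)) := ⟨fun x => ⟨i x, .inl ⟨x, rfl⟩⟩, by fun_prop⟩
  obtain ⟨a, ha⟩ := (h.bij_out (null_disc v) hi (f := f) fun _ => rfl).2 (H.map i' e)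
  obtain ⟨a, h1, h2⟩ := exists_deg (ha ▸ hx)
  rw [ha] at h2
  let f' : C(X, ↥((range i ∪ range Ψ) ∩ {e | ‖(p e).1‖ = r})) :=
    ⟨fun x => ⟨i x, .inl ⟨x, rfl⟩, hi' x ▸ (i' x).2⟩, by fun_prop⟩
  have h3 : ∀ e, (∃ x, i x = e) ↔ (p e).1 = r := fun e =>
    ⟨fun ⟨x, hx⟩ => by rw [← hx, hi.apply, hv],
      fun h' => hi.exists_eq (Subtype.ext (h'.trans hv.symm))⟩
  have h4 : ∀ {S : Set ℂ}, IsLocallyClosed S → Null S → S ⊆ Metric.sphere 0 r →
      Null (range Ψ ∩ {e | (p e).1 ∈ S}) := fun hS h1 h2 =>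
    h.null_out (hS.preimage continuous_subtype_val) (Null.of_image IsEmbedding.subtypeVal (by
      rwa [image_preimage_eq_of_subset]
      rw [Subtype.range_coe]
      exact h2.trans Metric.sphere_subset_closedBall))
  obtain ⟨y, hy⟩ := ext_arc (V := {e | 0 < (p e).1.im}) (R := {e | (p e).1 ∈ arc r}) (i := f')
    h.emb_out.isClosed_range hY (isOpen_lt continuous_const (Complex.continuous_im.comp hp))
    (fun x y e => hi.emb.injective (Subtype.mk.inj e))
    (fun e => and_comm.trans (and_congr_right fun _ => or_comm)) inter_subset_right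
    (fun x hx => by
      have : 0 < (p (i x)).1.im := hx
      rw [hi.apply, hv] at this
      exact lt_irrefl _ this)
    (fun e => (mem_arc hr).trans (or_congr_left (h3 e).symm)) (isLocallyClosed_arc.preimage hp)
    (h4 isLocallyClosed_arc (null_arc hr) fun q hq => mem_sphere_zero_iff_norm.2 hq.1)
    ((h4 (by
      have := (isLocallyClosed_arc (r := r)).preimage continuous_neg
      convert this using 1
      ext q
      rw [mem_preimage, neg_mem_arc hr, Set.mem_sdiff, mem_sphere_zero_iff_norm])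
      (null_arc' hr) sdiff_subset).congr fun e => and_congr_right fun _ =>
        and_congr_left fun _ => mem_sphere_zero_iff_norm.symm)
    (k := n) (fun b hb => h.surj_bd hn hr hr1 hv hi hj hβ hx hne hb)
    (d := H.map (ContinuousMap.inclusion inter_subset_left) a -
      H.map (ContinuousMap.inclusion inter_subset_right) e)
    ((H.deg _ _).sub_mem (h1.map _) (he.map _)) (by
      rw [map_sub, map_map' (k := f) fun _ => rfl, h2, sub_eq_zero]
      exact (map_map' (fun x => Subtype.ext (hi' x).symm) e).symm)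
  obtain ⟨g, hg⟩ := half_mv_union hA hY (α := a) (τ := y + e) inter_subset_left inter_subset_right
    Subset.rfl (by rw [map_add, hy, sub_add_cancel])
  obtain ⟨g, h5, h6⟩ := exists_deg (hg ▸ h1)
  obtain ⟨ε, h7, rfl⟩ := h.ext_in hr hv hi le_rfl h5
  let k : C(Mil n r, J '' Tub n Subtype.val) :=
    ⟨fun z => ⟨i (j z), (v, z.1), ⟨z.2.1.trans hv.symm, z.2.2⟩, (hj z).symm⟩, by fun_prop⟩
  apply hne
  rw [← h2, ← hg, ← h6, H.map_map, H.map_map, H.map_map,
    ← map_map' (f := k) (g := vl _) fun _ => rfl,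
    (h.acyc_im hr).eq_zero (by omega) (h7.map _), map_zero]

theorem Tube.circle {j : C(Mil n r, X)} (hj : ∀ z, i (j z) = J (v, z.1)) {β : BM X}
    (hβ : Orb.Ori (2 * n) β) {i' : C(X, {e : E // ‖(p e).1‖ = r})} (hi' : ∀ x, (i' x).1 = i x)
    {e : H {e : E // ‖(p e).1‖ = r}} (he : H.IsDeg n e) : H.map j (H.map i' e) = 0 :=
  h.circle_set hn hr hr1 hv hi hj hβ hi' he

end Vale.Agent.P269.Mono
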