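import Vale.Agent.P269.Mono.Triv
import Vale.Agent.P269.Mono.Chart
import Vale.Agent.P269.Mono.PL

set_option linter.unusedSectionVars false

/-!
# P269, monodromy: the Picard-Lefschetz package at a member with one node
-/

namespace Vale.Agent.P269.Mono

open Set Topology Filter Module Function TopologicalSpace Vale.Agent.P291Z Vale.Agent.P291Z.Fl
open scoped ContDiff

variable {M m κ : Type} [NormedAddCommGroup M] [NormedSpace ℂ M] [FiniteDimensional ℂ M]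
  [Fintype m] [Fintype κ] (S : CI M m κ)

theorem nonempty_mil (n : ℕ) {s : ℂ} (hs : ‖s‖ ≤ 1) : (Mil n s).Nonempty := by
  obtain ⟨a, rfl⟩ := IsAlgClosed.exists_pow_nat_eq s two_pos
  exact ⟨Pi.single 0 a, by simp [qf, Fin.sum_univ_succ],
    by simpa [nq, Fin.sum_univ_succ] using hs⟩

/-- the local model of the family near a node -/
structure CI.Nd (n : ℕ) (N : Set M) (c : M → ℂ) (ρ : M × (m → ℂ) → ℝ)
    (J : M × (Fin (n + 1) → ℂ) → Matrix m m ℂ) : Prop where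
  opn : IsOpen N
  cvx : Convex ℝ N
  cc : ContinuousOn c N
  lt : ∀ u ∈ N, ‖c u‖ < 1
  sm : ContDiffOn ℝ ∞ ρ (N ×ˢ {x | x ≠ 0})
  inv : ∀ u ∈ N, ∀ x, x ≠ 0 → ∀ a : ℂ, a ≠ 0 → ρ (u, a • x) = ρ (u, x)
  sub : ∀ u ∈ N, ∀ x, x ≠ 0 → S.ev u x = 0 → 0 ≤ ρ (u, x) → Surjective (fderiv ℂ (S.ev u) x)
  tr : ∀ u ∈ N, ∀ x, x ≠ 0 → S.ev u x = 0 → ρ (u, x) = 0 →
    ∃ v, fderiv ℂ (S.ev u) x v = 0 ∧ fderiv ℝ (fun y => ρ (u, y)) x v ≠ 0
  cJ : ContinuousOn J {p | p.1 ∈ N ∧ p.2 ∈ Mil n (c p.1)}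
  pt : ∀ u ∈ N, InjOn (fun z => J (u, z)) (Mil n (c u)) ∧
    (∀ z ∈ Mil n (c u), J (u, z) ∈ S.X u ∧ (J (u, z) ∈ S.Out ρ u ↔ nq z = 1) ∧
      (J (u, z) ∈ S.Out ρ u → J (u, z) ∈ S.Bd ρ u)) ∧
    ∀ A ∈ S.X u, A ∉ S.Out ρ u ∨ A ∈ S.Bd ρ u → ∃ z ∈ Mil n (c u), J (u, z) = A

namespace CI.Nd

variable {S} {n : ℕ} {N : Set M} {c : M → ℂ} {ρ : M × (m → ℂ) → ℝ}
  {J : M × (Fin (n + 1) → ℂ) → Matrix m m ℂ} (h : S.Nd n N c ρ J)
include h

theorem compactSpace {u : M} (hu : u ∈ N) : CompactSpace (S.Out ρ u) :=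
  isCompact_iff_compactSpace.1 (S.isCompact_Out
    (h.sm.continuousOn.comp (Continuous.prodMk_right u).continuousOn fun _ hx => ⟨hu, hx⟩)
    (h.inv u hu))

theorem tube {B : Type} [TopologicalSpace B] [MetrizableSpace B] [CompactSpace B] {γ : B → M}
    (hγ : Continuous γ) (hN : ∀ b, γ b ∈ N) (b₀ : B) :
    ∃ (J' : B × (Fin (n + 1) → ℂ) → S.XX γ) (Ψ : B × S.Out ρ (γ b₀) → S.XX γ),
      Tube n (S.pr γ) (fun b => c (γ b)) J' Ψ {A | A.1 ∈ S.Bd ρ (γ b₀)} ∧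
      ∀ b, ∀ z ∈ Mil n (c (γ b)), (J' (b, z)).1 = (b, J (γ b, z)) := by
  classical
  obtain ⟨Ψ, h1, h2, h3, h4, h5, -⟩ := S.exists_triv h.opn h.sm h.inv h.sub h.tr hγ (hN b₀)
    fun b => h.cvx.segment_subset (hN b₀) (hN b)
  obtain ⟨z₀, hz₀⟩ := nonempty_mil n (h.lt _ (hN b₀)).le
  let J' : B × (Fin (n + 1) → ℂ) → S.XX γ := fun w =>
    if hw : w.2 ∈ Mil n (c (γ w.1)) then ⟨(w.1, J (γ w.1, w.2)), ((h.pt _ (hN _)).2.1 _ hw).1⟩
    else ⟨(b₀, J (γ b₀, z₀)), ((h.pt _ (hN _)).2.1 _ hz₀).1⟩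
  have e : ∀ w ∈ Tub n fun b => c (γ b), (J' w).1 = (w.1, J (γ w.1, w.2)) := fun w hw =>
    congrArg Subtype.val (dif_pos hw)
  have h6 : ∀ x : S.XX γ, x.1.2 ∉ S.Out ρ (γ x.1.1) ∨ x.1.2 ∈ S.Bd ρ (γ x.1.1) →
      x ∈ J' '' Tub n fun b => c (γ b) := fun x hx => by
    obtain ⟨z, h7, h8⟩ := (h.pt _ (hN _)).2.2 _ x.2 hx
    exact ⟨(x.1.1, z), h7, Subtype.ext ((e (x.1.1, z) h7).trans (Prod.ext rfl h8))⟩
  refine ⟨J', Ψ, ⟨(S.pr γ).continuous, h.cc.comp_continuous hγ hN, ?_, fun w hw w' hw' e' => ?_,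
    fun w hw => congrArg Prod.fst (e w hw), h1, h2, h3,
    fun x => (em _).imp (fun hx => h6 x (.inl hx)) fun hx => (h4 x).2 (not_not.1 hx),
    fun w hw => ?_, fun w => ⟨?_, fun hw => h6 _ (.inr (by rw [h3, h5]; exact hw))⟩⟩,
    fun b z hz => e (b, z) hz⟩
  · rw [IsInducing.subtypeVal.continuousOn_iff]
    have h7 : ContinuousOn (fun w : B × (Fin (n + 1) → ℂ) => J (γ w.1, w.2))
        (Tub n fun b => c (γ b)) :=
      h.cJ.comp (hγ.prodMap continuous_id).continuousOn fun w hw => ⟨hN _, hw⟩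
    exact (continuous_fst.continuousOn.prodMk h7).congr e
  · obtain ⟨e1, e2⟩ := Prod.mk.inj (((e w hw).symm.trans (congrArg Subtype.val e')).trans (e w' hw'))
    obtain ⟨b, z⟩ := w
    obtain ⟨b', z'⟩ := w'
    obtain rfl : b = b' := e1
    exact Prod.ext rfl ((h.pt _ (hN b)).1 hw hw' e2)
  · rw [h4, e w hw]
    exact ((h.pt _ (hN _)).2.1 _ hw).2.1
  · rintro ⟨w', hw', e'⟩
    have h7 := (h4 _).1 (mem_range_self w)
    have h8 := (h5 w).1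
    rw [← h3] at h8
    rw [← e', e w' hw'] at h7 h8
    exact h8 (((h.pt _ (hN _)).2.1 _ hw').2.2 h7)

/-- Classes that vanish on the Milnor fibre extend over compact convex sets of parameters. -/
theorem exists_mil {C : Set M} (hC : IsCompact C) (hc : Convex ℝ C) (hN : C ⊆ N) {u : M}
    (hu : u ∈ C) {s : ℂ} (hs : c u = s) : ∃ j : C(Mil n s, S.X u), (∀ z, (j z).1 = J (u, z.1)) ∧
      ∀ x, H.map j x = 0 → x ∈ S.I C u hu := by
  subst hs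
  have := isCompact_iff_compactSpace.1 hC
  have := h.compactSpace (hN hu)
  have := S.compactSpace_XX (continuous_subtype_val (p := (· ∈ C)))
  obtain ⟨J', Ψ, h1, h2⟩ := h.tube continuous_subtype_val (fun b : C => hN b.2) ⟨u, hu⟩
  let j : C(Mil n (c u), S.X u) := ⟨fun z => ⟨J (u, z.1), ((h.pt _ (hN hu)).2.1 _ z.2).1⟩,
    (h.cJ.comp_continuous ((Continuous.prodMk_right u).comp continuous_subtype_val)
      fun z => ⟨hN hu, z.2⟩).subtype_mk _⟩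
  refine ⟨j, fun _ => rfl, fun x hx => S.mem_I.2 ?_⟩
  exact h1.ext hC hc (S.isFib Subtype.val ⟨u, hu⟩) (j := j)
    (fun z => Subtype.ext (h2 ⟨u, hu⟩ z z.2).symm) hx

end CI.Nd

theorem CI.node [DecidableEq m] [DecidableEq κ] {n : ℕ}
    (hn : Fintype.card m = n + Fintype.card κ + 1) (h1 : 1 ≤ n) {i₀ : m} {j₀ : κ} {y₀ : M}
    (hy : S.Good i₀ j₀ y₀) : ∃ N : Set M, IsOpen N ∧ Convex ℝ N ∧ y₀ ∈ N ∧
      ∀ y ∈ N, y ∉ S.U → ∀ O ∈ 𝓝 y, ∃ (r : ℝ) (hr : 0 < r) (γ : ℂ → M)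
        (hm : ∀ t ∈ Metric.closedBall (0 : ℂ) r, γ t ∈ N),
        ContinuousOn γ (Metric.closedBall 0 r) ∧ γ 0 = y ∧
        (∀ t ∈ Metric.closedBall (0 : ℂ) r, γ t ∈ O ∧ (t ≠ 0 → γ t ∈ S.U)) ∧
        (∀ e : H (S.XX fun t : Metric.closedBall (0 : ℂ) r => γ t), H.IsDeg n e →
          H.map (S.fib (fun t : Metric.closedBall (0 : ℂ) r => γ t)
            ⟨r, by simp [abs_of_pos hr]⟩) e = 0 → e = 0) ∧
        (∃ φ : H (S.X (γ r)) →ₗ[ℂ] ℂ, ∀ x, H.IsDeg n x → φ x = 0 →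
          x ∈ S.I N (γ r) (hm r (by simp [abs_of_pos hr]))) ∧
        ∀ β : BM (S.X (γ r)), Orb.Ori (2 * n) β →
          ∀ e : H (S.XX fun t : Metric.sphere (0 : ℂ) r => γ t), H.IsDeg n e →
            H.map (S.fib (fun t : Metric.sphere (0 : ℂ) r => γ t) ⟨r, by simp [abs_of_pos hr]⟩) e ∈
              S.I N (γ r) (hm r (by simp [abs_of_pos hr])) := by
  obtain ⟨N, c, ρ, J, a1, a2, a3, a4, a5, a6, a7, a8, a9, a10, a11, a12, a13⟩ :=
    S.exists_chart hn hy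
  have h : S.Nd n N c ρ J := ⟨a1, a2, a4, a5, a8, a9, a10, a11, a12, a13⟩
  have := FiniteDimensional.proper ℂ M
  obtain ⟨ε, hε, hC⟩ := Metric.nhds_basis_closedBall.mem_iff.1 (a1.mem_nhds a3)
  have hB := Metric.ball_subset_closedBall (x := y₀) (ε := ε)
  refine ⟨Metric.ball y₀ ε, Metric.isOpen_ball, convex_ball _ _, Metric.mem_ball_self hε,
    fun y b1 b2 O hO => ?_⟩
  obtain ⟨r₀, hr₀, γ, g1, rfl, g3⟩ := a7 y (hC (hB b1))
    (not_not.1 fun e => b2 ((a6 y (hC (hB b1))).2 e))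
  obtain ⟨r, hr, g4⟩ := Metric.nhds_basis_closedBall.mem_iff.1 (inter_mem
    (Metric.closedBall_mem_nhds 0 hr₀) ((g1.continuousAt (Metric.closedBall_mem_nhds 0 hr₀))
      (inter_mem (Metric.isOpen_ball.mem_nhds b1) hO)))
  have hm : ∀ t ∈ Metric.closedBall (0 : ℂ) r, γ t ∈ Metric.ball y₀ ε := fun t ht => (g4 ht).2.1
  have g5 : ContinuousOn γ (Metric.closedBall 0 r) := g1.mono fun t ht => (g4 ht).1
  have g6 : ∀ t ∈ Metric.closedBall (0 : ℂ) r, c (γ t) = t := fun t ht => g3 t (g4 ht).1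
  have g7 : (r : ℂ) ∈ Metric.closedBall (0 : ℂ) r := by simp [abs_of_pos hr]
  have hr1 : r < 1 := by simpa [g6 r g7, abs_of_pos hr] using a5 _ (hC (hB (hm r g7)))
  have g8 : Continuous fun t : Metric.closedBall (0 : ℂ) r => γ t := g5.domRestrict
  have := h.compactSpace (hC (hB (hm r g7)))
  have := S.compactSpace_XX g8
  obtain ⟨J', Ψ, t1, t2⟩ := h.tube g8 (fun t => hC (hB (hm t t.2))) ⟨r, g7⟩
  rw [show (fun t : Metric.closedBall (0 : ℂ) r => c (γ t)) = Subtype.val from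
    funext fun t => g6 t t.2] at t1
  obtain ⟨j, j1, j2⟩ := h.exists_mil (isCompact_closedBall y₀ ε) (convex_closedBall y₀ ε) hC
    (hB (hm r g7)) (g6 r g7)
  have j3 : ∀ x, H.map j x = 0 → x ∈ S.I (Metric.ball y₀ ε) (γ r) (hm r g7) := fun x hx =>
    S.I_anti hB _ (j2 x hx)
  obtain ⟨φ, hφ⟩ := mil_top h1 hr hr1
  have hi := S.isFib (fun t : Metric.closedBall (0 : ℂ) r => γ t) ⟨r, g7⟩
  refine ⟨r, hr, γ, hm, g5, rfl, fun t ht => ⟨(g4 ht).2.2, fun e =>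
    (a6 _ (hC (hB (hm t ht)))).2 (by rwa [g6 t ht])⟩, fun e he h0 => ?_,
    ⟨φ ∘ₗ (H.mapA j).toLinearMap, fun x hx h0 => ?_⟩, fun β hβ e he => ?_⟩
  · exact t1.inj h1 hr hr1 rfl hi he h0
  · exact j3 x (hφ _ (hx.map j) h0)
  refine j3 _ ?_
  let k : C({e : S.XX fun t : Metric.closedBall (0 : ℂ) r => γ t // ‖(S.pr _ e).1‖ = r},
      S.XX fun t : Metric.sphere (0 : ℂ) r => γ t) :=
    ⟨fun e => ⟨(⟨e.1.1.1.1, mem_sphere_zero_iff_norm.2 e.2⟩, e.1.1.2), e.1.2⟩,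
      (((continuous_subtype_val.comp (continuous_subtype_val.comp continuous_subtype_val).fst
        ).subtype_mk _).prodMk (continuous_subtype_val.comp continuous_subtype_val).snd
        ).subtype_mk _⟩
  let i : C(S.X (γ r),
      {e : S.XX fun t : Metric.closedBall (0 : ℂ) r => γ t // ‖(S.pr _ e).1‖ = r}) :=
    ⟨fun x => ⟨⟨(⟨r, g7⟩, x.1), x.2⟩, (Complex.norm_real r).trans (abs_of_pos hr)⟩,
      hi.emb.continuous.subtype_mk _⟩
  rw [← PL.map_map' (f := i) (g := k) fun _ => rfl]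
  exact t1.circle h1 hr hr1 rfl hi (fun z => Subtype.ext
    ((congrArg (Prod.mk _) (j1 z)).trans (t2 ⟨r, g7⟩ z (by rw [g6 r g7]; exact z.2)).symm)) hβ
    (fun _ => rfl) (he.map k)

end Vale.Agent.P269.Mono
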