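import Vale.Agent.P269.Mono.Sys
import Vale.Agent.P269.Mono.Disc
import Vale.Agent.P269.Mono.Glue
import Vale.Agent.P269.Mono.Node

set_option linter.unusedSectionVars false

/-!
# P269, monodromy: gluing over families, local invariant cycles near a node
-/

namespace Vale.Agent.P269.Mono

open Set Topology Filter Module Function TopologicalSpace Vale.Agent.P291Z Vale.Agent.P291Z.Fl

variable {M m κ : Type} [NormedAddCommGroup M] [NormedSpace ℂ M] [FiniteDimensional ℂ M]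
  [Fintype m] [Fintype κ] (S : CI M m κ)

variable {n : ℕ} (hn : Fintype.card m = n + Fintype.card κ + 1)
include hn

theorem CI.glue {B : Type} [TopologicalSpace B] [MetrizableSpace B] [CompactSpace B] {γ : B → M}
    (hγ : Continuous γ) {σ : ∀ u, H (S.X u)} (hd : ∀ b, H.IsDeg n (σ (γ b)))
    (hloc : ∀ b, ∃ N ∈ 𝓝 (γ b), ∃ e : H (S.XS N), ∀ b', γ b' ∈ N → S.sec N e (γ b') = σ (γ b')) :
    ∃ e : H (S.XX γ), H.IsDeg n e ∧ ∀ b, H.map (S.fib γ b) e = σ (γ b) := by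
  have := S.compactSpace_XX hγ
  refine exists_glue (p := S.pr γ) (i := S.fib γ) (S.isFib γ)
    (T := fun j : Fin ((n + 1) / 2) => S.hh γ ^ (j : ℕ)) (d := fun j => 2 * (j : ℕ))
    (fun j => isDeg_pow (xc_deg _) j) (fun j => by positivity) (fun j => by omega)
    (fun b k hk x hx => ?_) (fun b => ?_)
    (fun a _ h => S.lh_injective hn hγ (by omega) (h.trans (map_zero _).symm)) hd fun b => ?_
  · simp only [map_pow, CI.map_fib_hh]
    rcases amb_deg (S.h_deg _) (S.wl hn _ k hk x hx) hx with rfl | ⟨j, c, h, rfl⟩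
    · exact zero_mem _
    · exact Submodule.smul_mem _ _ (Submodule.subset_span ⟨⟨j, by omega⟩, rfl⟩)
  · simp only [map_pow, CI.map_fib_hh]
    refine li_of_deg (fun j => isDeg_pow (S.h_deg _) j) (fun i j h => Fin.ext (by omega))
      fun j h => S.h_pow_ne_zero hn (γ b) ?_
    rw [← Nat.add_sub_cancel' (show (j : ℕ) ≤ n by omega), pow_add, h, zero_mul]
  · obtain ⟨N, hN, e, he⟩ := hloc b
    let g : C(S.pr γ ⁻¹' (γ ⁻¹' N), S.XS N) :=
      ⟨fun p => ⟨(⟨γ p.1.1.1, p.2⟩, p.1.1.2), p.1.2⟩, by fun_prop⟩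
    refine ⟨γ ⁻¹' N, hγ.continuousAt hN, H.map g e, fun b' hb' i' hi => ?_⟩
    rw [← he b' hb', S.sec_of_mem e hb', H.map_map]
    congr 2
    refine ContinuousMap.ext fun x => Subtype.ext (Prod.ext (Subtype.ext ?_) ?_)
    · exact congrArg (fun p => γ p.1.1) (hi x)
    · exact congrArg (fun p => p.1.2) (hi x)

variable [DecidableEq m] [DecidableEq κ] (h1 : 1 ≤ n) {τ : ∀ u v : M, H (S.X u) →ₗ[ℂ] H (S.X v)}
  (T : S.Tau τ) (hO : ∀ u ∈ S.U, ∃ β : BM (S.X u), Orb.Ori (2 * n) β)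
include h1 T hO

theorem CI.node_flat {i₀ : m} {j₀ : κ} {y : M} (hy : S.Good i₀ j₀ y) :
    ∃ N, IsOpen N ∧ Convex ℝ N ∧ y ∈ N ∧
      (∃ u ∈ N ∩ S.U, ∃ φ : H (S.X u) →ₗ[ℂ] ℂ, ∀ x, H.IsDeg n x → φ x = 0 →
        ∃ e, S.sec N e u = x) ∧
      (∀ y' ∈ N, y' ∉ S.U → ∀ O, IsOpen O → y' ∈ O → ∀ σ : ∀ u, H (S.X u),
        Flat (fun a b => τ a b) (O ∩ S.U) σ → (∀ u ∈ O ∩ S.U, H.IsDeg n (σ u)) →
          ∃ u ∈ O ∩ N ∩ S.U, ∃ e, S.sec N e u = σ u) ∧
      ∀ y' ∈ N, ∀ O ∈ 𝓝 y', ∀ (e : H (S.XS N)) (e' : H (S.XS O)), H.IsDeg n e → H.IsDeg n e' →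
        (∀ u ∈ O ∩ N ∩ S.U, S.sec N e u = S.sec O e' u) → S.sec N e y' = S.sec O e' y' := by
  obtain ⟨N, oN, cN, mN, hN⟩ := S.node hn h1 hy
  have k0 : ∀ {r : ℝ}, 0 < r → (r : ℂ) ∈ Metric.closedBall (0 : ℂ) r := fun hr => by
    simp [abs_of_pos hr]
  refine ⟨N, oN, cN, mN, ?_, fun y' hy' hU O oO mO σ hσ hd => ?_, fun y' hy' O hO' e e' d d' h => ?_⟩
  · obtain ⟨w, hw, -⟩ := CI.good_iff.1 hy
    obtain ⟨r, hr, γ, hm, -, -, h2, -, ⟨φ, hφ⟩, -⟩ :=
      hN y mN (fun h => h _ (CI.sing_of_G hw)) univ univ_mem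
    refine ⟨γ r, ⟨hm _ (k0 hr), (h2 _ (k0 hr)).2 (by simpa using hr.ne')⟩, φ, fun x a b => ?_⟩
    obtain ⟨e, he⟩ := S.mem_I.1 (hφ x a b)
    exact ⟨e, (S.sec_of_mem e _).trans he⟩
  · obtain ⟨r, hr, γ, hm, hc, -, h2, -, -, h3⟩ := hN y' hy' hU O (oO.mem_nhds mO)
    have k1 : ∀ t : Metric.sphere (0 : ℂ) r, γ t ∈ O ∩ S.U := fun t =>
      (h2 t (Metric.sphere_subset_closedBall t.2)).imp_right fun h =>
        h (ne_zero_of_mem_sphere hr.ne' t)
    have := FiniteDimensional.proper ℂ M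
    obtain ⟨e, a, b⟩ := S.glue hn (γ := fun t : Metric.sphere (0 : ℂ) r => γ t) (σ := σ)
      (hc.mono Metric.sphere_subset_closedBall).domRestrict (fun t => hd _ (k1 t)) fun t => by
        obtain ⟨ε, hε, hC⟩ := Metric.nhds_basis_closedBall.mem_iff.1
          ((oO.inter S.isOpen_U).mem_nhds (k1 t))
        have k2 := Metric.mem_closedBall_self (x := γ t) hε.le
        obtain ⟨e, he⟩ := (T.bij _ (isCompact_closedBall _ _) (convex_closedBall _ _)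
          (hC.trans inter_subset_right) _ k2).2 (σ (γ t))
        refine ⟨_, Metric.closedBall_mem_nhds _ hε, e, fun t' ht' => ?_⟩
        have k3 := (convex_closedBall (γ t) ε).segment_subset k2 ht'
        rw [S.sec_of_mem e ht', ← T.spec _ _ _ k2 ht'
          (subset_inter k3 (k3.trans (hC.trans inter_subset_right))), he]
        exact hσ _ _ (k3.trans hC)
    have k2 := k1 ⟨r, by simp [abs_of_pos hr]⟩
    obtain ⟨β, hβ⟩ := hO _ k2.2
    obtain ⟨e', he'⟩ := S.mem_I.1 (h3 β hβ e a)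
    exact ⟨γ r, ⟨⟨k2.1, hm _ (k0 hr)⟩, k2.2⟩, e', (S.sec_of_mem e' _).trans (he'.trans (b _))⟩
  · by_cases hU : y' ∈ S.U
    · exact h y' ⟨⟨mem_of_mem_nhds hO', hy'⟩, hU⟩
    obtain ⟨r, hr, γ, hm, hc, rfl, h2, h3, -⟩ := hN y' hy' hU O hO'
    have c1 : Continuous fun t : Metric.closedBall (0 : ℂ) r => γ t := hc.domRestrict
    have k1 : ∀ t : Metric.closedBall (0 : ℂ) r,
        H.map (S.fib (fun t : Metric.closedBall (0 : ℂ) r => γ t) t)
          (H.map (S.toS c1 N fun t => hm t t.2) e - H.map (S.toS c1 O fun t => (h2 t t.2).1) e') =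
          S.sec N e (γ t) - S.sec O e' (γ t) := fun t => by
      rw [map_sub, S.map_fib_toS, S.map_fib_toS, S.sec_of_mem, S.sec_of_mem]
    have k2 := h3 _ ((H.deg _ n).sub_mem (d.map _) (d'.map _)) ((k1 _).trans (sub_eq_zero.2
      (h _ ⟨⟨(h2 _ (k0 hr)).1, hm _ (k0 hr)⟩, (h2 _ (k0 hr)).2 (by simpa using hr.ne')⟩)))
    have k3 := k1 ⟨0, Metric.mem_closedBall_self hr.le⟩
    rw [k2, map_zero] at k3
    exact sub_eq_zero.1 k3.symm

end Vale.Agent.P269.Mono
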