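import Mathlib

/-!
# P269, monodromy: analytic tools for the Morse lemma
-/

namespace Vale.Agent.P269.Mono.Mo

open Set Topology Filter Module Function
open scoped ContDiff

section Ift

variable {M W Z : Type} [NormedAddCommGroup M] [NormedSpace ℂ M] [FiniteDimensional ℂ M]
  [NormedAddCommGroup W] [NormedSpace ℂ W] [FiniteDimensional ℂ W] [NormedAddCommGroup Z]
  [NormedSpace ℂ Z] [FiniteDimensional ℂ Z]

omit [FiniteDimensional ℂ M] in
theorem exists_equiv {L : W →L[ℂ] Z} (h : Injective L) (hd : finrank ℂ W = finrank ℂ Z) :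
    ∃ e : W ≃L[ℂ] Z, (e : W →L[ℂ] Z) = L :=
  ⟨(LinearEquiv.ofBijective (L : W →ₗ[ℂ] Z) ⟨h,
    (LinearMap.injective_iff_surjective_of_finrank_eq_finrank hd).1 h⟩).toContinuousLinearEquiv,
    by ext; rfl⟩

omit [FiniteDimensional ℂ M] [FiniteDimensional ℂ W] [FiniteDimensional ℂ Z] in
theorem hasFDerivAt_right {G : M × W → Z} {u : M} {w : W} (hG : DifferentiableAt ℂ G (u, w)) :
    HasFDerivAt (fun y => G (u, y)) ((fderiv ℂ G (u, w)).comp (ContinuousLinearMap.inr ℂ M W)) w :=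
  hG.hasFDerivAt.comp w (hasFDerivAt_prodMk_right u w)

theorem loc {G : M × W → Z} {u₀ : M} {w₀ : W} (hG : ContDiffAt ℂ ω G (u₀, w₀))
    {L : W →L[ℂ] Z} (hL : HasFDerivAt (fun w => G (u₀, w)) L w₀) (hinj : Injective L)
    (hd : finrank ℂ W = finrank ℂ Z) :
    ∃ Ξ : OpenPartialHomeomorph (M × W) (M × Z), (∀ p, Ξ p = (p.1, G p)) ∧ (u₀, w₀) ∈ Ξ.source ∧
      ContDiffAt ℂ ω Ξ.symm (u₀, G (u₀, w₀)) := by
  have := FiniteDimensional.complete ℂ (M × W)
  have h1 : ContDiffAt ℂ ω (fun p : M × W => (p.1, G p)) (u₀, w₀) := contDiffAt_fst.prodMk hG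
  have h0 := hG.differentiableAt (by simp)
  have h2 : HasFDerivAt (fun p : M × W => (p.1, G p))
      ((ContinuousLinearMap.fst ℂ M W).prod (fderiv ℂ G (u₀, w₀))) (u₀, w₀) :=
    hasFDerivAt_fst.prodMk h0.hasFDerivAt
  have h3 := hL.unique (hasFDerivAt_right h0)
  obtain ⟨e, he⟩ := exists_equiv (L := (ContinuousLinearMap.fst ℂ M W).prod (fderiv ℂ G (u₀, w₀)))
    (by
      rw [injective_iff_map_eq_zero]
      rintro ⟨a, b⟩ h
      obtain ⟨h4, h5⟩ := Prod.mk_eq_zero.1 h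
      obtain rfl : a = 0 := h4
      have h6 : L b = 0 := by rw [h3]; exact h5
      rw [(injective_iff_map_eq_zero L).1 hinj b h6]
      rfl) (by simp [hd])
  rw [← he] at h2
  exact ⟨h1.toOpenPartialHomeomorph _ h2 (by simp), fun _ => rfl,
    h1.mem_toOpenPartialHomeomorph_source h2 _, h1.to_localInverse h2 (by simp)⟩

theorem ift {G : M × W → Z} {u₀ : M} {w₀ : W} (hG : ContDiffAt ℂ ω G (u₀, w₀))
    {L : W →L[ℂ] Z} (hL : HasFDerivAt (fun w => G (u₀, w)) L w₀) (hinj : Injective L)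
    (hd : finrank ℂ W = finrank ℂ Z) :
    ∃ φ : M → W, ContDiffAt ℂ ω φ u₀ ∧ φ u₀ = w₀ ∧ ∀ᶠ u in 𝓝 u₀, G (u, φ u) = G (u₀, w₀) := by
  obtain ⟨Ξ, h1, h2, h3⟩ := loc hG hL hinj hd
  have h4 : ContDiffAt ℂ ω (fun u : M => (u, G (u₀, w₀))) u₀ :=
    contDiffAt_id.prodMk contDiffAt_const
  refine ⟨fun u => (Ξ.symm (u, G (u₀, w₀))).2, (h3.comp u₀ h4).snd, ?_, ?_⟩
  · have h5 := Ξ.left_inv h2
    rw [h1] at h5
    simp only [h5]
  · have h5 := Ξ.map_source h2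
    rw [h1] at h5
    filter_upwards [h4.continuousAt.preimage_mem_nhds (Ξ.open_target.mem_nhds h5)] with u hu
    have h6 := Ξ.right_inv hu
    rw [h1] at h6
    obtain ⟨h7, h8⟩ := Prod.mk.inj h6
    refine Eq.trans ?_ h8
    congr 1
    exact Prod.ext h7.symm rfl

end Ift

/-- the standard bilinear form -/
noncomputable def bq (m : ℕ) : (Fin m → ℂ) →L[ℂ] (Fin m → ℂ) →L[ℂ] ℂ :=
  ∑ i, (ContinuousLinearMap.proj i : (Fin m → ℂ) →L[ℂ] ℂ).smulRight (ContinuousLinearMap.proj i)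

theorem bq_apply {m : ℕ} (a b : Fin m → ℂ) : bq m a b = ∑ i, a i * b i := by
  simp [bq]

theorem bq_comm {m : ℕ} (a b : Fin m → ℂ) : bq m a b = bq m b a := by
  simp [bq_apply, mul_comm]

theorem root_aux {K K' : Type} [NormedAddCommGroup K] [NormedSpace ℂ K] [NormedAddCommGroup K']
    [NormedSpace ℂ K'] (q : K →L[ℂ] K') (fl : (K →L[ℂ] K') →L[ℂ] K →L[ℂ] K') :
    ∃ (Θ : (K →L[ℂ] K) → K →L[ℂ] K') (L : (K →L[ℂ] K) →L[ℂ] K →L[ℂ] K'),
    ContDiff ℂ ω Θ ∧ HasFDerivAt Θ L (ContinuousLinearMap.id ℂ K) ∧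
    (∀ R a, Θ R a = fl (q.comp R) (R a) + (q (R a) - fl (q.comp R) a)) ∧ ∀ D a, L D a =
        fl q (D a) + fl (q.comp D) a + (q (D a) - fl (q.comp D) a) := by
  let l₁ : (K →L[ℂ] K) →L[ℂ] K →L[ℂ] K' := ContinuousLinearMap.compL ℂ K K K' q
  let l₂ := fl.comp l₁
  have d0 : HasFDerivAt (fun R : K →L[ℂ] K => R) (ContinuousLinearMap.id ℂ _)
      (ContinuousLinearMap.id ℂ K) := hasFDerivAt_id _
  have d1 := ((l₂.hasFDerivAt (x := ContinuousLinearMap.id ℂ K)).clm_comp d0)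
  have d2 := (l₁ - l₂).hasFDerivAt (x := ContinuousLinearMap.id ℂ K)
  have c1 : ContDiff ℂ ω (fun R : K →L[ℂ] K => (l₂ R).comp R) := l₂.contDiff.clm_comp contDiff_id
  exact ⟨_, _, c1.add (l₁ - l₂).contDiff, d1.fun_add d2, fun _ _ => rfl, fun _ _ => rfl⟩

theorem root_aux₂ {K : Type} [NormedAddCommGroup K] [NormedSpace ℂ K] (q : K →L[ℂ] K →L[ℂ] ℂ) :
    ∃ (Θ : (K →L[ℂ] K) → K →L[ℂ] K →L[ℂ] ℂ) (L : (K →L[ℂ] K) →L[ℂ] K →L[ℂ] K →L[ℂ] ℂ),
    ContDiff ℂ ω Θ ∧ HasFDerivAt Θ L (ContinuousLinearMap.id ℂ K) ∧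
    (∀ R a b, Θ R a b = q (R b) (R a) + (q (R a) b - q (R b) a)) ∧ ∀ D a b, L D a b =
        q b (D a) + q (D b) a + (q (D a) b - q (D b) a) := by
  obtain ⟨Θ, L, h1, h2, h3, h4⟩ :=
    root_aux q (ContinuousLinearMap.flipₗᵢ ℂ K K ℂ).toContinuousLinearEquiv
  exact ⟨Θ, L, h1, h2, fun R a b => by rw [h3]; rfl, fun R a b => by rw [h4]; rfl⟩

/-- square roots of families of quadratic forms -/
theorem exists_root {X : Type} [NormedAddCommGroup X] [NormedSpace ℂ X] [FiniteDimensional ℂ X]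
    {m : ℕ} {T : X → (Fin m → ℂ) →L[ℂ] (Fin m → ℂ) →L[ℂ] ℂ} {x₀ : X} (hT : ContDiffAt ℂ ω T x₀)
    (h : ∀ a, T x₀ a a = ∑ i, a i ^ 2) :
    ∃ R : X → (Fin m → ℂ) →L[ℂ] (Fin m → ℂ), ContDiffAt ℂ ω R x₀ ∧
      R x₀ = ContinuousLinearMap.id ℂ _ ∧ ∀ᶠ x in 𝓝 x₀, ∀ a, ∑ i, R x a i ^ 2 = T x a a := by
  let K := Fin m → ℂ
  obtain ⟨Θ, L, c1, d1, hΘ, d2⟩ := root_aux₂ (bq m)
  have c2 : ContDiffAt ℂ ω (fun p : X × (K →L[ℂ] K) => Θ p.2) (x₀, ContinuousLinearMap.id ℂ K) :=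
    (c1.comp contDiff_snd).contDiffAt
  have c3 : ContDiffAt ℂ ω (fun p : X × (K →L[ℂ] K) => T p.1) (x₀, ContinuousLinearMap.id ℂ K) :=
    ContDiffAt.comp (g := T) _ hT contDiffAt_fst
  obtain ⟨R, h1, h2, h3⟩ := ift (G := fun p : X × (K →L[ℂ] K) => Θ p.2 - T p.1) (u₀ := x₀)
    (w₀ := ContinuousLinearMap.id ℂ K) (c2.sub c3) (d1.sub_const (T x₀))
    (by
      rw [injective_iff_map_eq_zero]
      intro D hD
      ext a i
      have h5 : bq m (Pi.single i 1) (D a) + bq m (D (Pi.single i 1)) a +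
          (bq m (D a) (Pi.single i 1) - bq m (D (Pi.single i 1)) a) = 0 := by
        rw [← d2, hD]
        rfl
      rw [bq_comm _ (D a), bq_apply (D a)] at h5
      simp only [Pi.single_apply, mul_ite, mul_one, mul_zero, Finset.sum_ite_eq',
        Finset.mem_univ, if_true] at h5
      show D a i = 0
      linear_combination h5 / 2)
    (by
      rw [← LinearEquiv.finrank_eq (LinearMap.toContinuousLinearMap (𝕜 := ℂ) (E := K) (F' := K)),
        ← LinearEquiv.finrank_eq (LinearMap.toContinuousLinearMap (𝕜 := ℂ) (E := K)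
          (F' := K →L[ℂ] ℂ)), finrank_linearMap, finrank_linearMap,
        ← LinearEquiv.finrank_eq (LinearMap.toContinuousLinearMap (𝕜 := ℂ) (E := K) (F' := ℂ)),
        finrank_linearMap, finrank_self, mul_one])
  refine ⟨R, h1, h2, ?_⟩
  filter_upwards [h3] with x hx a
  have h4 : Θ (R x) a a - T x a a = Θ (ContinuousLinearMap.id ℂ K) a a - T x₀ a a :=
    congrArg (fun S : K →L[ℂ] K →L[ℂ] ℂ => S a a) hx
  rw [hΘ, hΘ, h, sub_self, sub_self, bq_apply, bq_apply] at h4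
  have h5 : ∑ i, R x a i * R x a i + 0 - T x a a = ∑ i, a i * a i + 0 - ∑ i, a i ^ 2 := h4
  simp only [sq] at h5 ⊢
  linear_combination h5

/-- a local section of a submersion to the line -/
theorem exists_path {M : Type} [NormedAddCommGroup M] [NormedSpace ℂ M] {c : M → ℂ} {y u : M}
    (hc : ContDiffAt ℂ ω c y) (hu : fderiv ℂ c y u ≠ 0) (h0 : c y = 0) :
    ∃ r > 0, ∃ γ : ℂ → M, ContinuousOn γ (Metric.closedBall 0 r) ∧ γ 0 = y ∧
      ∀ t ∈ Metric.closedBall (0 : ℂ) r, c (γ t) = t := by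
  have h1 : ContDiffAt ℂ ω (fun t : ℂ => c (y + t • u)) 0 :=
    ContDiffAt.comp 0 (by simpa using hc) (contDiffAt_const.add (contDiffAt_id.smul contDiffAt_const))
  have h2 : HasDerivAt (fun t : ℂ => y + t • u) u 0 := by
    simpa using ((hasDerivAt_id (0 : ℂ)).smul_const u).const_add y
  have h3 : HasDerivAt (fun t : ℂ => c (y + t • u)) (fderiv ℂ c y u) 0 :=
    (hc.differentiableAt (by simp)).hasFDerivAt.comp_hasDerivAt_of_eq 0 h2 (by simp)
  let φ := h1.toOpenPartialHomeomorph _ (h3.hasFDerivAt_equiv hu) (by simp)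
  have h4 : (0 : ℂ) ∈ φ.source := h1.mem_toOpenPartialHomeomorph_source _ _
  have h5 : φ 0 = 0 := by
    show c (y + (0 : ℂ) • u) = 0
    simpa using h0
  obtain ⟨r, hr, h6⟩ := Metric.nhds_basis_closedBall.mem_iff.1
    (φ.open_target.mem_nhds (h5 ▸ φ.map_source h4))
  refine ⟨r, hr, fun t => y + φ.symm t • u,
    continuousOn_const.add ((φ.continuousOn_symm.mono h6).smul continuousOn_const), ?_,
    fun t ht => φ.right_inv (h6 ht)⟩
  have h7 := φ.left_inv h4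
  rw [h5] at h7
  simp [h7]

/-- linear coordinates adapted to a nondegenerate form on the kernel -/
theorem exists_coord {E Y : Type} [NormedAddCommGroup E] [NormedSpace ℂ E] [FiniteDimensional ℂ E]
    [NormedAddCommGroup Y] [NormedSpace ℂ Y] [FiniteDimensional ℂ Y] {A : E →L[ℂ] Y}
    (hA : Surjective A) {S : E →L[ℂ] E →L[ℂ] ℂ}
    (hS : ∀ k, A k = 0 → (∀ k', A k' = 0 → S k k' + S k' k = 0) → k = 0) {m : ℕ}
    (hm : finrank ℂ E = m + finrank ℂ Y) :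
    ∃ (Q : E →L[ℂ] (Fin m → ℂ)) (e : E ≃L[ℂ] (Fin m → ℂ) × Y), (e : E →L[ℂ] _) = Q.prod A ∧
      ∀ a, S (e.symm (a, 0)) (e.symm (a, 0)) = ∑ i, a i ^ 2 := by
  let K := LinearMap.ker (A : E →ₗ[ℂ] Y)
  have h1 : finrank ℂ K = m := by
    have h2 := LinearMap.finrank_range_add_finrank_ker (A : E →ₗ[ℂ] Y)
    rw [LinearMap.range_eq_top.2 hA, finrank_top] at h2
    change finrank ℂ Y + finrank ℂ K = _ at h2
    omega
  subst h1
  let B : LinearMap.BilinForm ℂ K := S.toLinearMap₁₂.domRestrict₁₂ K K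
  obtain ⟨g⟩ := QuadraticForm.equivalent_weightedSumSquares_of_isAlgClosed B.toQuadraticMap (by
    intro k hk
    refine Subtype.ext (hS k.1 k.2 fun k' hk' => ?_)
    have h2 := hk ⟨k', hk'⟩
    rw [QuadraticMap.associated_toQuadraticMap] at h2
    have h3 : (⅟2 : Module.End ℂ ℂ) (S k k' + S k' k) = 0 := h2
    have h4 := congrArg (2 : Module.End ℂ ℂ) h3
    rwa [← Module.End.mul_apply, mul_invOf_self, map_zero, Module.End.one_apply] at h4)
  obtain ⟨Q, hQ⟩ := LinearMap.exists_extend g.toLinearEquiv.toLinearMap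
  have hQ' : ∀ k : K, Q k = g k := fun k => LinearMap.congr_fun hQ k
  obtain ⟨e, he⟩ := exists_equiv (L := (LinearMap.toContinuousLinearMap Q).prod A) (by
    rw [injective_iff_map_eq_zero]
    intro k hk
    obtain ⟨h2, h3⟩ := Prod.mk_eq_zero.1 hk
    have h4 : g ⟨k, h3⟩ = 0 := (hQ' ⟨k, h3⟩).symm.trans h2
    exact congrArg Subtype.val ((map_eq_zero_iff _ g.injective).1 h4)) (by simp [hm])
  refine ⟨_, e, he, fun a => ?_⟩
  have h2 : e.symm (a, 0) = (g.symm a : K) := by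
    rw [ContinuousLinearEquiv.symm_apply_eq, ← e.coe_coe, he]
    refine Prod.ext ?_ (g.symm a).2.symm
    show a = Q (g.symm a : K)
    rw [hQ']
    exact (g.apply_symm_apply a).symm
  have h3 := g.map_app (g.symm a)
  have h4 : g (g.symm a) = a := g.apply_symm_apply a
  rw [h4] at h3
  rw [h2]
  refine Eq.trans h3.symm ?_
  simp [QuadraticMap.weightedSumSquares_apply, sq]

end Vale.Agent.P269.Mono.Mo
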