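import Vale.Agent.P269.Mono.Defs
import Vale.Agent.P269.Mono.MorseA

/-!
# P269, monodromy: second order expansions of polynomial maps
-/

namespace Vale.Agent.P269.Mono.Mo

open Set Topology Filter Module Function
open scoped ContDiff

theorem contDiffAt_clm {X F G : Type} [NormedAddCommGroup X] [NormedSpace ℂ X]
    [NormedAddCommGroup F] [NormedSpace ℂ F] [FiniteDimensional ℂ F] [NormedAddCommGroup G]
    [NormedSpace ℂ G] {f : X → F →L[ℂ] G} {x : X} (h : ∀ y, ContDiffAt ℂ ω (fun x => f x y) x) :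
    ContDiffAt ℂ ω f x := by
  let e₁ : F ≃L[ℂ] (Fin (finrank ℂ F) → ℂ) :=
    ContinuousLinearEquiv.ofFinrankEq (finrank_fin_fun ℂ).symm
  let e₂ := (e₁.arrowCongr (1 : G ≃L[ℂ] G)).trans (ContinuousLinearEquiv.piRing (Fin (finrank ℂ F)))
  rw [← id_comp f, ← e₂.symm_comp_self]
  exact e₂.symm.contDiff.contDiffAt.comp x (contDiffAt_pi.mpr fun i => h _)

theorem finrank_dual (F : Type) [NormedAddCommGroup F] [NormedSpace ℂ F] [FiniteDimensional ℂ F] :
    finrank ℂ (F →L[ℂ] ℂ) = finrank ℂ F := by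
  rw [← LinearEquiv.finrank_eq (LinearMap.toContinuousLinearMap (𝕜 := ℂ) (E := F) (F' := ℂ)),
    finrank_linearMap, finrank_self, mul_one]

theorem contDiff_smul' {X W : Type} [NormedAddCommGroup X] [NormedSpace ℂ X]
    [NormedAddCommGroup W] [NormedSpace ℂ W] {a : X → ℂ} {b : X → W} (ha : ContDiff ℂ ω a)
    (hb : ContDiff ℂ ω b) : ContDiff ℂ ω fun x => a x • b x := ha.smul hb

section Hada

variable {V Y : Type} [NormedAddCommGroup V] [NormedSpace ℂ V] [NormedAddCommGroup Y]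
  [NormedSpace ℂ Y] [FiniteDimensional ℂ Y]

theorem hada {f : V → ℂ} (hf : f ∈ Pol V) : ∃ S : V × V → V →L[ℂ] V →L[ℂ] ℂ, ContDiff ℂ ω S ∧
    ∀ y h, f (y + h) = f y + fderiv ℂ f y h + S (y, h) h h := by
  refine (pol_induction (P := fun f => ContDiff ℂ ω f ∧ ∃ S : V × V → V →L[ℂ] V →L[ℂ] ℂ,
    ContDiff ℂ ω S ∧ ∀ y h, f (y + h) = f y + fderiv ℂ f y h + S (y, h) h h) ?_ ?_ ?_ ?_ hf).2
  · exact fun ℓ => ⟨ℓ.contDiff, fun _ => 0, contDiff_const, fun y h => by simp⟩
  · exact fun c => ⟨contDiff_const, fun _ => 0, contDiff_const, fun y h => by simp⟩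
  · rintro f g ⟨hf, S, hS, h1⟩ ⟨hg, S', hS', h2⟩
    refine ⟨hf.add hg, fun p => S p + S' p, hS.add hS', fun y h => ?_⟩
    rw [fderiv_add (hf.differentiable (by simp) y) (hg.differentiable (by simp) y)]
    simp only [Pi.add_apply, add_apply, h1, h2]
    ring
  · rintro f g ⟨hf, S, hS, h1⟩ ⟨hg, S', hS', h2⟩
    have df : ContDiff ℂ ω fun p : V × V => fderiv ℂ f p.1 :=
      (hf.fderiv_right (m := ω) (by simp)).comp contDiff_fst
    have dg : ContDiff ℂ ω fun p : V × V => fderiv ℂ g p.1 :=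
      (hg.fderiv_right (m := ω) (by simp)).comp contDiff_fst
    refine ⟨hf.mul hg, fun p => f p.1 • S' p + g p.1 • S p +
      (fderiv ℂ f p.1).smulRight (fderiv ℂ g p.1) + fderiv ℂ f p.1 p.2 • S' p +
      (fderiv ℂ g p.1 p.2 + S' p p.2 p.2) • S p, ?_, fun y h => ?_⟩
    · exact ((((contDiff_smul' (hf.comp contDiff_fst) hS').add
        (contDiff_smul' (hg.comp contDiff_fst) hS)).add (df.smulRight dg)).add
        (contDiff_smul' (df.clm_apply contDiff_snd) hS')).add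
        (contDiff_smul' ((dg.clm_apply contDiff_snd).add
          ((hS'.clm_apply contDiff_snd).clm_apply contDiff_snd)) hS)
    · rw [fderiv_mul (hf.differentiable (by simp) y) (hg.differentiable (by simp) y)]
      simp only [Pi.mul_apply, add_apply, smul_apply,
        ContinuousLinearMap.smulRight_apply, smul_eq_mul, h1, h2]
      ring

theorem contDiff_vec {f : V → Y} (hf : ∀ ν : Y →L[ℂ] ℂ, (fun p => ν (f p)) ∈ Pol V) :
    ContDiff ℂ ω f := by
  let b := Module.finBasis ℂ Y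
  have h : f = fun p => ∑ i, LinearMap.toContinuousLinearMap (b.coord i) (f p) • b i :=
    funext fun p => (b.sum_repr (f p)).symm
  rw [h]
  exact ContDiff.sum fun i _ => (pol_contDiff (hf _)).smul contDiff_const

theorem hada_vec [FiniteDimensional ℂ V] {f : V → Y}
    (hf : ∀ ν : Y →L[ℂ] ℂ, (fun p => ν (f p)) ∈ Pol V) :
    ∃ S : V × V → V →L[ℂ] V →L[ℂ] Y, ContDiff ℂ ω S ∧
      ∀ y h, f (y + h) = f y + fderiv ℂ f y h + S (y, h) h h := by
  let b := Module.finBasis ℂ Y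
  choose S hS h1 using fun i => hada (hf (LinearMap.toContinuousLinearMap (b.coord i)))
  let S' : V × V → V →L[ℂ] V →L[ℂ] Y := fun p => ∑ i, (ContinuousLinearMap.compL ℂ V ℂ Y
    (ContinuousLinearMap.toSpanSingleton ℂ (b i))).comp (S i p)
  have h2 : ∀ p v w, S' p v w = ∑ i, S i p v w • b i := fun p v w => by
    simp [S', ContinuousLinearMap.toSpanSingleton_apply]
  refine ⟨S', contDiff_iff_contDiffAt.2 fun p => contDiffAt_clm fun v => contDiffAt_clm fun w => ?_,
    fun y h => b.ext_elem fun i => ?_⟩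
  · simp only [h2]
    exact (ContDiff.sum fun i _ => (((hS i).clm_apply contDiff_const).clm_apply
      contDiff_const).smul contDiff_const).contDiffAt
  · have h3 := h1 i y h
    have h4 := ((LinearMap.toContinuousLinearMap (b.coord i)).hasFDerivAt.comp y
      ((contDiff_vec hf).differentiable (by simp) y).hasFDerivAt).fderiv
    rw [show (fun p => LinearMap.toContinuousLinearMap (b.coord i) (f p)) =
      LinearMap.toContinuousLinearMap (b.coord i) ∘ f from rfl, h4] at h3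
    rw [h2, map_add, map_add, Finsupp.add_apply, Finsupp.add_apply,
      congrFun (b.repr_sum_self fun i => S i (y, h) h h) i]
    exact h3

end Hada

section Pair

variable {M E Y : Type} [NormedAddCommGroup M] [NormedSpace ℂ M] [FiniteDimensional ℂ M]
  [NormedAddCommGroup E] [NormedSpace ℂ E] [FiniteDimensional ℂ E] [NormedAddCommGroup Y]
  [NormedSpace ℂ Y] [FiniteDimensional ℂ Y] {f₀ : M × E → ℂ} {f' : M × E → Y}

omit [FiniteDimensional ℂ M] [FiniteDimensional ℂ E] [FiniteDimensional ℂ Y] in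
theorem fderiv_snd {f : M × E → Y} (hf : ContDiff ℂ ω f) (u : M) (y : E) :
    fderiv ℂ (fun y => f (u, y)) y = (fderiv ℂ f (u, y)).comp (ContinuousLinearMap.inr ℂ M E) :=
  (hasFDerivAt_right (hf.differentiable (by simp) _)).fderiv

theorem hada_pair (h₀ : f₀ ∈ Pol (M × E)) (h' : ∀ ν : Y →L[ℂ] ℂ, (fun p => ν (f' p)) ∈ Pol (M × E)) :
    ∃ (A : (M × E) × E → E →L[ℂ] Y) (S : ((M × E) × E) × (Y →L[ℂ] ℂ) → E →L[ℂ] E →L[ℂ] ℂ),
      ContDiff ℂ ω A ∧ ContDiff ℂ ω S ∧ (∀ u y, A ((u, y), 0) = fderiv ℂ (fun y => f' (u, y)) y) ∧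
      (∀ u y η, f' (u, y + η) = f' (u, y) + A ((u, y), η) η) ∧
      ∀ u y η (μ : Y →L[ℂ] ℂ), f₀ (u, y + η) + μ (f' (u, y + η)) = f₀ (u, y) + μ (f' (u, y)) +
        (cr f₀ f' u (y, μ)).1 η + S (((u, y), η), μ) η η := by
  obtain ⟨S₀, c₀, e₀⟩ := hada h₀
  obtain ⟨S', c', e'⟩ := hada_vec h'
  have d₀ : ContDiff ℂ ω f₀ := pol_contDiff h₀
  have d' := contDiff_vec h'
  let ι := ContinuousLinearMap.inr ℂ M E
  have hz : ContDiff ℂ ω fun q : (M × E) × E => (q.1, ι q.2) :=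
    contDiff_fst.prodMk (ι.contDiff.comp contDiff_snd)
  let S : ((M × E) × E) × (Y →L[ℂ] ℂ) → E →L[ℂ] E →L[ℂ] ℂ := fun q =>
    (S₀ (q.1.1, ι q.1.2) + (ContinuousLinearMap.compL ℂ (M × E) Y ℂ q.2).comp
      (S' (q.1.1, ι q.1.2))).bilinearComp ι ι
  have hS : ∀ q a b, S q a b = S₀ (q.1.1, ι q.1.2) (ι a) (ι b) +
      q.2 (S' (q.1.1, ι q.1.2) (ι a) (ι b)) := fun _ _ _ => rfl
  have e : ∀ (u : M) (y η : E), (u, y + η) = (u, y) + ι η := fun u y η => by simp [ι]
  refine ⟨fun q => (fderiv ℂ f' q.1 + S' (q.1, ι q.2) (ι q.2)).comp ι, S, ?_,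
    contDiff_iff_contDiffAt.2 fun p => contDiffAt_clm fun v => contDiffAt_clm fun w => ?_,
    fun u y => ?_, fun u y η => ?_, fun u y η μ => ?_⟩
  · exact (((d'.fderiv_right (m := ω) (by simp)).comp contDiff_fst).add
      ((c'.comp hz).clm_apply (ι.contDiff.comp contDiff_snd))).clm_comp contDiff_const
  · simp only [hS]
    exact (((((c₀.comp hz).comp contDiff_fst).clm_apply contDiff_const).clm_apply
      contDiff_const).add (contDiff_snd.clm_apply ((((c'.comp hz).comp contDiff_fst).clm_apply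
        contDiff_const).clm_apply contDiff_const))).contDiffAt
  · rw [fderiv_snd d']
    simp only [map_zero, add_zero, ι]
  · rw [e, e', add_assoc]
    rfl
  · rw [e, e₀, e', hS]
    simp only [cr, fderiv_snd d₀, fderiv_snd d', map_add, add_apply,
      ContinuousLinearMap.comp_apply, ι]
    ring

omit [FiniteDimensional ℂ M] [FiniteDimensional ℂ E] [FiniteDimensional ℂ Y] in
theorem contDiff_cr (d₀ : ContDiff ℂ ω f₀) (d' : ContDiff ℂ ω f') :
    ContDiff ℂ ω fun p : M × E × (Y →L[ℂ] ℂ) => cr f₀ f' p.1 p.2 := by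
  have hz : ContDiff ℂ ω fun p : M × E × (Y →L[ℂ] ℂ) => (p.1, p.2.1) :=
    contDiff_fst.prodMk contDiff_snd.fst
  simp only [cr, fderiv_snd d₀, fderiv_snd d']
  exact ((((d₀.fderiv_right (m := ω) (by simp)).comp hz).clm_comp contDiff_const).add
    (contDiff_snd.snd.clm_comp (((d'.fderiv_right (m := ω) (by simp)).comp hz).clm_comp
      contDiff_const))).prodMk (d'.comp hz)

omit [FiniteDimensional ℂ E] in
theorem hess {ℓ : E → ℂ} (hℓ : ContDiff ℂ ω ℓ) {s : E → E →L[ℂ] E →L[ℂ] ℂ} (hs : ContDiff ℂ ω s)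
    {y : E} (h : ∀ η, ℓ (y + η) = ℓ y + fderiv ℂ ℓ y η + s η η η) (k k' : E) :
    fderiv ℂ (fderiv ℂ ℓ) y k k' = s 0 k k' + s 0 k' k := by
  have hd : ∀ k, fderiv ℂ (fderiv ℂ ℓ) y k k = 2 * s 0 k k := fun k => by
    have l1 : ∀ t : ℂ, HasDerivAt (fun t : ℂ => y + t • k) k t := fun t => by
      simpa using ((hasDerivAt_id t).smul_const k).const_add y
    have c1 : ContDiff ℂ ω fun t : ℂ => s (t • k) k k :=
      ((hs.comp (contDiff_id.smul contDiff_const)).clm_apply contDiff_const).clm_apply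
        contDiff_const
    set σ : ℂ → ℂ := fun t => s (t • k) k k with hσ
    have c2 : Differentiable ℂ σ := c1.differentiable (by simp)
    have c3 : Differentiable ℂ (deriv σ) := c2.deriv
    have e1 : (fun t : ℂ => ℓ (y + t • k)) = fun t => ℓ y + t * fderiv ℂ ℓ y k + t * t * σ t :=
      funext fun t => by rw [h]; simp [hσ, mul_assoc]
    have e2 : (fun t : ℂ => fderiv ℂ ℓ (y + t • k) k) =
        fun t => fderiv ℂ ℓ y k + t * (2 * σ t + t * deriv σ t) := funext fun t => by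
      have a1 : HasDerivAt (fun t : ℂ => ℓ (y + t • k)) (fderiv ℂ ℓ (y + t • k) k) t :=
        (hℓ.differentiable (by simp) _).hasFDerivAt.comp_hasDerivAt t (l1 t)
      rw [e1] at a1
      have a2 := (((hasDerivAt_id' t).mul_const (fderiv ℂ ℓ y k)).const_add (ℓ y)).fun_add
        (((hasDerivAt_id' t).fun_mul (hasDerivAt_id' t)).fun_mul (c2 t).hasDerivAt)
      rw [a1.unique a2]
      ring
    have a1 : HasDerivAt (fun t : ℂ => fderiv ℂ ℓ (y + t • k)) (fderiv ℂ (fderiv ℂ ℓ) y k) 0 :=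
      ((hℓ.fderiv_right (m := ω) (by simp)).differentiable (by simp)
        y).hasFDerivAt.comp_hasDerivAt_of_eq 0 (l1 0) (by simp)
    have a2 := a1.clm_apply (hasDerivAt_const (0 : ℂ) k)
    rw [e2] at a2
    have a3 := ((hasDerivAt_id' (0 : ℂ)).fun_mul (((c2 0).hasDerivAt.const_mul 2).fun_add
      ((hasDerivAt_id' (0 : ℂ)).fun_mul (c3 0).hasDerivAt))).const_add (fderiv ℂ ℓ y k)
    simpa [hσ] using a2.unique a3
  have h1 := hd (k + k')
  have h2 := (hℓ.contDiffAt (x := y)).isSymmSndFDerivAt_of_omega k' k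
  simp only [map_add, add_apply, hd, h2] at h1
  linear_combination h1 / 2

omit [FiniteDimensional ℂ M] [FiniteDimensional ℂ E] [FiniteDimensional ℂ Y] in
theorem fderiv_cr (d₀ : ContDiff ℂ ω f₀) (d' : ContDiff ℂ ω f') (u : M) (y : E) (μ : Y →L[ℂ] ℂ)
    (k : E) (ν : Y →L[ℂ] ℂ) : fderiv ℂ (cr f₀ f' u) (y, μ) (k, ν) =
      (fderiv ℂ (fderiv ℂ fun y => f₀ (u, y) + μ (f' (u, y))) y k +
        ν.comp (fderiv ℂ (fun y => f' (u, y)) y), fderiv ℂ (fun y => f' (u, y)) y k) := by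
  have c₀ : ContDiff ℂ ω fun y => f₀ (u, y) := d₀.comp (contDiff_const.prodMk contDiff_id)
  have c' : ContDiff ℂ ω fun y => f' (u, y) := d'.comp (contDiff_const.prodMk contDiff_id)
  have c1 : ContDiff ℂ ω fun y => f₀ (u, y) + μ (f' (u, y)) := c₀.add (μ.contDiff.comp c')
  have e : cr f₀ f' u = fun w => (fderiv ℂ (fun y => f₀ (u, y) + μ (f' (u, y))) w.1 +
      (w.2 - μ).comp (fderiv ℂ (fun y => f' (u, y)) w.1), f' (u, w.1)) := funext fun w => by
    have a1 := ((c₀.differentiable (by simp) w.1).hasFDerivAt.fun_add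
      (μ.hasFDerivAt.comp w.1 (c'.differentiable (by simp) w.1).hasFDerivAt)).fderiv
    simp only [Function.comp_def] at a1
    rw [a1, cr, ContinuousLinearMap.sub_comp]
    congr 1
    abel
  have b1 : HasFDerivAt (fun w : E × (Y →L[ℂ] ℂ) =>
      fderiv ℂ (fun y => f₀ (u, y) + μ (f' (u, y))) w.1) _ (y, μ) :=
    ((c1.fderiv_right (m := ω) (by simp)).differentiable (by simp) y).hasFDerivAt.comp (y, μ)
      hasFDerivAt_fst
  have b2 : HasFDerivAt (fun w : E × (Y →L[ℂ] ℂ) => fderiv ℂ (fun y => f' (u, y)) w.1) _ (y, μ) :=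
    ((c'.fderiv_right (m := ω) (by simp)).differentiable (by simp) y).hasFDerivAt.comp (y, μ)
      hasFDerivAt_fst
  have b3 : HasFDerivAt (fun w : E × (Y →L[ℂ] ℂ) => f' (u, w.1)) _ (y, μ) :=
    HasFDerivAt.comp (g := fun y => f' (u, y)) (y, μ) (c'.differentiable (by simp) y).hasFDerivAt
      hasFDerivAt_fst
  have b4 : HasFDerivAt (fun w : E × (Y →L[ℂ] ℂ) => w.2 - μ) _ (y, μ) :=
    (hasFDerivAt_snd (𝕜 := ℂ) (E := E) (F := Y →L[ℂ] ℂ)).sub_const μ
  rw [e, ((b1.fun_add (b4.clm_comp b2)).prodMk b3).fderiv]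
  simp

end Pair

end Vale.Agent.P269.Mono.Mo
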