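import Vale.Agent.P269.Mono.PL0

/-!
# P269, monodromy: the Milnor fibre of a node is a sphere (helper40)
-/

namespace Vale.Agent.P269.Mono.PL

open Set Topology Filter Module Function TopologicalSpace Vale.Agent.P291Z Vale.Agent.P291Z.Fl
  Metric

/-- the cohomology is at most the cohomology of a sphere of dimension `n` -/
def Sph (W : Type) [TopologicalSpace W] (n : ℤ) : Prop :=
  ∃ φ : H W →ₗ[ℂ] ℂ, (∀ a, φ a = 0 → ∃ z : ℂ, a = z • 1) ∧
    ∀ k, k ≠ n → ∀ a, H.IsDeg k a → φ a = 0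

theorem Sph.of_inj {S W : Type} [TopologicalSpace S] [TopologicalSpace W] {n : ℤ} (h : Sph S n)
    {f : C(S, W)} (hf : Injective (H.map f)) : Sph W n := by
  obtain ⟨φ, h1, h2⟩ := h
  refine ⟨φ ∘ₗ (H.mapA f).toLinearMap, fun a ha => ?_, fun k hk a ha => h2 k hk _ (ha.map f)⟩
  obtain ⟨z, hz⟩ := h1 _ ha
  exact ⟨z, hf (hz.trans (map_smul_one f z).symm)⟩

theorem Sph.span {W : Type} [TopologicalSpace W] {n : ℤ} (h : Sph W n) (hn : n ≠ 0) {x y : H W}
    (hx : H.IsDeg n x) (h0 : x ≠ 0) (hy : H.IsDeg n y) : ∃ c : ℂ, y = c • x := by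
  obtain ⟨φ, h1, -⟩ := h
  have h2 : φ x ≠ 0 := fun h => h0 (eq_zero_of_smul_one hn hx (h1 x h).choose_spec)
  refine ⟨φ y / φ x, sub_eq_zero.1 (eq_zero_of_smul_one hn
    ((H.deg W n).sub_mem hy ((H.deg W n).smul_mem _ hx)) (h1 _ ?_).choose_spec)⟩
  rw [map_sub, map_smul, smul_eq_mul, div_mul_cancel₀ _ h2, sub_self]

theorem acyc_star {V : Type} [NormedAddCommGroup V] [NormedSpace ℝ V] {K : Set V}
    (hK : IsCompact K) {x : V} (hx : x ∈ K) (hs : StarConvex ℝ x K) : Acyc K := by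
  have := isCompact_iff_compactSpace.1 hK
  have := hs.contractibleSpace ⟨x, hx⟩
  exact acyc_of_contractible

theorem sph_sphere {V : Type} [NormedAddCommGroup V] [NormedSpace ℝ V] [FiniteDimensional ℝ V]
    {ρ : ℝ} (hρ : 0 < ρ) {n : ℤ} (hn : n + 1 = finrank ℝ V) : Sph (sphere (0 : V) ρ) n := by
  obtain ⟨t, ht, -⟩ := exists_isGen V
  obtain ⟨e⟩ := nonempty_homeomorph_ball (0 : V) hρ
  replace ht := ht.pull e.isHomeomorph
  obtain ⟨l, hl⟩ := not_forall.1 (mt (Module.forall_dual_apply_eq_zero_iff ℂ _).1 ht.ne)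
  have hi := isClosedEmbedding_incl (sphere_subset_closedBall (x := (0 : V)) (ε := ρ))
    isClosed_sphere
  have hj := isOpenEmbedding_incl (ball_subset_closedBall (x := (0 : V)) (ε := ρ)) isOpen_ball
  have hc : range (inclusion (ball_subset_closedBall (x := (0 : V)) (ε := ρ))) =
      (range (inclusion (sphere_subset_closedBall (x := (0 : V)) (ε := ρ))))ᶜ := by
    rw [range_inclusion, range_inclusion]
    ext x
    exact ⟨fun h => ne_of_lt h, lt_of_le_of_ne x.2⟩
  let T := LinearEquiv.ofBijective _ (toH_bijective (X := sphere (0 : V) ρ))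
  refine ⟨l ∘ₗ Hc.conn hi hj hc ∘ₗ T.symm.toLinearMap, fun a ha => ?_, fun k hk a ha => ?_⟩
  · obtain ⟨a, rfl⟩ := T.surjective a
    simp only [LinearMap.comp_apply, LinearEquiv.coe_coe, LinearEquiv.symm_apply_apply] at ha
    obtain ⟨z, hz⟩ := ht.span (Hc.conn hi hj hc a)
    rw [hz, map_smul, smul_eq_mul, mul_eq_zero] at ha
    rw [ha.resolve_right hl, zero_smul] at hz
    obtain ⟨b, rfl⟩ := (Hc.exact_pull_conn hi hj hc a).1 hz
    obtain ⟨w, hw⟩ := acyc_star (isCompact_closedBall (0 : V) ρ) (mem_closedBall_self hρ.le)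
      ((convex_closedBall _ _).starConvex (mem_closedBall_self hρ.le)) (toH b)
    exact ⟨w, (toH_pull (f := ContinuousMap.inclusion sphere_subset_closedBall) _ b).trans
      (by rw [hw, map_smul_one])⟩
  · obtain ⟨a, h1, rfl⟩ := exists_toH ha
    have : T.symm (toH a) = a := T.symm_apply_apply a
    simp only [LinearMap.comp_apply, LinearEquiv.coe_coe, this]
    rw [ht.eq_zero (by omega) (Hc.conn_deg hi hj hc h1), map_zero]

section milnor

variable {n : ℕ}

/-- the square of the length of the real part -/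
def aq (z : Fin (n + 1) → ℂ) : ℝ := ∑ i, (z i).re ^ 2

/-- the square of the length of the imaginary part -/
def bq (z : Fin (n + 1) → ℂ) : ℝ := ∑ i, (z i).im ^ 2

/-- the scalar product of the real and of the imaginary part -/
def cq (z : Fin (n + 1) → ℂ) : ℝ := ∑ i, (z i).re * (z i).im

theorem bq_nonneg (z : Fin (n + 1) → ℂ) : 0 ≤ bq z := Finset.sum_nonneg fun _ _ => sq_nonneg _

theorem nq_eq (z : Fin (n + 1) → ℂ) : nq z = aq z + bq z := by
  simp only [nq, aq, bq, ← Finset.sum_add_distrib, Complex.sq_norm, Complex.normSq_apply]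
  simp only [sq]

theorem qf_eq {z : Fin (n + 1) → ℂ} {r : ℝ} : qf z = r ↔ aq z = r + bq z ∧ cq z = 0 := by
  have h1 : (qf z).re = aq z - bq z := by
    simp only [qf, aq, bq, Complex.re_sum, ← Finset.sum_sub_distrib, sq, Complex.mul_re]
  have h2 : (qf z).im = 2 * cq z := by
    simp only [qf, cq, Complex.im_sum, Finset.mul_sum, sq, Complex.mul_im]
    exact Finset.sum_congr rfl fun _ _ => by ring
  rw [Complex.ext_iff, h1, h2, Complex.ofReal_re, Complex.ofReal_im, sub_eq_iff_eq_add]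
  simp

theorem continuous_qf : Continuous (qf : (Fin (n + 1) → ℂ) → ℂ) := by
  unfold qf
  fun_prop

theorem continuous_nq : Continuous (nq : (Fin (n + 1) → ℂ) → ℝ) := by
  unfold nq
  fun_prop

theorem continuous_bq : Continuous (bq : (Fin (n + 1) → ℂ) → ℝ) := by
  unfold bq
  fun_prop

/-- the deformation to the real sphere -/
noncomputable def dfm (r s : ℝ) (z : Fin (n + 1) → ℂ) : Fin (n + 1) → ℂ := fun i =>
  ((√(r + s ^ 2 * bq z) / √(r + bq z) * (z i).re : ℝ) : ℂ) + ((s * (z i).im : ℝ) : ℂ) * Complex.I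

theorem dfm_re (r s : ℝ) (z : Fin (n + 1) → ℂ) (i : Fin (n + 1)) :
    (dfm r s z i).re = √(r + s ^ 2 * bq z) / √(r + bq z) * (z i).re := by
  simp only [dfm, Complex.add_re, Complex.ofReal_re, Complex.mul_I_re, Complex.ofReal_im, neg_zero,
    add_zero]

theorem dfm_im (r s : ℝ) (z : Fin (n + 1) → ℂ) (i : Fin (n + 1)) :
    (dfm r s z i).im = s * (z i).im := by
  simp only [dfm, Complex.add_im, Complex.ofReal_re, Complex.mul_I_im, Complex.ofReal_im, zero_add]

variable {r : ℝ} (hr : 0 < r)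
include hr

theorem continuous_dfm : Continuous fun p : ℝ × (Fin (n + 1) → ℂ) => dfm r p.1 p.2 := by
  have := continuous_bq (n := n)
  have h : Continuous fun p : ℝ × (Fin (n + 1) → ℂ) => √(r + p.1 ^ 2 * bq p.2) / √(r + bq p.2) :=
    Continuous.div (by fun_prop) (by fun_prop) fun p =>
      (Real.sqrt_pos.2 (by linarith [bq_nonneg p.2])).ne'
  unfold dfm
  fun_prop

theorem dfm_spec {z : Fin (n + 1) → ℂ} (hz : qf z = r) (s : ℝ) :
    qf (dfm r s z) = r ∧ bq (dfm r s z) = s ^ 2 * bq z := by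
  have h0 := bq_nonneg z
  obtain ⟨h1, h2⟩ := qf_eq.1 hz
  have h3 : bq (dfm r s z) = s ^ 2 * bq z := by
    simp only [bq, dfm_im, mul_pow, Finset.mul_sum]
  refine ⟨qf_eq.2 ⟨?_, ?_⟩, h3⟩
  · have : aq (dfm r s z) = (√(r + s ^ 2 * bq z) / √(r + bq z)) ^ 2 * aq z := by
      simp only [aq, dfm_re, mul_pow, Finset.mul_sum]
    rw [this, h1, h3, div_pow, Real.sq_sqrt (by positivity), Real.sq_sqrt (by positivity),
      div_mul_cancel₀ _ (by positivity)]
  · have : cq (dfm r s z) = √(r + s ^ 2 * bq z) / √(r + bq z) * s * cq z := by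
      simp only [cq, dfm_re, dfm_im, Finset.mul_sum]
      exact Finset.sum_congr rfl fun _ _ => by ring
    rw [this, h2, mul_zero]

theorem dfm_one (z : Fin (n + 1) → ℂ) : dfm r 1 z = z := funext fun i => by
  have h0 := bq_nonneg z
  apply Complex.ext
  · rw [dfm_re, one_pow, one_mul, div_self (by positivity), one_mul]
  · rw [dfm_im, one_mul]

omit hr in
theorem nq_of_qf {z : Fin (n + 1) → ℂ} (hz : qf z = r) : nq z = r + 2 * bq z := by
  rw [nq_eq, (qf_eq.1 hz).1]
  ring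

theorem mem_sph {x : EuclideanSpace ℝ (Fin (n + 1))} :
    x ∈ sphere 0 √r ↔ qf (fun i => (x i : ℂ)) = r := by
  rw [mem_sphere_zero_iff_norm, qf_eq, ← sq_eq_sq₀ (norm_nonneg _) (Real.sqrt_nonneg _),
    Real.sq_sqrt hr.le, EuclideanSpace.real_norm_sq_eq]
  simp [aq, bq, cq]

variable {P : ℝ → Prop} (hP : P r)

/-- the vanishing cycle -/
noncomputable def vc (hP : P r) : C(sphere (0 : EuclideanSpace ℝ (Fin (n + 1))) √r,
    {z : Fin (n + 1) → ℂ | qf z = r ∧ P (nq z)}) :=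
  ⟨fun x => ⟨fun i => (x.1 i : ℂ), (mem_sph hr).1 x.2, by
    rw [nq_of_qf ((mem_sph hr).1 x.2)]
    simpa [bq] using hP⟩, by fun_prop⟩

theorem vc_bijective (hP' : ∀ s t, s ≤ t → P t → P s)
    (hl : IsLocallyClosed {z : Fin (n + 1) → ℂ | qf z = r ∧ P (nq z)}) :
    Bijective (H.map (vc (n := n) hr hP)) := by
  have := hl.locallyCompactSpace
  have hc := continuous_dfm (n := n) hr
  have h0 : ∀ z : Fin (n + 1) → ℂ, (fun i => ((dfm r 0 z i).re : ℂ)) = dfm r 0 z := fun z =>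
    funext fun i => Complex.ext rfl (by rw [dfm_im, zero_mul, Complex.ofReal_im])
  have hc0 : Continuous fun z : Fin (n + 1) → ℂ => dfm r 0 z :=
    hc.comp (Continuous.prodMk_right (0 : ℝ))
  refine H.map_bijective_of_retract _ ⟨fun z => ⟨WithLp.toLp 2 fun i => (dfm r 0 z.1 i).re,
    (mem_sph hr).2 (by rw [h0]; exact (dfm_spec hr z.2.1 0).1)⟩,
    ((PiLp.continuous_toLp 2 _).comp (continuous_pi fun i => Complex.continuous_re.comp
      ((continuous_apply i).comp (hc0.comp continuous_subtype_val)))).subtype_mk _⟩ (fun x => ?_)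
    ⟨⟨⟨fun p => ⟨dfm r p.1 p.2, (dfm_spec hr p.2.2.1 _).1, hP' _ _ ?_ p.2.2.2⟩, ?_⟩, fun z => ?_,
      fun z => ?_⟩⟩
  · ext i
    have : bq (fun i => (x.1 i : ℂ)) = 0 := by simp [bq]
    simp [vc, dfm_re, this, (Real.sqrt_pos.2 hr).ne']
  · rw [nq_of_qf (dfm_spec hr p.2.2.1 _).1, nq_of_qf p.2.2.1, (dfm_spec hr p.2.2.1 _).2]
    have h1 : p.1.1 ^ 2 ≤ 1 := pow_le_one₀ p.1.2.1 p.1.2.2
    nlinarith [bq_nonneg p.2.1]
  · exact (hc.comp (continuous_subtype_val.prodMap continuous_subtype_val)).subtype_mk _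
  · exact Subtype.ext (h0 z).symm
  · exact Subtype.ext (dfm_one hr z.1)

include hP in
theorem sph_mil (hP' : ∀ s t, s ≤ t → P t → P s)
    (hl : IsLocallyClosed {z : Fin (n + 1) → ℂ | qf z = r ∧ P (nq z)}) :
    Sph {z : Fin (n + 1) → ℂ | qf z = r ∧ P (nq z)} n :=
  (sph_sphere (Real.sqrt_pos.2 hr) (by simp)).of_inj (vc_bijective hr hP hP' hl).1

omit hr in
theorem isLocallyClosed_mil (c : ℂ) {S : Set ℝ} (hS : IsLocallyClosed S) :
    IsLocallyClosed {z : Fin (n + 1) → ℂ | qf z = c ∧ nq z ∈ S} :=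
  (isClosed_eq continuous_qf continuous_const).isLocallyClosed.inter (hS.preimage continuous_nq)

omit hr in
theorem isCompact_nq : IsCompact {z : Fin (n + 1) → ℂ | nq z ≤ 1} := by
  refine (isCompact_closedBall 0 1).of_isClosed_subset (isClosed_le continuous_nq continuous_const)
    fun z hz => mem_closedBall_zero_iff.2 ((pi_norm_le_iff_of_nonneg zero_le_one).2 fun i => ?_)
  exact (sq_le_one_iff₀ (norm_nonneg _)).1 ((Finset.single_le_sum (f := fun i => ‖z i‖ ^ 2)
    (fun _ _ => sq_nonneg _) (Finset.mem_univ i)).trans hz)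

omit hr in
theorem isCompact_mil (c : ℂ) : IsCompact (Mil n c) :=
  isCompact_nq.inter_left (isClosed_eq continuous_qf continuous_const)

omit hr in
theorem starConvex_nq {P Q : ℝ → Prop} (hP : ∀ s t, s ≤ t → P t → P s)
    (hQ : ∀ s t, s ≤ t → Q t → Q s) :
    StarConvex ℝ 0 {z : Fin (n + 1) → ℂ | P (nq z) ∧ Q ‖qf z‖} := by
  rw [starConvex_zero_iff]
  intro z hz a h0 h1
  have h2 : a ^ 2 ≤ 1 := pow_le_one₀ h0 h1
  have e1 : nq (a • z) = a ^ 2 * nq z := by
    simp only [nq, Pi.smul_apply, norm_smul, mul_pow, Finset.mul_sum, Real.norm_eq_abs, sq_abs]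
  have e2 : qf (a • z) = (a ^ 2 : ℝ) * qf z := by
    simp only [qf, Pi.smul_apply, Complex.real_smul, mul_pow, Finset.mul_sum, Complex.ofReal_pow]
  refine ⟨hP _ _ ?_ hz.1, hQ _ _ ?_ hz.2⟩
  · rw [e1]
    exact mul_le_of_le_one_left (Finset.sum_nonneg fun _ _ => sq_nonneg _) h2
  · rw [e2, norm_mul, Complex.norm_real, Real.norm_of_nonneg (sq_nonneg a)]
    exact mul_le_of_le_one_left (norm_nonneg _) h2

end milnor

/-- a half open arc -/
def arc (r : ℝ) : Set ℂ := {q | ‖q‖ = r ∧ 0 ≤ q.im ∧ q ≠ -r}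

section arc

variable {r : ℝ} (hr : 0 < r)

theorem isLocallyClosed_arc : IsLocallyClosed (arc r) :=
  (isClosed_eq continuous_norm continuous_const).isLocallyClosed.inter
    ((isClosed_le continuous_const Complex.continuous_im).isLocallyClosed.inter
      isOpen_ne.isLocallyClosed)

theorem sq_of_norm {q : ℂ} (h : ‖q‖ = r) : q.re ^ 2 + q.im ^ 2 = r ^ 2 := by
  rw [← h, Complex.sq_norm, Complex.normSq_apply, sq, sq]

include hr

theorem mem_arc {q : ℂ} : q ∈ arc r ↔ q = r ∨ ‖q‖ = r ∧ 0 < q.im := by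
  constructor
  · rintro ⟨h1, h2, h3⟩
    refine h2.eq_or_lt.imp (fun h => Complex.ext ?_ h.symm) fun h => ⟨h1, h⟩
    have := sq_of_norm h1
    rw [← h, zero_pow two_ne_zero, add_zero] at this
    exact (sq_eq_sq_iff_eq_or_eq_neg.1 this).resolve_right fun e =>
      h3 (Complex.ext e (by simp [← h]))
  · rintro (rfl | ⟨h1, h2⟩)
    · exact ⟨by simp [hr.le], le_rfl, fun h => by
        have := congrArg Complex.re h
        simp only [Complex.ofReal_re, Complex.neg_re] at this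
        linarith⟩
    · exact ⟨h1, h2.le, fun h => by simp [h] at h2⟩

theorem neg_mem_arc {q : ℂ} : -q ∈ arc r ↔ ‖q‖ = r ∧ q ∉ arc r := by
  rw [mem_arc hr (q := q)]
  simp only [arc, mem_ofPred_eq, norm_neg, Complex.neg_im, Left.nonneg_neg_iff, ne_eq, neg_inj,
    not_or, not_and, not_lt]
  tauto

theorem null_arc : Null (arc r) := by
  have h1 : Null (Ico (-r) r) := null_interval
    (isClosed_Ici.isLocallyClosed.inter isOpen_Iio.isLocallyClosed) ordConnected_Ico
    (isLeast_Ico (by linarith)) fun t ht => ⟨(t + r) / 2, ⟨by linarith [ht.1], by linarith [ht.2]⟩,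
      by linarith [ht.2]⟩
  let g : ℝ → ℂ := fun t => ((-t : ℝ) : ℂ) + ((√(r ^ 2 - t ^ 2) : ℝ) : ℂ) * Complex.I
  have g1 : ∀ t, (g t).re = -t := fun t => by simp [g]
  have g2 : ∀ t, (g t).im = √(r ^ 2 - t ^ 2) := fun t => by simp [g]
  have hg : IsEmbedding g := IsEmbedding.of_leftInverse (f := fun q : ℂ => -q.re)
    (fun t => by simp [g1]) (by fun_prop) (by fun_prop)
  refine (h1.of_embedding hg).congr fun q => ⟨?_, ?_⟩
  · rintro ⟨h2, h3, h4⟩
    have h5 := sq_of_norm h2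
    have h6 := abs_le.1 (h2 ▸ Complex.abs_re_le_norm q)
    refine ⟨-q.re, ⟨by linarith, lt_of_le_of_ne (by linarith) fun h => h4 (Complex.ext ?_ ?_)⟩,
      Complex.ext (by simp [g1]) ?_⟩
    · simp [← h]
    · rw [← h] at h5
      simpa using h5
    · rw [g2, neg_sq, ← h5, add_sub_cancel_left, Real.sqrt_sq h3]
  · rintro ⟨t, ht, rfl⟩
    have h2 : 0 ≤ r ^ 2 - t ^ 2 := sub_nonneg.2 (sq_le_sq' ht.1 ht.2.le)
    refine ⟨?_, g2 t ▸ Real.sqrt_nonneg _, fun h => ht.2.ne ?_⟩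
    · rw [← sq_eq_sq₀ (norm_nonneg _) hr.le, ← sq_of_norm rfl, g1, g2, Real.sq_sqrt h2]
      ring
    · simpa [g1] using congrArg Complex.re h

theorem null_arc' : Null (sphere 0 r \ arc r) :=
  ((null_arc hr).of_embedding (Homeomorph.neg ℂ).isEmbedding).congr fun q => by
    rw [Homeomorph.coe_neg, image_neg_eq_neg, Set.mem_neg, neg_mem_arc hr, Set.mem_sdiff,
      mem_sphere_zero_iff_norm]

end arc

end Vale.Agent.P269.Mono.PL
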