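import Vale.Agent.P269.Mono.AG
import Vale.Agent.P269.Mono.Defs

set_option linter.unusedSectionVars false

/-!
# P269, monodromy: families of complete intersections, the weak Lefschetz theorem (helper19)
-/

namespace Vale.Agent.P269.Mono

open Set Topology Filter Module Function TopologicalSpace Vale.Agent.P291Z Vale.Agent.P291Z.Fl
open Matrix
open scoped ContDiff

theorem isEmbedding_of_left {X Y X' : Type} [TopologicalSpace X] [TopologicalSpace Y]
    [TopologicalSpace X'] {φ : X → Y} {j : X → X'} {ψ : Y → X'} (hj : IsEmbedding j)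
    (hφ : Continuous φ) (hψ : ∀ x, ContinuousAt ψ (φ x)) (h : ∀ x, ψ (φ x) = j x) :
    IsEmbedding φ := by
  refine ⟨isInducing_iff_nhds.2 fun x => le_antisymm hφ.continuousAt.le_comap ?_,
    fun x y e => hj.injective (by rw [← h, e, h])⟩
  rw [hj.nhds_eq_comap, ← funext h, show (fun x => ψ (φ x)) = ψ ∘ φ from rfl, ← comap_comap]
  exact comap_mono (hψ x).le_comap

theorem prod_ofFn_smul {R : Type} [Ring R] [Algebra ℂ R] {c : ℕ} (a : Fin c → ℂ) (x : R) :
    (List.ofFn fun i => a i • x).prod = (List.ofFn a).prod • x ^ c := by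
  induction c with
  | zero => simp
  | succ c ih =>
    rw [List.ofFn_succ, List.ofFn_succ, List.prod_cons, List.prod_cons, ih, smul_mul_smul_comm,
      pow_succ']

section Compact

variable {P Z U : Type} [TopologicalSpace P] [TopologicalSpace Z] [TopologicalSpace U]

theorem exists_toH_deg [CompactSpace P] {k : ℤ} {x : H P} (hx : H.IsDeg k x) :
    ∃ c ∈ Hc.deg P k, toH c = x := by
  obtain ⟨c, rfl⟩ := toH_bijective.2 x
  exact ⟨Hc.comp k c, Hc.comp_mem k c, by rw [toH_comp, hx.comp_eq]⟩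

variable [MetrizableSpace P] [CompactSpace P] {i : C(Z, P)} (hi : IsClosedEmbedding i)
include hi

theorem surj_of_low {j : U → P} (hj : IsOpenEmbedding j) (hc : range j = (range i)ᶜ) {q k : ℤ}
    (h : Low U q) (hk : k + 1 < q) {y : H Z} (hy : H.IsDeg k y) :
    ∃ x, H.IsDeg k x ∧ H.map i x = y := by
  have := hi.compactSpace
  obtain ⟨c, h1, rfl⟩ := exists_toH_deg hy
  obtain ⟨c', h2, rfl⟩ := Hc.exists_pull_deg hi hj hc h1 (h _ hk _ (Hc.conn_deg hi hj hc h1))
  exact ⟨_, toH_deg h2, (toH_pull _ _).symm⟩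

theorem mul_eq_zero_of_supp {t : Coch P} (ht : supp (δ t) = ∅) (hs : supp t ⊆ range i) {x : H P}
    (hx : H.map i x = 0) : x * hcls t = 0 := by
  have := hi.compactSpace
  obtain ⟨c, rfl⟩ := toH_bijective.2 x
  rw [← toH_pull (IsPr.of_isClosedEmbedding hi), ← map_zero toH] at hx
  rw [← toH_act, Hc.act_hcls ht, ← Hc.gys_pull hi ht hs, toH_bijective.1 hx, map_zero, map_zero]

end Compact

variable {m : Type} [Fintype m]

theorem PV.exists_smul {A : Matrix m m ℂ} (hA : A ∈ PV ⊤) {u : m → ℂ} (hu : A *ᵥ u ≠ 0)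
    (v : m → ℂ) : ∃ c : ℂ, A *ᵥ v = c • A *ᵥ u := by
  obtain ⟨a, -, ha, rfl⟩ := hA
  rw [Ne, prj_mulVec_eq_zero ha] at hu
  refine ⟨ip a v / ip a u, ?_⟩
  rw [prj_mulVec, prj_mulVec, smul_smul]
  congr 1
  field_simp

theorem PV.mulVec_mulVec {A : Matrix m m ℂ} (hA : A ∈ PV ⊤) (v : m → ℂ) :
    A *ᵥ A *ᵥ v = A *ᵥ v := by
  obtain ⟨a, -, ha, rfl⟩ := hA
  rw [prj_mulVec a v, mulVec_smul, prj_self ha]

theorem PV.ip_ne {A : Matrix m m ℂ} (hA : A ∈ PV ⊤) {e : m → ℂ} (h : A *ᵥ e ≠ 0) :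
    ip e (A *ᵥ e) ≠ 0 := by
  obtain ⟨u, -, hu, rfl⟩ := hA
  rw [Ne, prj_mulVec_eq_zero hu] at h
  rw [prj_mulVec, ip_smul]
  exact mul_ne_zero (div_ne_zero h (ip_self_ne hu)) (mt ip_eq_zero_comm.1 h)

theorem PV.eq_prj {A : Matrix m m ℂ} (hA : A ∈ PV ⊤) {v : m → ℂ} (h : A *ᵥ v = v) (h0 : v ≠ 0) :
    A = prj v := by
  obtain ⟨u, -, hu, rfl⟩ := hA
  rw [prj_mulVec] at h
  rw [← h, prj_smul]
  rintro e
  exact h0 (by rw [← h, e, zero_smul])

theorem prj_mem {v : m → ℂ} (h : v ≠ 0) : prj v ∈ PV ⊤ := ⟨v, trivial, h, rfl⟩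

section Line

variable {A : Type} [TopologicalSpace A] {g : A → Matrix m m ℂ} (hg : Continuous g)
  (hP : ∀ a, g a ∈ PV ⊤)
include hg hP

theorem isVB_taut : IsVB 1 (fun w : {w : A × (m → ℂ) | g w.1 *ᵥ w.2 = w.2} => w.1.1)
    {w | w.1.2 = 0} fun r φ => ∃ (a : A) (ℓ : (Fin r → ℂ) →ₗ[ℂ] m → ℂ), r = 1 ∧ Injective ℓ ∧
      (∀ v, g a *ᵥ v = v → v ∈ LinearMap.range ℓ) ∧ ∀ t, (φ t).1 = (a, ℓ t) := by
  refine ⟨by fun_prop, fun a₀ => ?_, fun r φ h => h.choose_spec.choose_spec.1, ?_⟩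
  · obtain ⟨e, -, he, h0⟩ := hP a₀
    have c1 : Continuous fun a => g a *ᵥ e := hg.matrix_mulVec continuous_const
    let N : Set A := {a | g a *ᵥ e ≠ 0}
    have hN : IsOpen N := isOpen_ne_fun c1 continuous_const
    let Φ : N × (Fin 1 → ℂ) → {w : A × (m → ℂ) | g w.1 *ᵥ w.2 = w.2} := fun x =>
      ⟨(x.1, x.2 0 • g x.1 *ᵥ e), by
        change g _ *ᵥ _ = _
        rw [mulVec_smul, PV.mulVec_mulVec (hP _)]⟩
    have hΦ : Continuous Φ := by
      refine Continuous.subtype_mk (continuous_fst.subtype_val.prodMk ?_) _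
      exact ((continuous_apply 0).comp continuous_snd).smul (c1.comp continuous_fst.subtype_val)
    have hs : ∀ a ∈ N, ∀ v, g a *ᵥ v = v → ∃ t : Fin 1 → ℂ, t 0 • g a *ᵥ e = v := fun a ha v hv => by
      obtain ⟨c, hc⟩ := PV.exists_smul (hP a) ha v
      exact ⟨fun _ => c, hc.symm.trans hv⟩
    have hr : range Φ = (fun w => w.1.1) ⁻¹' N := by
      ext ⟨⟨a, v⟩, hw⟩
      refine ⟨by rintro ⟨x, hx⟩; exact hx ▸ x.1.2, fun ha => ?_⟩
      obtain ⟨t, rfl⟩ := hs a ha v hw
      exact ⟨(⟨a, ha⟩, t), rfl⟩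
    refine ⟨N, Φ, show g a₀ *ᵥ e ≠ 0 by rwa [h0, prj_self he], ⟨hN, ⟨?_, ?_⟩, hr, fun _ => rfl,
      fun x => ?_⟩, fun y => ⟨y, (LinearMap.toSpanSingleton ℂ _ (g y *ᵥ e)).comp
        (LinearMap.proj 0), rfl, fun t t' h => ?_, fun v hv => hs _ y.2 v hv, fun _ => rfl⟩⟩
    · refine isEmbedding_of_left (j := Prod.map Subtype.val id)
        (ψ := fun w => (w.1.1, fun _ => ip e w.1.2 / ip e (g w.1.1 *ᵥ e)))
        (IsEmbedding.subtypeVal.prodMap IsEmbedding.id) hΦ (fun x => ?_) fun x => ?_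
      · refine ContinuousAt.prodMk (by fun_prop) (continuousAt_pi.2 fun _ => ?_)
        exact ContinuousAt.div (by fun_prop) (by fun_prop) (PV.ip_ne (hP _) x.1.2)
      · refine Prod.ext rfl (funext fun i => ?_)
        change ip e (x.2 0 • g x.1 *ᵥ e) / ip e (g x.1 *ᵥ e) = x.2 i
        rw [ip_smul, mul_div_cancel_right₀ _ (PV.ip_ne (hP _) x.1.2), Subsingleton.elim i 0]
    · rw [hr]
      exact hN.preimage (by fun_prop)
    · change x.2 0 • g x.1 *ᵥ e = 0 ↔ _
      rw [smul_eq_zero, or_iff_left x.1.2]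
      exact ⟨fun h => funext fun i => by rw [Subsingleton.elim i 0, h]; rfl, fun h => by rw [h]; rfl⟩
    · exact funext fun i => by
        rw [Subsingleton.elim i 0]
        exact smul_left_injective ℂ y.2 h
  · rintro φ φ' ⟨a, ℓ, -, h1, h2, h3⟩ ⟨a', ℓ', -, h1', h2', h3'⟩ e
    simp only [h3, h3'] at e
    subst e
    have h4 : LinearMap.range ℓ = LinearMap.range ℓ' := by
      apply le_antisymm
      · rintro _ ⟨t, rfl⟩
        exact h2' _ (by simpa [h3] using (φ t).2)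
      · rintro _ ⟨t, rfl⟩
        exact h2 _ (by simpa [h3'] using (φ' t).2)
    let γ := (LinearEquiv.ofInjective ℓ h1).trans
      ((LinearEquiv.ofEq _ _ h4).trans (LinearEquiv.ofInjective ℓ' h1').symm)
    have hγ : ∀ a, ℓ' (γ a) = ℓ a := fun a =>
      congrArg Subtype.val ((LinearEquiv.ofInjective ℓ' h1').apply_symm_apply _)
    exact ⟨γ, funext fun a => Subtype.ext (by rw [Function.comp_apply, h3, h3', hγ])⟩

/-- from the complement of the zero section of the tautological line bundle to the base -/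
theorem low_quot [MetrizableSpace A] [LocallyCompactSpace A] [SigmaCompactSpace A] {Y : Type}
    [TopologicalSpace Y] {j : Y → A × (m → ℂ)} (hj : IsEmbedding j)
    (hr : ∀ w, w ∈ range j ↔ g w.1 *ᵥ w.2 = w.2 ∧ w.2 ≠ 0) {q : ℤ} (h : Low Y q) :
    Low A (q - 1) := by
  have hV := isVB_taut hg hP
  have hL : IsClosed {w : A × (m → ℂ) | g w.1 *ᵥ w.2 = w.2} := isClosed_eq (by fun_prop) (by fun_prop)
  have := hL.locallyCompactSpace
  obtain ⟨t, ht⟩ := hV.exists_thom
  let s : A → {w : A × (m → ℂ) | g w.1 *ᵥ w.2 = w.2} := fun a => ⟨(a, 0), mulVec_zero _⟩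
  let j' : Y → {w : A × (m → ℂ) | g w.1 *ᵥ w.2 = w.2} := fun y => ⟨j y, ((hr _).1 ⟨y, rfl⟩).1⟩
  have h1 : range s = {w | w.1.2 = 0} :=
    Set.ext fun w => ⟨by rintro ⟨a, rfl⟩; rfl, fun h => ⟨w.1.1, Subtype.ext (Prod.ext rfl h.symm)⟩⟩
  have h2 : range j' = (range s)ᶜ := by
    rw [h1]
    refine Set.ext fun w => ⟨by rintro ⟨y, rfl⟩; exact ((hr _).1 ⟨y, rfl⟩).2, fun h => ?_⟩
    obtain ⟨y, hy⟩ := (hr w.1).2 ⟨w.2, h⟩
    exact ⟨y, Subtype.ext hy⟩
  have hs : IsClosedEmbedding s := ⟨isEmbedding_of_leftInverse (ψ := fun w => w.1.1)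
    (Continuous.subtype_mk (by fun_prop) _) (fun _ => rfl) fun _ => by fun_prop,
    h1 ▸ isClosed_eq (by fun_prop) continuous_const⟩
  have hj' : IsOpenEmbedding j' := ⟨IsEmbedding.subtypeVal.of_comp_iff.1 hj,
    h2 ▸ hs.isClosed_range.isOpen_compl⟩
  have key : ∀ l : ℕ, ∀ k : ℤ, k < l → k < q - 1 → ∀ c ∈ Hc.deg A k, c = 0 := by
    intro l
    induction l with
    | zero => exact fun k hk _ c hc => Hc.eq_zero_of_neg hc hk
    | succ l ih =>
      intro k hk hq c hc
      obtain ⟨c₁, h3, rfl⟩ := Hc.exists_pull_deg hs hj' h2 hc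
        (h _ (by omega) _ (Hc.conn_deg hs hj' h2 hc))
      obtain ⟨c₂, rfl⟩ := (hV.thom_iso ht).2 c₁
      obtain ⟨c₃, h4, h5⟩ := Hc.exists_deg_of_range (k := k - 2) (c := c₂)
        (fun k c hc => Hc.pullMul_deg hV.cont ht.1 (hV.thom_prop ht) (hV.thom_deg ht) hc)
        (by simpa using h3)
      rw [← h5, ih (k - 2) (by push_cast at hk; omega) (by omega) c₃ h4, map_zero, map_zero]
  exact fun k hk => key (k.toNat + 1) k (by omega) hk

/-- a multiple of the hyperplane class is supported on the zero set of a section -/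
theorem exists_sec {s : A → (m → ℂ) → ℂ} (hs : Continuous fun p : A × (m → ℂ) => s p.1 p.2) {d : ℕ}
    (hd : ∀ a c v, s a (c • v) = c ^ d * s a v) : ∃ t : Coch A, supp (δ t) = ∅ ∧
      supp t ⊆ {a | ∀ v, s a (g a *ᵥ v) = 0} ∧ hcls t = (d : ℂ) • xc g := by
  choose r _ hr hr' using hP
  have hP : ∀ a, g a ∈ PV ⊤ := fun a => ⟨r a, trivial, hr a, hr' a⟩
  let f : A → A → ℂ := fun a b => s a (g a *ᵥ r b) / s b (r b)
  have h1 := cocycle_smul (d : ℂ) (xi_cocycle hg hP)
  refine ⟨(d : ℂ) • xi g - δ (lg2 f), cocycle_sub h1 (cocycle_δ _), fun x hx => by_contra fun h => ?_,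
    ?_⟩
  · have h2 : ∀ a, (¬∀ v, s a (g a *ᵥ v) = 0) → s a (r a) ≠ 0 := fun a h h' => h fun v => by
      rw [hr' a, prj_mulVec, hd, h', mul_zero]
    have hx' : g x *ᵥ r x = r x := by rw [hr' x, prj_self (hr x)]
    have c1 : Continuous fun y => g y *ᵥ r x := hg.matrix_mulVec continuous_const
    have c2 : Continuous fun y => s y (g y *ᵥ r x) := hs.comp (continuous_id.prodMk c1)
    have h3 : ∀ᶠ y in 𝓝 x, s y (g y *ᵥ r x) ≠ 0 :=
      c2.continuousAt.eventually_ne (by rw [hx']; exact h2 x h)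
    have h4 : ∀ᶠ y in 𝓝 x, g y *ᵥ r x ≠ 0 := c1.continuousAt.eventually_ne (by rw [hx']; exact hr x)
    have T := triv_gg hg hP (e := r x) (x := x) (by rw [hx']; exact hr x)
    have T' : Triv (fun a b c => kap (g a) (g b) (g c) ^ d) f x := by
      constructor
      · have c3 : ContinuousAt (fun p : A × A =>
            s p.1 (g p.1 *ᵥ g p.2 *ᵥ r x) / s p.2 (g p.2 *ᵥ r x)) (x, x) :=
          (hs.comp (continuous_fst.prodMk ((hg.comp continuous_fst).matrix_mulVec
            (c1.comp continuous_snd)))).continuousAt.div (c2.comp continuous_snd).continuousAt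
            h3.self_of_nhds
        have e1 := c3.tendsto
        simp only [hx', div_self (h2 x h)] at e1
        refine e1.congr' ((continuous_snd.continuousAt.eventually h4).mono fun p hp => ?_)
        have h5 : ip (r p.2) (r x) / ip (r p.2) (r p.2) ≠ 0 := fun e => hp (by
          rw [hr' p.2, prj_mulVec, e, zero_smul])
        simp only [f]
        rw [hr' p.2, prj_mulVec (r p.2), mulVec_smul, hd, hd, mul_div_mul_left _ _ (pow_ne_zero _ h5)]
      · have h5 : ∀ᶠ y in 𝓝 x, s y (r y) ≠ 0 := h3.mono fun y hy => h2 y fun h => hy (h _)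
        filter_upwards [continuous_fst.continuousAt.eventually h5,
          (continuous_fst.comp continuous_snd).continuousAt.eventually h5,
          (continuous_snd.comp continuous_snd).continuousAt.eventually h5,
          T.κ_lim.eventually_ne one_ne_zero] with p k1 k2 k3 k4
        simp only [Function.comp_apply] at k1 k2 k3
        rw [hr' p.1, hr' p.2.1, hr' p.2.2, kap_prj (hr _) _ (hr _)] at k4
        have k5 : ip (r p.1) (r p.2.2) ≠ 0 := fun e => k4 (by rw [e, mul_zero, div_zero])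
        simp only [f]
        rw [hr' p.1, hr' p.2.1, hr' p.2.2, kap_prj (hr _) _ (hr _), prj_mulVec, prj_mulVec,
          prj_mulVec, hd, hd, hd]
        have := ip_self_ne (hr p.1)
        have := ip_self_ne (hr p.2.1)
        simp only [div_pow, mul_pow]
        field_simp
    have h6 : (d : ℂ) • xi g - lg3 (fun a b c => kap (g a) (g b) (g c) ^ d) ∈ Van x := by
      refine van_two (((xi_deg g).smul _).sub (isDeg_fn3 _)) ?_
      filter_upwards [lg_prod {()} (f := fun _ (p : A × A × A) => kap (g p.1) (g p.2.1) (g p.2.2))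
        (fun _ => d) fun _ _ => T.κ_lim] with p hp
      simp only [Finset.prod_singleton, Finset.sum_singleton, zpow_natCast, Int.cast_natCast] at hp
      exact sub_eq_zero.2 hp.symm
    have := (Van x).add_mem h6 T'.van
    rw [sub_add_sub_cancel] at this
    exact this hx
  · rw [hcls_sub h1 (cocycle_δ _), (hcls_eq_zero (cocycle_δ _)).2 ⟨_, by rw [sub_self, supp_zero]⟩,
      sub_zero, hcls_smul _ (xi_cocycle hg hP), xc]

end Line

namespace CI

variable {M κ B : Type} [NormedAddCommGroup M] [NormedSpace ℂ M] [Fintype κ] (S : CI M m κ)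
  [TopologicalSpace B]

theorem ev_zero (u : M) : S.ev u 0 = 0 := by
  ext k
  simpa [(S.pos k).ne'] using S.ev_hom u 0 0 k

theorem ev_smul_of {u : M} {x : m → ℂ} (h : S.ev u x = 0) (c : ℂ) : S.ev u (c • x) = 0 := by
  ext k
  simp [ev_hom, h]

theorem mem_X {u : M} {A : Matrix m m ℂ} :
    A ∈ S.X u ↔ A ∈ PV ⊤ ∧ ∀ e, S.ev u (A *ᵥ e) = 0 := by
  constructor
  · rintro ⟨x, h0, h1, rfl⟩
    exact ⟨prj_mem h0, fun e => by rw [prj_mulVec]; exact S.ev_smul_of h1 _⟩
  · rintro ⟨⟨x, -, h0, rfl⟩, h⟩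
    exact ⟨x, h0, by simpa [prj_self h0] using h x, rfl⟩

theorem prj_mem_X {u : M} {x : m → ℂ} (h : x ≠ 0) : prj x ∈ S.X u ↔ S.ev u x = 0 :=
  ⟨fun h' => by simpa [prj_self h] using (S.mem_X.1 h').2 x, fun h' => ⟨x, h, h', rfl⟩⟩

theorem X_sub {u : M} {A : Matrix m m ℂ} (h : A ∈ S.X u) : A ∈ PV ⊤ := (S.mem_X.1 h).1

/-- the hyperplane class of a member -/
noncomputable def h (u : M) : H (S.X u) := xc Subtype.val

/-- the hyperplane class of a family -/
noncomputable def hh (γ : B → M) : H (S.XX γ) := xc fun p => p.1.2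

/-- the inclusion of a fibre -/
def fib (γ : B → M) (b : B) : C(S.X (γ b), S.XX γ) := ⟨fun A => ⟨(b, A.1), A.2⟩, by fun_prop⟩

/-- the projection to the base -/
def pr (γ : B → M) : C(S.XX γ, B) := ⟨fun p => p.1.1, by fun_prop⟩

/-- the inclusion of a member in projective space -/
def inc (u : M) : C(S.X u, PV (⊤ : Submodule ℂ (m → ℂ))) :=
  ⟨fun A => ⟨A.1, S.X_sub A.2⟩, by fun_prop⟩

/-- the inclusion of a family in the trivial family -/
def incl (γ : B → M) : C(S.XX γ, B × PV (⊤ : Submodule ℂ (m → ℂ))) :=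
  ⟨fun p => (p.1.1, ⟨p.1.2, S.X_sub p.2⟩), by fun_prop⟩

theorem h_deg (u : M) : H.IsDeg 2 (S.h u) := xc_deg _

theorem map_fib_hh (γ : B → M) (b : B) : H.map (S.fib γ b) (S.hh γ) = S.h (γ b) :=
  map_xc _ (by fun_prop) fun p => S.X_sub p.2

theorem map_inc (u : M) : H.map (S.inc u) (xP ⊤) = S.h u :=
  map_xc _ continuous_subtype_val fun p => p.2

theorem isFib [T1Space B] (γ : B → M) (b : B) : IsFib (S.pr γ) b (S.fib γ b) := by
  have e : range (S.fib γ b) = S.pr γ ⁻¹' {b} := by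
    ext ⟨⟨b', A⟩, hA⟩
    refine ⟨by rintro ⟨A, h⟩; exact h ▸ rfl, fun h => ?_⟩
    obtain rfl : b' = b := h
    exact ⟨⟨A, hA⟩, rfl⟩
  exact ⟨⟨isEmbedding_of_left (ψ := fun p => p.1.2) IsEmbedding.subtypeVal (S.fib γ b).continuous
    (fun _ => by fun_prop) fun _ => rfl, e ▸ isClosed_singleton.preimage (S.pr γ).continuous⟩, e⟩

variable [FiniteDimensional ℂ M]

theorem continuous_ev {γ : B → M} (hγ : Continuous γ) {x : B → m → ℂ} (hx : Continuous x) :
    Continuous fun b => S.ev (γ b) (x b) :=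
  Continuous.comp (g := fun p : M × (m → ℂ) => S.ev p.1 p.2) (f := fun b => (γ b, x b))
    (S.contDiff_ev (n := 0)).continuous (hγ.prodMk hx)

theorem isClosed_mem {γ : B → M} (hγ : Continuous γ) {g : B → Matrix m m ℂ} (hg : Continuous g) :
    IsClosed {b | g b ∈ S.X (γ b)} := by
  simp only [mem_X, ofPred_and, ofPred_forall]
  exact ((isCompact_PV ⊤).isClosed.preimage hg).inter (isClosed_iInter fun e =>
    isClosed_eq (S.continuous_ev hγ (hg.matrix_mulVec continuous_const)) continuous_const)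

theorem isClosed_XX {γ : B → M} (hγ : Continuous γ) : IsClosed (S.XX γ) :=
  S.isClosed_mem (hγ.comp continuous_fst) continuous_snd

theorem isCompact_X (u : M) : IsCompact (S.X u) :=
  (isCompact_PV ⊤).of_isClosed_subset (S.isClosed_mem continuous_const continuous_id)
    fun _ => S.X_sub

instance (u : M) : CompactSpace (S.X u) := isCompact_iff_compactSpace.1 (S.isCompact_X u)

theorem compactSpace_XX [CompactSpace B] {γ : B → M} (hγ : Continuous γ) : CompactSpace (S.XX γ) :=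
  isCompact_iff_compactSpace.1 ((isCompact_univ.prod (isCompact_PV ⊤)).of_isClosed_subset
    (S.isClosed_XX hγ) fun _ h => ⟨trivial, S.X_sub h⟩)

theorem range_inc (u : M) : range (S.inc u) = {A | A.1 ∈ S.X u} :=
  Set.ext fun A => ⟨by rintro ⟨A, rfl⟩; exact A.2, fun h => ⟨⟨A, h⟩, rfl⟩⟩

theorem range_incl (γ : B → M) : range (S.incl γ) = {p | p.2.1 ∈ S.X (γ p.1)} :=
  Set.ext fun p => ⟨by rintro ⟨A, rfl⟩; exact A.2, fun h => ⟨⟨(p.1, p.2.1), h⟩, rfl⟩⟩

theorem isClosedEmbedding_inc (u : M) : IsClosedEmbedding (S.inc u) :=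
  (S.inc u).continuous.isClosedEmbedding fun _ _ h =>
    Subtype.ext (congrArg (fun A : PV (⊤ : Submodule ℂ (m → ℂ)) => A.1) h)

theorem isClosedEmbedding_incl {γ : B → M} (hγ : Continuous γ) : IsClosedEmbedding (S.incl γ) :=
  ⟨isEmbedding_of_left (ψ := fun p => (p.1, p.2.1)) IsEmbedding.subtypeVal (S.incl γ).continuous
    (fun _ => by fun_prop) fun _ => rfl,
    S.range_incl γ ▸ S.isClosed_mem (hγ.comp continuous_fst) (by fun_prop)⟩

theorem exists_supp {γ : B → M} (hγ : Continuous γ) {g : B → Matrix m m ℂ} (hg : Continuous g)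
    (hP : ∀ b, g b ∈ PV ⊤) : ∃ t : Coch B, supp (δ t) = ∅ ∧ supp t ⊆ {b | g b ∈ S.X (γ b)} ∧
      ∃ a : ℂ, a ≠ 0 ∧ hcls t = a • xc g ^ Fintype.card κ := by
  choose t h1 h2 h3 using fun k => exists_sec hg hP (s := fun b v => S.ev (γ b) v k)
    ((continuous_apply k).comp (S.continuous_ev (hγ.comp continuous_fst) continuous_snd))
    fun b c v => S.ev_hom _ c v k
  let e := (Fintype.equivFin κ).symm
  refine ⟨(List.ofFn fun i => t (e i)).prod, cocycle_ofFn_prod fun i => h1 _,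
    (supp_ofFn_prod fun i => h2 (e i)).trans fun b hb => S.mem_X.2 ⟨hP b, fun v => funext fun k => ?_⟩,
    (List.ofFn fun i => (S.d (e i) : ℂ)).prod, ?_, ?_⟩
  · simpa using mem_iInter.1 hb (e.symm k) v
  · refine List.prod_ne_zero fun h => ?_
    obtain ⟨i, hi⟩ := List.mem_ofFn.1 h
    exact (S.pos _).ne' (Nat.cast_eq_zero.1 hi)
  · rw [hcls_ofFn_prod fun i => h1 _]
    simp only [h3]
    exact prod_ofFn_smul _ _

variable {n : ℕ} (hn : Fintype.card m = n + Fintype.card κ + 1)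
include hn

theorem h_pow_ne_zero (u : M) : S.h u ^ n ≠ 0 := fun h0 => by
  obtain ⟨t, h1, h2, a, h3, h4⟩ := S.exists_supp (B := PV (⊤ : Submodule ℂ (m → ℂ)))
    (γ := fun _ => u) continuous_const continuous_subtype_val fun A => A.2
  have h5 := mul_eq_zero_of_supp (S.isClosedEmbedding_inc u) h1 (S.range_inc u ▸ h2)
    (x := xP ⊤ ^ n) (by rw [map_pow, map_inc, h0])
  rw [h4, mul_smul_comm, smul_eq_zero, or_iff_right h3] at h5
  exact (isBasis_PV ⊤ (k := n + Fintype.card κ + 1) (by simp [hn])).li.ne_zero (Fin.last _)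
    ((pow_add _ _ _).trans h5)

end CI

end Vale.Agent.P269.Mono
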