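import Vale.Agent.P269.Mono.Fam0
import Vale.Agent.P269.Mono.Cover

set_option linter.unusedSectionVars false

/-!
# P269, monodromy: Lefschetz local systems (helper19)
-/

namespace Vale.Agent.P269.Mono

open Set Topology Filter Module Function TopologicalSpace Vale.Agent.P291Z Vale.Agent.P291Z.Fl

section Abstract

variable {M : Type} [NormedAddCommGroup M] [NormedSpace ℝ M] {Q : M → Type}
  [∀ u, AddCommGroup (Q u)] [∀ u, Module ℂ (Q u)]

/-- the transports along polygons in `O` which start at `u` -/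
inductive Pth (τ : ∀ u v : M, Q u →ₗ[ℂ] Q v) (O : Set M) (u : M) : ∀ v, (Q u →ₗ[ℂ] Q v) → Prop
  | refl : Pth τ O u u LinearMap.id
  | step {v w : M} {g : Q u →ₗ[ℂ] Q v} : Pth τ O u v g → segment ℝ v w ⊆ O →
      Pth τ O u w (τ v w ∘ₗ g)

variable {τ : ∀ u v : M, Q u →ₗ[ℂ] Q v} {O O' : Set M}

theorem Pth.tr {u v : M} {g : Q u →ₗ[ℂ] Q v} (h : Pth τ O u v g) (x : Q u) :
    Tr (fun a b => τ a b) O ⟨u, x⟩ ⟨v, g x⟩ := by
  induction h with
  | refl => exact Relation.ReflTransGen.refl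
  | step _ h ih => exact ih.tail ⟨h, rfl⟩

theorem Tr.pth {u : M} {x : Q u} {b : Σ u, Q u} (h : Tr (fun a b => τ a b) O ⟨u, x⟩ b) :
    ∃ g, Pth τ O u b.1 g ∧ g x = b.2 := by
  induction h with
  | refl => exact ⟨_, Pth.refl, rfl⟩
  | tail _ h ih =>
    obtain ⟨g, hg, e⟩ := ih
    exact ⟨_, hg.step h.1, by rw [LinearMap.comp_apply, e]; exact h.2⟩

theorem Pth.mono {u v : M} {g : Q u →ₗ[ℂ] Q v} (h : Pth τ O u v g) (e : O ⊆ O') :
    Pth τ O' u v g := by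
  induction h with
  | refl => exact Pth.refl
  | step _ h ih => exact ih.step (h.trans e)

theorem Pth.trans {u v w : M} {g : Q u →ₗ[ℂ] Q v} {g' : Q v →ₗ[ℂ] Q w} (h : Pth τ O u v g)
    (h' : Pth τ O v w g') : Pth τ O u w (g' ∘ₗ g) := by
  induction h' with
  | refl => exact h
  | step _ h ih => exact ih.step h

theorem Pth.mem {u v : M} {g : Q u →ₗ[ℂ] Q v} (h : Pth τ O u v g) (hu : u ∈ O) : v ∈ O := by
  induction h with
  | refl => exact hu
  | step _ h _ => exact h (right_mem_segment ℝ _ _)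

theorem Flat.pth {s : ∀ u, Q u} (hs : Flat (fun a b => τ a b) O s) {u v : M} {g : Q u →ₗ[ℂ] Q v}
    (h : Pth τ O u v g) : g (s u) = s v :=
  (hs.tr (h.tr (s u)) rfl).symm

/-- the vanishing cycles: the vectors whose Picard-Lefschetz transformation is a monodromy -/
def Del (τ : ∀ u v : M, Q u →ₗ[ℂ] Q v) (U : Set M) (B : ∀ u, Q u →ₗ[ℂ] Q u →ₗ[ℂ] ℂ)
    (V : ∀ u, Submodule ℂ (Q u)) (u : M) : Set (Q u) :=
  {δ | δ ∈ V u ∧ δ ≠ 0 ∧ ∃ c : ℂ, c ≠ 0 ∧ Pth τ U u u (1 + c • Inv.rk (B u) δ δ)}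

/-- a local system with the properties of the cohomology of the universal family of smooth complete
intersections -/
structure PLSys (U Z : Set M) (τ : ∀ u v : M, Q u →ₗ[ℂ] Q v) (B : ∀ u, Q u →ₗ[ℂ] Q u →ₗ[ℂ] ℂ)
    (V : ∀ u, Submodule ℂ (Q u)) (ε : ℂ) : Prop where
  loc : LocSys U fun a b => τ a b
  small : ∃ k, Small k Uᶜ ∧ k + 2 ≤ finrank ℝ M
  small' : ∃ k, Small k Z ∧ k + 3 ≤ finrank ℝ M
  disj : Disjoint U Z
  conn : IsPreconnected (Uᶜ \ Z)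
  fin : ∀ u ∈ U, FiniteDimensional ℂ (Q u)
  form : ∀ u ∈ U, Inv.IsForm (B u) (V u) ε
  map_B : ∀ u v, segment ℝ u v ⊆ U → ∀ x y, B v (τ u v x) (τ u v y) = B u x y
  map_V : ∀ u v, segment ℝ u v ⊆ U → ∀ x ∈ V u, τ u v x ∈ V v
  amb : ∀ u ∈ U, ∀ x, ∃ s, Flat (fun a b => τ a b) U s ∧ x - s u ∈ V u ∧ ∀ w ∈ V u, B u (s u) w = 0
  kl : ∀ s, Flat (fun a b => τ a b) U s → (∀ u ∈ U, s u ∈ V u) → ∀ u ∈ U, s u = 0
  node : ∀ y, y ∉ U → y ∉ Z → ∃ N, IsOpen N ∧ Convex ℝ N ∧ y ∈ N ∧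
    (∃ u ∈ N ∩ U, ∃ φ : Q u →ₗ[ℂ] ℂ, ∀ x ∈ V u, φ x = 0 →
      ∃ s, Flat (fun a b => τ a b) (N ∩ U) s ∧ s u = x) ∧
    ∀ y' ∈ N, y' ∉ U → ∀ O, IsOpen O → y' ∈ O → ∀ σ, Flat (fun a b => τ a b) (O ∩ U) σ →
      (∀ u ∈ O ∩ U, σ u ∈ V u) →
        ∃ u ∈ O ∩ N ∩ U, ∃ s, Flat (fun a b => τ a b) (N ∩ U) s ∧ s u = σ u

end Abstract

namespace CI

variable {M m κ : Type} [NormedAddCommGroup M] [NormedSpace ℂ M] [Fintype m] [Fintype κ]
  (S : CI M m κ)

/-- the transports in the family of the cohomology groups of the smooth members -/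
structure Tau (τ : ∀ u v : M, H (S.X u) →ₗ[ℂ] H (S.X v)) : Prop where
  loc : LocSys S.U fun a b => τ a b
  spec : ∀ (N : Set M) (u v : M) (hu : u ∈ N) (hv : v ∈ N), segment ℝ u v ⊆ N ∩ S.U →
    ∀ e, τ u v (H.map (S.rs N u hu) e) = H.map (S.rs N v hv) e
  bij : ∀ C : Set M, IsCompact C → Convex ℝ C → C ⊆ S.U → ∀ (u : M) (hu : u ∈ C),
    Bijective (H.map (S.rs C u hu))

open Classical in
/-- the section defined by a class on the family over `N` -/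
noncomputable def sec (N : Set M) (e : H (S.XS N)) (u : M) : H (S.X u) :=
  if hu : u ∈ N then H.map (S.rs N u hu) e else 0

theorem sec_of_mem {N : Set M} (e : H (S.XS N)) {u : M} (hu : u ∈ N) :
    S.sec N e u = H.map (S.rs N u hu) e := dif_pos hu

theorem map_rs_hh (N : Set M) (u : M) (hu : u ∈ N) : H.map (S.rs N u hu) (S.hh _) = S.h u :=
  S.map_fib_hh Subtype.val ⟨u, hu⟩

variable {S} {τ : ∀ u v : M, H (S.X u) →ₗ[ℂ] H (S.X v)} (T : S.Tau τ)
include T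

theorem Tau.flat_sec (N : Set M) (e : H (S.XS N)) :
    Flat (fun a b => τ a b) (N ∩ S.U) (S.sec N e) := fun u v h => by
  rw [S.sec_of_mem e (h (left_mem_segment ℝ u v)).1, S.sec_of_mem e (h (right_mem_segment ℝ u v)).1]
  exact T.spec N u v _ _ h e

/-- the transport is induced by two isomorphisms -/
theorem Tau.exists_eq {u v : M} (h : segment ℝ u v ⊆ S.U) :
    Bijective (H.map (S.rs _ u (left_mem_segment ℝ u v))) ∧
      Bijective (H.map (S.rs _ v (right_mem_segment ℝ u v))) ∧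
      ∀ e, τ u v (H.map (S.rs _ u (left_mem_segment ℝ u v)) e) =
        H.map (S.rs _ v (right_mem_segment ℝ u v)) e := by
  have hc : IsCompact (segment ℝ u v) := by
    rw [segment_eq_image]
    exact isCompact_Icc.image (by fun_prop)
  exact ⟨T.bij _ hc (convex_segment u v) h _ _, T.bij _ hc (convex_segment u v) h _ _,
    T.spec _ u v _ _ (subset_inter Subset.rfl h)⟩

variable {u v : M} (h : segment ℝ u v ⊆ S.U)
include h

theorem Tau.map_mul (x y : H (S.X u)) : τ u v (x * y) = τ u v x * τ u v y := by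
  obtain ⟨h1, -, h2⟩ := T.exists_eq h
  obtain ⟨x, rfl⟩ := h1.2 x
  obtain ⟨y, rfl⟩ := h1.2 y
  rw [← _root_.map_mul, h2, h2, h2, _root_.map_mul]

theorem Tau.map_pow (j : ℕ) : τ u v (S.h u ^ j) = S.h v ^ j := by
  obtain ⟨-, -, h2⟩ := T.exists_eq h
  have := h2 (S.hh _ ^ j)
  rwa [_root_.map_pow (H.map _), _root_.map_pow (H.map _), map_rs_hh, map_rs_hh] at this

theorem Tau.map_comp (k : ℤ) (x : H (S.X u)) : τ u v (H.comp k x) = H.comp k (τ u v x) := by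
  obtain ⟨h1, -, h2⟩ := T.exists_eq h
  obtain ⟨x, rfl⟩ := h1.2 x
  rw [H.comp_map, h2, h2, H.comp_map]

theorem Tau.isDeg {k : ℤ} {x : H (S.X u)} (hx : H.IsDeg k x) : H.IsDeg k (τ u v x) := by
  rw [← hx.comp_eq, T.map_comp h]
  exact H.isDeg_comp k _

theorem Tau.map_lef {n : ℕ} {ι : H (S.X u) →ₗ[ℂ] ℂ} {ι' : H (S.X v) →ₗ[ℂ] ℂ}
    (L : Lef n (S.h u) ι) (L' : Lef n (S.h v) ι') (x : H (S.X u)) : ι' (τ u v x) = ι x := by
  have := L.unique (ι' := ι' ∘ₗ τ u v) (fun k hk x hx => L'.deg k hk _ (T.isDeg h hx))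
    (by rw [LinearMap.comp_apply, T.map_pow h, L'.norm])
  exact LinearMap.congr_fun this x

end CI

end Vale.Agent.P269.Mono
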